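import Vale.Agent.P022K.MB.Main

/-!
# P022K / MB: Moret-Bailly's theorem for geometrically integral affine varieties (helper22)
-/

namespace Vale.Agent.P022K.MB

open Polynomial Filter Topology
open scoped IntermediateField Pointwise

/-- extension of a point from a subring with bounded denominators -/
theorem exists_ext {K B A Ω : Type*} [CommRing K] [CommRing B] [CommRing A] [Field Ω] [Algebra K B]
    [Algebra K A] [Algebra K Ω] (ψ : B →ₐ[K] A) (χ : B →ₐ[K] Ω) (hk : ∀ p, ψ p = 0 → χ p = 0)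
    (D : B) (hD : χ D ≠ 0) (h : ∀ a, ∃ p, ψ D * a = ψ p) :
    ∃ P : A →ₐ[K] Ω, ∀ p, P (ψ p) = χ p := by
  have wd : ∀ p q, ψ p = ψ q → χ p = χ q := fun p q e => by
    rw [← sub_eq_zero, ← map_sub]; exact hk _ (by rw [map_sub, e, sub_self])
  choose r hr using h
  have key : ∀ (z : A) (p : B), ψ D * z = ψ p → χ (r z) / χ D = χ p / χ D := fun z p hp => by
    rw [wd _ _ ((hr z).symm.trans hp)]
  refine ⟨{ toFun := fun z => χ (r z) / χ D
            map_one' := ?_, map_mul' := ?_, map_zero' := ?_, map_add' := ?_, commutes' := ?_ }, ?_⟩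
  · rw [key 1 D (by simp), div_self hD]
  · intro z w
    have h2 : χ (D * r (z * w)) = χ (r z * r w) := by
      refine wd _ _ ?_
      rw [map_mul, map_mul, ← hr, ← hr, ← hr]; ring
    rw [map_mul, map_mul] at h2
    field_simp
    rw [← h2]; ring
  · rw [key 0 0 (by simp), map_zero, zero_div]
  · intro z w
    rw [key (z + w) (r z + r w) (by rw [map_add, ← hr, ← hr]; ring), map_add, add_div]
  · intro c
    rw [key (algebraMap K _ c) (D * algebraMap K B c) (by rw [map_mul, AlgHom.commutes]), map_mul,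
      AlgHom.commutes, mul_div_cancel_left₀ _ hD]
  · intro p
    change χ (r (ψ p)) / χ D = _
    rw [key _ (D * p) (map_mul ψ D p).symm, map_mul, mul_div_cancel_left₀ _ hD]

/-- evaluation of a polynomial in `t` and `y` -/
noncomputable def evl (K : Type*) {σ A : Type*} [CommRing K] [CommRing A] [Algebra K A] (t : σ → A)
    (y : A) : (MvPolynomial σ K)[X] →ₐ[K] A :=
  eval₂AlgHom (MvPolynomial.aeval t) y fun _ => Commute.all _ _

theorem evl_apply {K σ A : Type*} [CommRing K] [CommRing A] [Algebra K A] (t : σ → A) (y : A)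
    (p : (MvPolynomial σ K)[X]) :
    evl K t y p = p.eval₂ (MvPolynomial.aeval t).toRingHom y := rfl

theorem evl_C {K σ A : Type*} [CommRing K] [CommRing A] [Algebra K A] (t : σ → A) (y : A)
    (p : MvPolynomial σ K) : evl K t y (C p) = MvPolynomial.aeval t p := by
  rw [evl_apply, eval₂_C]; rfl

theorem evl_X {K σ A : Type*} [CommRing K] [CommRing A] [Algebra K A] (t : σ → A) (y : A) :
    evl K t y X = y := by rw [evl_apply, eval₂_X]

theorem map_evl {K σ A B : Type*} [CommRing K] [CommRing A] [Algebra K A] [CommRing B] [Algebra K B]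
    (φ : A →ₐ[K] B) (t : σ → A) (y : A) (p : (MvPolynomial σ K)[X]) :
    φ (evl K t y p) = evl K (fun n => φ (t n)) (φ y) p := by
  have : φ.comp (evl K t y) = evl K (fun n => φ (t n)) (φ y) := by
    refine Polynomial.algHom_ext' ?_ (by simp [evl_X])
    ext n
    simp [evl_C]
  exact congrArg (fun F : _ →ₐ[K] B => F p) this

/-- the minimal polynomial of a generator of a regular extension is absolutely irreducible -/
theorem abs_irreducible {K F σ : Type*} [Field K] [CharZero K] [Field F] [Algebra K F]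
    (hc : ∀ z : F, IsAlgebraic K z → ∃ c : K, algebraMap K F c = z) {t : σ → F}
    (ht : AlgebraicIndependent K t) {y : F} {f : (MvPolynomial σ K)[X]} (hm : f.Monic)
    (h0 : evl K t y f = 0) (hk : ∀ p, evl K t y p = 0 → f ∣ p) :
    Irreducible (f.map (MvPolynomial.map (algebraMap K (AlgebraicClosure K)))) := by
  classical
  let L := AlgebraicClosure K
  let Ω := AlgebraicClosure F
  have : CharZero F := charZero_of_injective_algebraMap (algebraMap K F).injective
  let _ : Algebra L Ω := (IsAlgClosed.lift : L →ₐ[K] Ω).toRingHom.toAlgebra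
  have : IsScalarTower K L Ω := IsScalarTower.of_algebraMap_eq fun c =>
    ((IsAlgClosed.lift : L →ₐ[K] Ω).commutes c).symm
  let φ : F →ₐ[K] Ω := IsScalarTower.toAlgHom K F Ω
  have ht' : AlgebraicIndependent L fun n => φ (t n) :=
    (ht.map' (f := φ) φ.injective).extendScalars L
  let _ : Algebra (MvPolynomial σ L) Ω := (MvPolynomial.aeval fun n => φ (t n)).toRingHom.toAlgebra
  have : FaithfulSMul (MvPolynomial σ L) Ω := (faithfulSMul_iff_algebraMap_injective _ _).2 ht'
  have hev : ∀ p : (MvPolynomial σ K)[X],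
      aeval (φ y) (p.map (MvPolynomial.map (algebraMap K L))) = φ (evl K t y p) := by
    intro p
    rw [map_evl, evl_apply, aeval_def, eval₂_map]
    congr 1
    refine RingHom.ext fun q => ?_
    exact MvPolynomial.aeval_map_algebraMap L _ q
  have hy : IsIntegral (MvPolynomial σ L) (φ y) :=
    ⟨_, hm.map _, by rw [← aeval_def, hev, h0, map_zero]⟩
  set g := minpoly (MvPolynomial σ L) (φ y) with hg
  have h1 : g ∣ f.map (MvPolynomial.map (algebraMap K L)) :=
    minpoly.isIntegrallyClosed_dvd hy (by rw [hev, h0, map_zero])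
  have h2 : ∀ i m, MvPolynomial.coeff m (g.coeff i) ∈ Set.range (algebraMap K L) := by
    intro i m
    have h3 : algebraMap L Ω (MvPolynomial.coeff m (g.coeff i)) ∈ Set.range (algebraMap F Ω) := by
      refine (InfiniteGalois.mem_range_algebraMap_iff_fixed _).2 fun τ => ?_
      let τ0 : L →ₐ[K] L := (τ.restrictScalars K).toAlgHom.restrictNormal L
      have hτ : ∀ c, algebraMap L Ω (τ0 c) = τ (algebraMap L Ω c) := fun c =>
        AlgHom.restrictNormal_commutes _ L c
      have h4 : (algebraMap (MvPolynomial σ L) Ω).comp (MvPolynomial.map τ0.toRingHom) =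
          τ.toRingEquiv.toRingHom.comp (algebraMap (MvPolynomial σ L) Ω) := by
        refine MvPolynomial.ringHom_ext (fun c => ?_) fun n => ?_
        · simpa [RingHom.algebraMap_toAlgebra] using hτ c
        · simp only [RingHom.algebraMap_toAlgebra, RingHom.comp_apply, MvPolynomial.map_X,
            AlgHom.toRingHom_eq_coe, RingHom.coe_coe, MvPolynomial.aeval_X]
          exact (τ.commutes (t n)).symm
      have h5 : aeval (φ y) (g.map (MvPolynomial.map τ0.toRingHom)) = 0 := by
        have h6 : φ y = τ.toRingEquiv.toRingHom (φ y) := (τ.commutes y).symm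
        rw [aeval_def, eval₂_map, h4, h6, ← hom_eval₂, ← aeval_def, minpoly.aeval, map_zero]
      have h7 := eq_of_monic_of_dvd_of_natDegree_le (minpoly.monic hy) ((minpoly.monic hy).map _)
        (minpoly.isIntegrallyClosed_dvd hy h5) natDegree_map_le
      have h8 := congrArg (fun q => MvPolynomial.coeff m (q.coeff i)) h7
      simp only [coeff_map, MvPolynomial.coeff_map] at h8
      rw [← hτ]
      exact congrArg _ h8
    obtain ⟨z, hz⟩ := h3
    have h4 : IsAlgebraic K z := by
      rw [← isAlgebraic_algHom_iff φ φ.injective]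
      change IsAlgebraic K (algebraMap F Ω z)
      rw [hz]
      exact (Algebra.IsAlgebraic.isAlgebraic _).algebraMap
    obtain ⟨c, rfl⟩ := hc z h4
    refine ⟨c, (algebraMap L Ω).injective ?_⟩
    rw [← hz, ← IsScalarTower.algebraMap_apply, ← IsScalarTower.algebraMap_apply]
  obtain ⟨g0, hg0⟩ : g ∈ lifts (MvPolynomial.map (σ := σ) (algebraMap K L)) := by
    refine (lifts_iff_coeff_lifts g).2 fun i => MvPolynomial.mem_range_map_iff_coeffs_subset.2 ?_
    intro c hc
    obtain ⟨m, _, rfl⟩ := MvPolynomial.mem_coeffs_iff.1 hc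
    exact h2 i m
  rw [coe_mapRingHom] at hg0
  have h3 : f ∣ g0 := hk _ ((map_eq_zero φ).1 (by rw [← hev, hg0, minpoly.aeval]))
  exact (associated_of_dvd_dvd h1 (hg0 ▸ Polynomial.map_dvd _ h3)).irreducible
    (minpoly.irreducible hy)

/-- a finitely generated geometrically integral algebra is birational to a hypersurface -/
theorem exists_pres {K A F : Type*} [Field K] [CharZero K] [CommRing A] [IsDomain A] [Algebra K A]
    [Algebra.FiniteType K A] [Field F] [Algebra A F] [IsFractionRing A F] [Algebra K F]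
    [IsScalarTower K A F] (hc : ∀ z : F, IsAlgebraic K z → ∃ c : K, algebraMap K F c = z) :
    ∃ (s : ℕ) (t : Fin s → A) (y : A) (f : (MvPolynomial (Fin s) K)[X]), f.Monic ∧
      Irreducible (f.map (MvPolynomial.map (algebraMap K (AlgebraicClosure K)))) ∧
      (∀ p, evl K t y p = 0 ↔ f ∣ p) ∧ evl K t y (derivative f) ≠ 0 ∧
      (∀ a, ∃ p, evl K t y (derivative f) * a = evl K t y p) ∧
      ∀ a : A, a ≠ 0 → ∃ d : MvPolynomial (Fin s) K, d ≠ 0 ∧ a ∣ MvPolynomial.aeval t d := by
  obtain ⟨s, γ, hγ, hfin⟩ := exists_finite_inj_algHom_of_fg K A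
  let R := MvPolynomial (Fin s) K
  let t : Fin s → A := fun n => γ (MvPolynomial.X n)
  have ht : γ = MvPolynomial.aeval t := MvPolynomial.aeval_unique γ
  let _ : Algebra R A := γ.toRingHom.toAlgebra
  have : Module.Finite R A := hfin
  let _ : Algebra R F := ((algebraMap A F).comp (algebraMap R A)).toAlgebra
  have : IsScalarTower R A F := IsScalarTower.of_algebraMap_eq fun _ => rfl
  have hRF : Function.Injective (algebraMap R F) := (IsFractionRing.injective A F).comp hγ
  have : FaithfulSMul R F := (faithfulSMul_iff_algebraMap_injective _ _).2 hRF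
  have : FaithfulSMul R A := (faithfulSMul_iff_algebraMap_injective _ _).2 hγ
  let K' := FractionRing R
  let _ : Algebra K' F := FractionRing.liftAlgebra R F
  have : IsScalarTower R K' F := FractionRing.isScalarTower_liftAlgebra R F
  have : CharZero K' := charZero_of_injective_algebraMap (IsFractionRing.injective R K')
  have : FiniteDimensional K' F := Module.Finite.of_isLocalization R A (nonZeroDivisors R)
  obtain ⟨α, hα⟩ := Field.exists_primitive_element K' F
  obtain ⟨y, b, hb, hy⟩ : ∃ (y : A) (b : R), b ≠ 0 ∧ algebraMap A F y = algebraMap R F b * α := by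
    obtain ⟨⟨y, _, b, hb, rfl⟩, h⟩ := IsLocalization.surj
      (Algebra.algebraMapSubmonoid A (nonZeroDivisors R)) α
    exact ⟨y, b, nonZeroDivisors.ne_zero hb, by rw [← h, mul_comm]; rfl⟩
  have hyi : IsIntegral R y := Algebra.IsIntegral.isIntegral y
  have hyF : IsIntegral R (algebraMap A F y) := hyi.algebraMap
  have htop : Algebra.adjoin K' {algebraMap A F y} = ⊤ := by
    rw [← IntermediateField.adjoin_simple_toSubalgebra_of_isAlgebraic
      (Algebra.IsAlgebraic.isAlgebraic _), ← IntermediateField.top_toSubalgebra]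
    congr 1
    rw [eq_top_iff, ← hα, IntermediateField.adjoin_simple_le_iff]
    have hb' : algebraMap R F b ≠ 0 := (map_ne_zero_iff _ hRF).2 hb
    have : α = (algebraMap K' F (algebraMap R K' b))⁻¹ * algebraMap A F y := by
      rw [← IsScalarTower.algebraMap_apply, hy, inv_mul_cancel_left₀ hb']
    rw [this]
    exact mul_mem (inv_mem (IntermediateField.algebraMap_mem _ _))
      (IntermediateField.mem_adjoin_simple_self _ _)
  have hev : ∀ p : R[X], evl K t y p = aeval y p := fun p => by rw [evl_apply, ← ht]; rfl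
  have hker : ∀ p, evl K t y p = 0 ↔ minpoly R y ∣ p := fun p => by
    rw [hev, minpoly.isIntegrallyClosed_dvd_iff hyi]
  have hm := minpoly.monic hyi
  refine ⟨s, t, y, minpoly R y, hm, ?_, hker, ?_, fun a => ?_, fun a ha => ?_⟩
  · let φ := IsScalarTower.toAlgHom K A F
    have hφ : Function.Injective φ := IsFractionRing.injective A F
    refine abs_irreducible hc (t := fun n => φ (t n)) (y := φ y)
      (AlgebraicIndependent.map' (x := t) (f := φ) (by
        rw [algebraicIndependent_iff_injective_aeval, ← ht]; exact hγ) hφ) hm ?_ fun p hp => ?_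
    · rw [← map_evl, (hker _).2 dvd_rfl, map_zero]
    · rw [← map_evl, map_eq_zero_iff _ hφ] at hp
      exact (hker p).1 hp
  · intro h0
    have hp := minpoly.natDegree_pos hyi
    have h1 : derivative (minpoly R y) = 0 := by
      by_contra hne
      exact hm.not_dvd_of_natDegree_lt hne (natDegree_derivative_lt hp.ne') ((hker _).1 h0)
    have h2 := derivative_eq_zero.1 h1
    omega
  · have hd := traceForm_dualSubmodule_adjoin R K' htop hyF
    have h1 : algebraMap A F a ∈ (Algebra.traceForm K' F).dualSubmodule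
        (Subalgebra.toSubmodule (Algebra.adjoin R {algebraMap A F y})) := by
      intro w hw
      have hw' : IsIntegral R w := IsIntegral.of_mem_of_fg _ hyF.fg_adjoin_singleton w hw
      have h2 : IsIntegral R (Algebra.trace K' F (algebraMap A F a * w)) :=
        Algebra.isIntegral_trace ((Algebra.IsIntegral.isIntegral (R := R) a).algebraMap.mul hw')
      obtain ⟨c, hc⟩ := IsIntegrallyClosed.algebraMap_eq_of_integral h2
      rw [Algebra.traceForm_apply, ← hc]
      exact Submodule.algebraMap_mem c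
    rw [hd, minpoly.isIntegrallyClosed_eq_field_fractions K' F hyi, derivative_map,
      aeval_map_algebraMap, aeval_algebraMap_apply] at h1
    obtain ⟨w, hw, hw2⟩ := (Submodule.mem_smul_pointwise_iff_exists _ _ _).1 h1
    obtain ⟨p, rfl⟩ := (Algebra.adjoin_singleton_eq_range_aeval _ _).le hw
    by_cases h0 : algebraMap A F (aeval y (derivative (minpoly R y))) = 0
    · refine ⟨0, ?_⟩
      rw [hev, (map_eq_zero_iff _ (IsFractionRing.injective A F)).1 h0, zero_mul, map_zero]
    refine ⟨p, IsFractionRing.injective A F ?_⟩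
    rw [hev, hev, map_mul, ← hw2, smul_eq_mul, mul_inv_cancel_left₀ h0, ← aeval_algebraMap_apply]
    rfl
  · obtain ⟨d, hd, hd0⟩ := (Submodule.ne_bot_iff _).1 (Ideal.comap_ne_bot_of_integral_mem ha
      (Ideal.mem_span_singleton_self a) (Algebra.IsIntegral.isIntegral (R := R) a))
    exact ⟨d, hd0, ht ▸ Ideal.mem_span_singleton.1 hd⟩

/-- reduction of the data on an affine variety to data on a hypersurface -/
theorem exists_model {K A F ι J : Type*} [Field K] [CharZero K] [CommRing A] [IsDomain A]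
    [Algebra K A] [Algebra.FiniteType K A] [Field F] [Algebra A F] [IsFractionRing A F]
    [Algebra K F] [IsScalarTower K A F]
    (hc : ∀ z : F, IsAlgebraic K z → ∃ c : K, algebraMap K F c = z) {l : ι → Type*}
    [∀ i, NontriviallyNormedField (l i)] [∀ i, Algebra K (l i)] [Finite J] (g : J → A)
    (W : ∀ i, Set (J → l i))
    (hW : ∀ i, ∀ a : A, a ≠ 0 → ∃ Q : A →ₐ[K] l i, Q a ≠ 0 ∧ W i ∈ 𝓝 fun n => Q (g n))
    {δ : A} (hδ : δ ≠ 0) :
    ∃ (s : ℕ) (f : (MvPolynomial (Fin s) K)[X]) (a : ∀ i, Fin s → l i) (b : ∀ i, l i)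
      (W' : ∀ i, Set ((Fin s → l i) × l i)) (δ' : MvPolynomial (Fin s) K) (t : Fin s → A) (y : A),
      f.Monic ∧ Irreducible (f.map (MvPolynomial.map (algebraMap K (AlgebraicClosure K)))) ∧
      (∀ i, evl K (a i) (b i) f = 0) ∧ (∀ i, evl K (a i) (b i) (derivative f) ≠ 0) ∧
      (∀ i, W' i ∈ 𝓝 (a i, b i)) ∧ δ' ≠ 0 ∧
      ∀ (L : Type) [Field L] [Algebra K L] (t' : Fin s → L) (y' : L), evl K t' y' f = 0 →
        MvPolynomial.aeval t' δ' ≠ 0 → ∃ P : A →ₐ[K] L, (∀ n, P (t n) = t' n) ∧ P y = y' ∧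
          P δ ≠ 0 ∧ ∀ (i : ι) (Ω : Type) [Field Ω] [Algebra K Ω] (e : l i →ₐ[K] Ω) (j : L →ₐ[K] Ω),
            ∀ p ∈ W' i, (∀ n, j (t' n) = e (p.1 n)) → j y' = e p.2 →
              ∃ Q : A →ₐ[K] l i, (fun n => Q (g n)) ∈ W i ∧ ∀ z, j (P z) = e (Q z) := by
  obtain ⟨s, t, y, f, hm, hirr, hker, hD, hmul, hdvd⟩ := exists_pres (A := A) hc
  obtain ⟨Δ, hΔ, u, v, huv⟩ := exists_disc f hm (hm.irreducible_of_irreducible_map _ _ hirr)
  obtain ⟨d, hd, w, hw⟩ := hdvd δ hδ
  choose Q0 hQ0 hQW using fun i => hW i _ hD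
  choose r hr using hmul
  have hext : ∀ (L : Type _) [Field L] [Algebra K L] (t' : Fin s → L) (y' : L), evl K t' y' f = 0 →
      evl K t' y' (derivative f) ≠ 0 → ∃ P : A →ₐ[K] L, ∀ p, P (evl K t y p) = evl K t' y' p :=
    fun L _ _ t' y' h0 h1 => exists_ext (evl K t y) (evl K t' y') (fun p hp => by
      obtain ⟨c, rfl⟩ := (hker p).1 hp
      rw [map_mul, h0, zero_mul]) _ h1 fun a => ⟨_, hr a⟩
  have hext' : ∀ (i : ι) (t' : Fin s → l i) (y' : l i), evl K t' y' f = 0 →
      evl K t' y' (derivative f) ≠ 0 → ∃ P : A →ₐ[K] l i, ∀ p, P (evl K t y p) = evl K t' y' p :=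
    fun i t' y' h0 h1 => exists_ext (evl K t y) (evl K t' y') (fun p hp => by
      obtain ⟨c, rfl⟩ := (hker p).1 hp
      rw [map_mul, h0, zero_mul]) _ h1 fun a => ⟨_, hr a⟩
  let G : ∀ i, (Fin s → l i) × l i → J → l i := fun i p n =>
    evl K p.1 p.2 (r (g n)) / evl K p.1 p.2 (derivative f)
  refine ⟨s, f, fun i n => Q0 i (t n), fun i => Q0 i y, fun i => G i ⁻¹' W i, Δ * d, t, y, hm, hirr,
    fun i => by rw [← map_evl, (hker f).2 dvd_rfl, map_zero], fun i => by
      rw [← map_evl]; exact hQ0 i, fun i => ?_, mul_ne_zero hΔ hd, fun L _ _ t' y' h0 h1 => ?_⟩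
  · refine ContinuousAt.preimage_mem_nhds (continuousAt_pi.2 fun n =>
      (analyticAt_eval₂ _ _).continuousAt.div (analyticAt_eval₂ _ _).continuousAt ?_) ?_
    · exact (map_evl (Q0 i) t y _).symm.trans_ne (hQ0 i)
    · convert hQW i using 2
      funext n
      change evl K _ _ _ / evl K _ _ _ = _
      rw [← map_evl, ← map_evl, ← hr, map_mul, mul_div_cancel_left₀ _ (hQ0 i)]
  rw [map_mul] at h1
  have h2 : evl K t' y' (derivative f) ≠ 0 := fun h => left_ne_zero_of_mul h1 (by
    rw [← evl_C t' y', ← huv, map_add, map_mul, map_mul, h0, h, zero_mul, zero_mul, add_zero])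
  obtain ⟨P, hP⟩ := hext L t' y' h0 h2
  refine ⟨P, fun n => ?_, ?_, fun h => right_ne_zero_of_mul h1 ?_, fun i Ω _ _ e j p hp h3 h4 => ?_⟩
  · simpa [evl_C] using hP (C (MvPolynomial.X n))
  · simpa [evl_X] using hP X
  · rw [← evl_C t' y', ← hP, evl_C, hw, map_mul, h, zero_mul]
  have h5 : ∀ q, j (evl K t' y' q) = e (evl K p.1 p.2 q) := fun q => by
    rw [map_evl, map_evl, funext h3, h4]
  have h6 : evl K p.1 p.2 (derivative f) ≠ 0 := fun h =>
    h2 ((map_eq_zero j).1 (by rw [h5, h, map_zero]))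
  obtain ⟨Q, hQ⟩ := hext' i p.1 p.2 ((map_eq_zero e).1 (by rw [← h5, h0, map_zero])) h6
  refine ⟨Q, ?_, fun z => ?_⟩
  · have h7 : (fun n => Q (g n)) = G i p := by
      funext n
      refine eq_div_of_mul_eq h6 ?_
      rw [← hQ, ← hQ, ← hr, map_mul, mul_comm]
    exact h7 ▸ hp
  · refine mul_left_cancel₀ ((_root_.map_ne_zero j).2 h2) ?_
    rw [← map_mul, ← hP, ← map_mul, hr, hP, h5, hP, h5, ← map_mul, ← hQ, ← hQ, ← map_mul, hr]

/-- MBA: Moret-Bailly for a geometrically integral affine variety `Spec A`; the open sets of local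
points are asked to be Zariski dense. -/
theorem mba (K : Type) [Field K] [CharZero K] (ι : Type) [Finite ι] (k l : ι → Type)
    [∀ i, NontriviallyNormedField (k i)] [∀ i, NontriviallyNormedField (l i)]
    [∀ i, NormedAlgebra (k i) (l i)] [∀ i, ProperSpace (l i)] [∀ i, CompleteSpace (k i)]
    [∀ i, FiniteDimensional (k i) (l i)] [∀ i, IsGalois (k i) (l i)]
    [∀ i, Algebra K (k i)] [∀ i, Algebra K (l i)] [∀ i, IsScalarTower K (k i) (l i)]
    (hd : DenseRange (fun a : K => fun i => algebraMap K (k i) a))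
    {A F J : Type*} [CommRing A] [IsDomain A] [Algebra K A] [Algebra.FiniteType K A] [Field F]
    [Algebra A F] [IsFractionRing A F] [Algebra K F] [IsScalarTower K A F]
    (hc : ∀ z : F, IsAlgebraic K z → ∃ c : K, algebraMap K F c = z) [Finite J] (g : J → A)
    (W : ∀ i, Set (J → l i))
    (hW : ∀ i, ∀ a : A, a ≠ 0 → ∃ Q : A →ₐ[K] l i, Q a ≠ 0 ∧ W i ∈ 𝓝 fun n => Q (g n))
    {δ : A} (hδ : δ ≠ 0) :
    ∃ P : A →ₐ[K] AlgebraicClosure K, P δ ≠ 0 ∧
      ∀ (i : ι) (Ω : Type) [Field Ω] [Algebra K Ω] (e : l i →ₐ[K] Ω)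
        (j : AlgebraicClosure K →ₐ[K] Ω), ∃ (Q : A →ₐ[K] l i) (τ : l i ≃ₐ[k i] l i),
          (fun n => Q (g n)) ∈ W i ∧ ∀ z, j (P z) = e (τ (Q z)) := by
  obtain ⟨s, f, a, b, W', δ', t, y, hm, hirr, h0, h1, hW', hδ', h⟩ := exists_model hc g W hW hδ
  obtain ⟨t', y', h2, h3, h4⟩ := mbd K ι k l hd (Fin s) f hm hirr a b h0 h1 W' hW' δ' hδ'
  obtain ⟨P, _, _, hP, h5⟩ := h _ t' y' h2 h3
  refine ⟨P, hP, fun i Ω _ _ e j => ?_⟩
  obtain ⟨p, hp, τ, h6, h7⟩ := h4 i Ω e j
  obtain ⟨Q, h8, h9⟩ := h5 i Ω (e.comp (τ.restrictScalars K).toAlgHom) j p hp h6 h7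
  exact ⟨Q, τ, h8, h9⟩

end Vale.Agent.P022K.MB
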