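import Vale.Agent.P022K.MB.FF

/-!
# P022K / MB: Riemann-Roch spaces and extension of constants (helper22)
-/

namespace Vale.Agent.P022K.MB

open Polynomial TensorProduct
open scoped IntermediateField IntermediateField.algebraAdjoinAdjoin

section coord
variable {K k : Type*} [Field K] [Field k] [Algebra K k]
variable {N N' : Type*} [AddCommGroup N] [Module K N] [AddCommGroup N'] [Module K N']

/-- the coordinate of a tensor along a functional on the constants -/
noncomputable def co (l : k →ₗ[K] K) : k ⊗[K] N →ₗ[K] N :=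
  (TensorProduct.lid K N).toLinearMap ∘ₗ l.rTensor N

theorem co_tmul (l : k →ₗ[K] K) (c : k) (n : N) : co l (c ⊗ₜ[K] n) = l c • n := by
  simp [co]

theorem co_lTensor (l : k →ₗ[K] K) (g : N →ₗ[K] N') (u : k ⊗[K] N) :
    co l (g.lTensor k u) = g (co l u) := by
  induction u using TensorProduct.induction_on with
  | zero => simp
  | tmul c n => simp [co_tmul]
  | add a b ha hb => simp only [map_add, ha, hb]

theorem exists_expand (u : k ⊗[K] N) :
    ∃ (s : Finset k) (l : k → (k →ₗ[K] K)), u = ∑ c ∈ s, c ⊗ₜ[K] co (l c) u := by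
  classical
  let b := Module.Basis.ofVectorSpace K k
  obtain ⟨c, rfl⟩ := TensorProduct.eq_repr_basis_left b u
  have key : ∀ i, co (b.coord i) (c.sum fun i n => b i ⊗ₜ[K] n) = c i := by
    intro i
    rw [Finsupp.sum, map_sum, Finset.sum_eq_single i]
    · simp [co_tmul]
    · intro j _ hj
      simp [co_tmul, Finsupp.single_eq_of_ne hj.symm]
    · intro hi
      simp [Finsupp.notMem_support_iff.1 hi]
  refine ⟨c.support.image b, fun a => if h : ∃ i, b i = a then b.coord h.choose else 0, ?_⟩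
  rw [Finset.sum_image fun i _ j _ h => b.injective h]
  conv_lhs => rw [Finsupp.sum]
  refine Finset.sum_congr rfl fun i _ => ?_
  have h : ∃ j, b j = b i := ⟨i, rfl⟩
  beta_reduce
  rw [dif_pos h, b.injective h.choose_spec, key]

theorem eq_zero_of_co (u : k ⊗[K] N) (h : ∀ l : k →ₗ[K] K, co l u = 0) : u = 0 := by
  obtain ⟨s, l, hu⟩ := exists_expand u
  rw [hu]
  exact Finset.sum_eq_zero fun c _ => by rw [h, tmul_zero]

theorem mem_range_of_co (g : N →ₗ[K] N') (w : k ⊗[K] N')
    (h : ∀ l : k →ₗ[K] K, ∃ n, g n = co l w) : ∃ u, g.lTensor k u = w := by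
  obtain ⟨s, l, hw⟩ := exists_expand w
  choose n hn using h
  refine ⟨∑ c ∈ s, c ⊗ₜ[K] n (l c), ?_⟩
  rw [map_sum]
  refine Eq.trans ?_ hw.symm
  exact Finset.sum_congr rfl fun c _ => by rw [LinearMap.lTensor_tmul, hn]

theorem co_mul {A : Type*} [CommRing A] [Algebra K A] (l : k →ₗ[K] K) (w : k ⊗[K] A) (a : A) :
    co l (w * (1 ⊗ₜ[K] a)) = co l w * a := by
  induction w using TensorProduct.induction_on with
  | zero => simp
  | tmul c n => simp [co_tmul]
  | add a b ha hb => simp only [add_mul, map_add, ha, hb]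

end coord

/-- `k ⊗ O` is integrally closed in `k ⊗ E` -/
theorem bc0 {K k O E : Type*} [Field K] [Field k] [Algebra K k] [CommRing O] [IsDedekindDomain O]
    [Field E] [Algebra O E] [IsFractionRing O E] [Algebra K O] [Algebra K E] [IsScalarTower K O E]
    (hred : ∀ Q : Ideal O, Q.IsMaximal → IsReduced (k ⊗[K] (O ⧸ Q))) (w : k ⊗[K] E)
    (hw : (Algebra.TensorProduct.map (AlgHom.id K k)
      (IsScalarTower.toAlgHom K O E)).toRingHom.IsIntegralElem w) (l : k →ₗ[K] K) :
    ∃ o : O, algebraMap O E o = co l w := by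
  set ι := Algebra.TensorProduct.map (AlgHom.id K k) (IsScalarTower.toAlgHom K O E) with hι
  let g : O →ₗ[K] E := (IsScalarTower.toAlgHom K O E).toLinearMap
  have hιg : ∀ u, ι u = g.lTensor k u := fun u => rfl
  have hinj : Function.Injective ι := by
    rw [injective_iff_map_eq_zero]
    intro u hu
    refine eq_zero_of_co u fun l => IsFractionRing.injective O E ?_
    have := co_lTensor l g u
    rw [← hιg, hu, map_zero] at this
    rw [map_zero]
    exact this.symm
  let I : Ideal O :=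
    { carrier := {a | ∀ l : k →ₗ[K] K, ∃ o : O, algebraMap O E o = co l w * algebraMap O E a}
      add_mem' := fun {a b} ha hb l => by
        obtain ⟨o, ho⟩ := ha l
        obtain ⟨o', ho'⟩ := hb l
        exact ⟨o + o', by rw [map_add, map_add, ho, ho', mul_add]⟩
      zero_mem' := fun l => ⟨0, by simp⟩
      smul_mem' := fun c a ha l => by
        obtain ⟨o, ho⟩ := ha l
        exact ⟨c * o, by rw [map_mul, smul_eq_mul, map_mul, ho]; ring⟩ }
  have hI0 : I ≠ ⊥ := by
    obtain ⟨s, hs⟩ := TensorProduct.exists_finset w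
    obtain ⟨d, hd⟩ := IsLocalization.exist_integer_multiples (nonZeroDivisors O) s
      (fun p : k × E => p.2)
    refine (Submodule.ne_bot_iff _).2 ⟨d, fun l => ?_, nonZeroDivisors.coe_ne_zero d⟩
    choose! o ho using hd
    refine ⟨∑ p ∈ s, l p.1 • o p, ?_⟩
    rw [hs, map_sum, map_sum, Finset.sum_mul]
    refine Finset.sum_congr rfl fun p hp => ?_
    rw [co_tmul, Algebra.smul_def, map_mul, ← IsScalarTower.algebraMap_apply, ho p hp,
      Algebra.smul_def, Algebra.smul_def]
    ring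
  suffices h : I = ⊤ by
    obtain ⟨o, ho⟩ := ((Ideal.eq_top_iff_one I).1 h) l
    exact ⟨o, by rw [ho, map_one, mul_one]⟩
  by_contra hI
  obtain ⟨Q, hQ, hIQ⟩ := Ideal.exists_le_maximal I hI
  obtain ⟨J, hJ⟩ := Ideal.dvd_iff_le.2 hIQ
  have hQ0 : Q ≠ ⊥ := by rintro rfl; exact hI0 (le_bot_iff.1 hIQ)
  have hJ0 : J ≠ ⊥ := by rintro rfl; exact hI0 (by rw [hJ, Ideal.mul_bot])
  have hJI : ¬ J ≤ I := by
    intro h
    have h1 : Q * J ∣ 1 * J := by rw [one_mul, ← hJ]; exact Ideal.dvd_iff_le.2 h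
    have h2 := (mul_dvd_mul_iff_right hJ0).1 h1
    exact hQ.ne_top (Ideal.isUnit_iff.1 (isUnit_of_dvd_one h2))
  obtain ⟨a, haJ, haI⟩ := Set.not_subset.1 hJI
  have := hred Q hQ
  have key : ∀ π ∈ Q, ∀ l : k →ₗ[K] K, ∃ o ∈ Q,
      algebraMap O E o = co l w * algebraMap O E a * algebraMap O E π := by
    intro π hπ l
    have h1 : π * a ∈ I := hJ ▸ Ideal.mul_mem_mul hπ haJ
    obtain ⟨u, hu⟩ := mem_range_of_co g (w * (1 ⊗ₜ[K] algebraMap O E (π * a))) fun l => by
      rw [co_mul]; exact h1 l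
    obtain ⟨q, hq, hq0⟩ := hw
    let ρ := Algebra.TensorProduct.map (AlgHom.id K k) (Ideal.Quotient.mkₐ K Q)
    have h2 : (q.scaleRoots (1 ⊗ₜ[K] (π * a))).eval u = 0 := by
      apply hinj
      have := scaleRoots_eval₂_eq_zero (s := (1 : k) ⊗ₜ[K] (π * a)) ι.toRingHom hq0
      rw [map_zero, ← this]
      have h3 : ι.toRingHom (1 ⊗ₜ[K] (π * a)) * w = ι.toRingHom u := (mul_comm _ _).trans hu.symm
      rw [h3, eval₂_at_apply]
      rfl
    have h4 : ρ u = 0 := by
      rcases subsingleton_or_nontrivial (k ⊗[K] (O ⧸ Q)) with hs | hs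
      · exact Subsingleton.elim _ _
      have h5 : ρ.toRingHom (1 ⊗ₜ[K] (π * a)) = 0 := by
        change (1 : k) ⊗ₜ[K] (Ideal.Quotient.mk Q (π * a)) = 0
        rw [Ideal.Quotient.eq_zero_iff_mem.2 (Q.mul_mem_right a hπ), tmul_zero]
      have h6 := congrArg ρ.toRingHom h2
      rw [map_zero, ← eval₂_at_apply, ← eval_map, map_scaleRoots _ _ _
        (by rw [hq.leadingCoeff, map_one]; exact one_ne_zero), h5, scaleRoots_zero,
        (hq.map _).leadingCoeff, one_smul, eval_pow, eval_X] at h6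
      exact IsReduced.eq_zero _ ⟨_, h6⟩
    refine ⟨co l u, ?_, ?_⟩
    · have h7 := co_lTensor l (Ideal.Quotient.mkₐ K Q).toLinearMap u
      have h8 : (Ideal.Quotient.mkₐ K Q).toLinearMap.lTensor k u = ρ u := rfl
      rw [h8, h4, map_zero] at h7
      exact Ideal.Quotient.eq_zero_iff_mem.1 h7.symm
    · have h7 := co_lTensor l g u
      rw [hu, co_mul, map_mul] at h7
      exact h7.symm.trans (by ring)
  refine haI fun l => ?_
  refine IsIntegrallyClosed.algebraMap_eq_of_integral (isIntegral_of_smul_mem_submodule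
    (Submodule.map (Algebra.linearMap O E) Q) ?_ ((IsNoetherian.noetherian Q).map _) _ ?_)
  · obtain ⟨π, hπ, hπ0⟩ := (Submodule.ne_bot_iff _).1 hQ0
    exact (Submodule.ne_bot_iff _).2 ⟨_, Submodule.mem_map_of_mem hπ, fun h =>
      hπ0 (IsFractionRing.injective O E (h.trans (map_zero _).symm))⟩
  · rintro _ ⟨π, hπ, rfl⟩
    obtain ⟨o, ho, ho2⟩ := key π hπ l
    exact ⟨o, ho, ho2⟩

theorem eval₂_aeval {k A : Type*} [Field k] [CommRing A] [Algebra k A] (x y : A) (p : k[X][X]) :
    eval₂ (aeval x : k[X] →ₐ[k] A).toRingHom y p = aevalAeval x y p := by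
  induction p using Polynomial.induction_on with
  | C a => rw [eval₂_C, aevalAeval_C]; rfl
  | add p q hp hq => rw [eval₂_add, map_add, hp, hq]
  | monomial n a h => rw [pow_succ, ← mul_assoc, eval₂_mul, map_mul, h, eval₂_X, aevalAeval_Y]

theorem mem_OO_iff {k E : Type*} [Field k] [Field E] [Algebra k E] {x z : E} :
    z ∈ OO k x ↔ ∃ q : k[X][X], q.Monic ∧ aevalAeval x z q = 0 := by
  refine ⟨fun ⟨p, hp, h0⟩ => ?_, fun ⟨q, hq, h0⟩ => mem_OO_of_monic hq h0⟩
  obtain ⟨q, hq, _, hm⟩ := lifts_and_degree_eq_and_monic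
    ((mem_lifts p).2 (Polynomial.map_surjective (rho k x) (rho_surj x) p)) hp
  exact ⟨q, hm, by rw [← aeval_map_rho, hq, aeval_def, h0]⟩

theorem map_mem_OO {K k E E' : Type*} [Field K] [Field k] [Algebra K k] [Field E] [Algebra K E]
    [Field E'] [Algebra k E'] [Algebra K E'] [IsScalarTower K k E'] (φ : E →ₐ[K] E') {x z : E}
    (hz : z ∈ OO K x) : φ z ∈ OO k (φ x) := by
  obtain ⟨q, hq, h0⟩ := mem_OO_iff.1 hz
  exact mem_OO_iff.2 ⟨q.map (mapRingHom (algebraMap K k)), hq.map _, by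
    rw [aevalAeval_map, ← algHom_aevalAeval, h0, map_zero]⟩

theorem map_mem_V {K k E E' : Type*} [Field K] [Field k] [Algebra K k] [Field E] [Algebra K E]
    [Field E'] [Algebra k E'] [Algebra K E'] [IsScalarTower K k E'] (φ : E →ₐ[K] E') {x z : E}
    {M : ℕ} (hz : z ∈ V K x M) : φ z ∈ V k (φ x) M :=
  ⟨map_mem_OO φ hz.1, by
    have := map_mem_OO (k := k) φ hz.2
    rwa [map_mul, map_pow, map_inv₀] at this⟩

theorem adjoin_inv_eq {K E : Type*} [Field K] [Field E] [Algebra K E] (x : E) :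
    K⟮x⁻¹⟯ = K⟮x⟯ := by
  apply le_antisymm
  · exact IntermediateField.adjoin_simple_le_iff.2
      (inv_mem (IntermediateField.mem_adjoin_simple_self K x))
  · refine IntermediateField.adjoin_simple_le_iff.2 ?_
    have := inv_mem (IntermediateField.mem_adjoin_simple_self K x⁻¹)
    rwa [inv_inv] at this

section
variable {K k E E' : Type*} [Field K] [Field k] [Algebra K k] [Field E] [Algebra K E]
  [Field E'] [Algebra k E'] [Algebra K E'] [IsScalarTower K k E']

/-- `k ⊗ E → E'` -/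
noncomputable def Phi (k : Type*) [Field k] [Algebra K k] [Algebra k E'] [IsScalarTower K k E']
    (φ : E →ₐ[K] E') : k ⊗[K] E →ₐ[k] E' :=
  Algebra.TensorProduct.lift (Algebra.ofId k E') φ fun _ _ => Commute.all _ _

theorem Phi_tmul (φ : E →ₐ[K] E') (c : k) (z : E) : Phi k φ (c ⊗ₜ[K] z) = c • φ z := by
  simp [Phi, Algebra.smul_def]

theorem co_mem_OO [CharZero K] (φ : E →ₐ[K] E') (hφ : Function.Injective (Phi k φ)) (t : E)
    [FiniteDimensional K⟮t⟯ E] (w : k ⊗[K] E) (hw : Phi k φ w ∈ OO k (φ t)) (l : k →ₗ[K] K) :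
    co l w ∈ OO K t := by
  have := isPID_adjoin (k := K) t
  let O := integralClosure (Algebra.adjoin K {t}) E
  have : IsDedekindDomain O := IsIntegralClosure.isDedekindDomain (Algebra.adjoin K {t}) K⟮t⟯ E O
  have : IsFractionRing O E :=
    IsIntegralClosure.isFractionRing_of_finite_extension (Algebra.adjoin K {t}) K⟮t⟯ E O
  have : Module.Finite (Algebra.adjoin K {t}) O :=
    IsIntegralClosure.finite (Algebra.adjoin K {t}) K⟮t⟯ E O
  have : Algebra.FiniteType K (Algebra.adjoin K {t}) :=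
    Algebra.FiniteType.adjoin_of_finite (Set.finite_singleton t)
  have : Algebra.FiniteType K O := Algebra.FiniteType.trans (S := Algebra.adjoin K {t}) ‹_›
    inferInstance
  obtain ⟨o, ho⟩ := bc0 (K := K) (k := k) (O := O) (E := E) (fun Q hQ => by
    let _ := Ideal.Quotient.field Q
    have : Module.Finite K (O ⧸ Q) := finite_of_finite_type_of_isJacobsonRing K (O ⧸ Q)
    have : Algebra.FormallyUnramified K (O ⧸ Q) := Algebra.FormallyUnramified.of_isSeparable K _
    exact Algebra.FormallyUnramified.isReduced_of_field k _) w (by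
    obtain ⟨q, hq, h0⟩ := mem_OO_iff.1 hw
    let t' : O := ⟨t, self_mem_OO K t⟩
    refine ⟨q.map (aeval ((1 : k) ⊗ₜ[K] t')).toRingHom, hq.map _, hφ ?_⟩
    rw [map_zero, ← h0, eval₂_map]
    have h1 : φ t = Phi k φ (1 ⊗ₜ[K] t) := by rw [Phi_tmul, one_smul]
    rw [h1, ← algHom_aevalAeval]
    congr 1
    have h2 : (Algebra.TensorProduct.map (AlgHom.id K k)
        (IsScalarTower.toAlgHom K O E)).toRingHom.comp (aeval ((1 : k) ⊗ₜ[K] t')).toRingHom =
        (aeval ((1 : k) ⊗ₜ[K] t) : k[X] →ₐ[k] k ⊗[K] E).toRingHom := by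
      ext c
      · simp
      · simp [t']
    rw [h2]
    exact eval₂_aeval _ _ _) l
  exact ho ▸ o.2

theorem exists_poly_tensor (p : k[X][X]) (φ : E →ₐ[K] E') (x y : E) :
    ∃ w, Phi k φ w = aevalAeval (φ x) (φ y) p :=
  ⟨aevalAeval (1 ⊗ₜ[K] x) (1 ⊗ₜ[K] y) p, by
    rw [algHom_aevalAeval, Phi_tmul, Phi_tmul, one_smul, one_smul]⟩

theorem Phi_injective {f : K[X][X]} {x y : E} (φ : E →ₐ[K] E') (hm : f.Monic) (h : IsFF K f x y)
    (h' : IsFF k (f.map (mapRingHom (algebraMap K k))) (φ x) (φ y)) :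
    Function.Injective (Phi k φ) := by
  classical
  rw [injective_iff_map_eq_zero]
  intro w hw
  obtain ⟨s, hs⟩ := TensorProduct.exists_finset w
  have hden : ∃ q : K[X][X], aevalAeval x y q ≠ 0 ∧ ∀ a ∈ s, ∃ p : K[X][X],
      a.2 * aevalAeval x y q = aevalAeval x y p := by
    clear hs
    induction s using Finset.induction_on with
    | empty => exact ⟨1, by simp, by simp⟩
    | insert a s _ ih =>
      obtain ⟨q, hq, hs⟩ := ih
      obtain ⟨p1, q1, hq1, h1⟩ := h.gen a.2
      refine ⟨q * q1, by rw [map_mul]; exact mul_ne_zero hq hq1, fun b hb => ?_⟩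
      rcases Finset.mem_insert.1 hb with rfl | hb
      · exact ⟨q * p1, by rw [map_mul, map_mul, ← h1]; ring⟩
      · obtain ⟨p, hp⟩ := hs b hb
        exact ⟨p * q1, by rw [map_mul, map_mul, ← hp]; ring⟩
  obtain ⟨q, hq, hp⟩ := hden
  choose! p hp using hp
  have hp2 : ∀ a, aevalAeval x y (p a %ₘ f) = aevalAeval x y (p a) := fun a => by
    conv_rhs => rw [← modByMonic_add_div (p a) f, map_add, map_mul, h.zero, zero_mul, add_zero]
  have hpos := h.natDegree_pos hm
  have hf1 : f ≠ 1 := by rintro rfl; simp at hpos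
  set ψ := mapRingHom (algebraMap K k) with hψ
  have h1 : ∑ a ∈ s, a.1 • (p a %ₘ f).map ψ = 0 := by
    refine h'.eq_zero_of_lt (hm.map _) ?_ ?_
    · rw [hm.natDegree_map]
      refine lt_of_le_of_lt (natDegree_sum_le_of_forall_le s _ (n := f.natDegree - 1)
        fun a _ => ?_) (by omega)
      have := natDegree_modByMonic_lt (p a) hm hf1
      exact (natDegree_smul_le _ _).trans (natDegree_map_le.trans (by omega))
    · have h2 := congrArg (· * φ (aevalAeval x y q)) hw
      simp only [hs, map_sum, Finset.sum_mul, zero_mul] at h2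
      rw [map_sum, ← h2]
      refine Finset.sum_congr rfl fun a ha => ?_
      rw [map_smul, hψ, aevalAeval_map, ← algHom_aevalAeval, hp2, ← hp a ha, Phi_tmul, map_mul,
        smul_mul_assoc]
  refine eq_zero_of_co w fun l => ?_
  have h3 : ∑ a ∈ s, l a.1 • (p a %ₘ f) = 0 := by
    ext i j
    have h4 := congrArg (fun r => l ((r.coeff i).coeff j)) h1
    simp only [finsetSum_coeff, coeff_smul, coeff_map, hψ, coe_mapRingHom, map_sum, coeff_zero,
      map_zero, smul_eq_mul] at h4
    simp only [finsetSum_coeff, coeff_smul, coeff_zero, smul_eq_mul]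
    rw [← h4]
    refine Finset.sum_congr rfl fun a _ => ?_
    rw [mul_comm a.1, ← Algebra.smul_def, map_smul, smul_eq_mul, mul_comm]
  have h5 := congrArg (aevalAeval x y) h3
  rw [map_sum, map_zero] at h5
  refine (mul_eq_zero.1 ?_).resolve_right hq
  rw [← h5, hs, map_sum, Finset.sum_mul]
  refine Finset.sum_congr rfl fun a ha => ?_
  rw [co_tmul, map_smul, hp2, ← hp a ha, smul_mul_assoc]

end

theorem bc : BC := by
  intro K k E E' _ _ _ _ _ _ _ _ _ _ f x y φ hm h h' M z hz
  have : CharZero k := charZero_of_injective_algebraMap (algebraMap K k).injective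
  have hinj := Phi_injective φ hm h h'
  have := h.finiteDimensional hm
  have : FiniteDimensional K⟮x⁻¹⟯ E := by rw [adjoin_inv_eq]; infer_instance
  obtain ⟨p, hp⟩ := h'.exists_mul_eq (hm.map _) hz.1
  obtain ⟨w0, hw0⟩ := exists_poly_tensor p φ x y
  rw [derivative_map, aevalAeval_map, ← algHom_aevalAeval, ← hw0] at hp
  have hD : φ (aevalAeval x y (derivative f)) ≠ 0 :=
    (map_ne_zero φ).2 (h.deriv_ne_zero hm)
  obtain ⟨w, rfl⟩ : ∃ w, Phi k φ w = z :=
    ⟨w0 * (1 ⊗ₜ[K] (aevalAeval x y (derivative f))⁻¹), by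
      rw [map_mul, Phi_tmul, one_smul, ← hp, map_inv₀, mul_comm, ← mul_assoc, inv_mul_cancel₀ hD,
        one_mul]⟩
  have key : ∀ l : k →ₗ[K] K, co l w ∈ V K x M := fun l =>
    ⟨co_mem_OO φ hinj x w hz.1 l, by
      rw [← co_mul]
      refine co_mem_OO φ hinj x⁻¹ _ ?_ l
      rw [map_mul, Phi_tmul, one_smul, map_pow, map_inv₀]
      exact hz.2⟩
  obtain ⟨s, l, hs⟩ := exists_expand w
  rw [hs, map_sum]
  refine Submodule.sum_mem _ fun c _ => ?_
  rw [Phi_tmul]
  exact Submodule.smul_mem _ _ (Submodule.subset_span ⟨_, key _, rfl⟩)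

end Vale.Agent.P022K.MB
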