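import Mathlib.RingTheory.AdicCompletion.Completeness
import Mathlib.RingTheory.Henselian
import Mathlib.RingTheory.PowerSeries.Inverse
import Mathlib.RingTheory.PowerSeries.Trunc
import Mathlib.RingTheory.PowerSeries.NoZeroDivisors
import Mathlib.RingTheory.Prime
import Mathlib.Algebra.Polynomial.Bivariate
import Mathlib.Algebra.Polynomial.Lifts
import Mathlib.Algebra.Polynomial.Eval.Irreducible
import Mathlib.Algebra.MvPolynomial.Funext
import Mathlib.FieldTheory.IsAlgClosed.AlgebraicClosure
import Mathlib.FieldTheory.Separable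
import Mathlib.RingTheory.Polynomial.GaussLemma
import Mathlib.RingTheory.Polynomial.Resultant.Basic

/-!
Bertini-Noether for monic hypersurfaces: if `F(t, Y)` is monic in `Y` and absolutely irreducible
and `F(c(0), Y)` is separable, then `F(c(X) + X e, Y)` is irreducible over every field extension
for all directions `e` off a hypersurface.
-/

namespace Vale.Agent.P022K.MB

open Polynomial

/-- Coefficients of the swapped bivariate polynomial. -/
theorem coeff_swap {R : Type*} [CommRing R] (p : R[X][X]) (m k : ℕ) :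
    ((Bivariate.swap p).coeff m).coeff k = (p.coeff k).coeff m := by
  induction p using Polynomial.induction_on' with
  | add p q hp hq => simp only [map_add, coeff_add, hp, hq]
  | monomial n f =>
    induction f using Polynomial.induction_on' with
    | add p q hp hq => simp only [map_add, coeff_add, hp, hq]
    | monomial j r =>
      rw [Bivariate.swap_monomial_monomial]
      simp only [coeff_monomial]
      split_ifs <;> simp_all [coeff_monomial]

/-- The inner degree of a factor is at most the inner degree of the product. -/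
theorem coeff_factor {R : Type*} [CommRing R] [IsDomain R] {A B : R[X][X]} (hB : B ≠ 0) {D : ℕ}
    (h : ∀ k m, D < m → ((A * B).coeff k).coeff m = 0) (k m : ℕ) (hm : D < m) :
    (A.coeff k).coeff m = 0 := by
  by_cases hA : A = 0
  · simp [hA]
  have h1 : (Bivariate.swap (A * B)).natDegree ≤ D := by
    rw [natDegree_le_iff_coeff_eq_zero]
    intro N hN
    ext j
    rw [coeff_swap, h j N hN, coeff_zero]
  have hA' : Bivariate.swap A ≠ 0 := (map_ne_zero_iff _ Bivariate.swap.injective).2 hA
  have hB' : Bivariate.swap B ≠ 0 := (map_ne_zero_iff _ Bivariate.swap.injective).2 hB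
  rw [map_mul, natDegree_mul hA' hB'] at h1
  rw [← coeff_swap, coeff_eq_zero_of_natDegree_lt (p := Bivariate.swap A) (by omega), coeff_zero]

/-- Some bound for the inner degree. -/
theorem exists_inner_bound {R : Type*} [CommRing R] (G : R[X][X]) :
    ∃ D : ℕ, ∀ k m, D < m → (G.coeff k).coeff m = 0 :=
  ⟨(Bivariate.swap G).natDegree, fun k m hm => by
    rw [← coeff_swap, coeff_eq_zero_of_natDegree_lt hm, coeff_zero]⟩

/-- Hensel lifting of a simple root to a power series root. -/
theorem exists_root_series {R : Type*} [CommRing R] (G : (PowerSeries R)[X]) (hG : G.Monic)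
    (b : R) (h0 : (G.map PowerSeries.constantCoeff).eval b = 0)
    (h1 : IsUnit ((G.map PowerSeries.constantCoeff).derivative.eval b)) :
    ∃ y : PowerSeries R, G.IsRoot y ∧ PowerSeries.constantCoeff y = b := by
  have hc : ∀ Q : (PowerSeries R)[X], PowerSeries.constantCoeff (Q.eval (PowerSeries.C b)) =
      (Q.map PowerSeries.constantCoeff).eval b := by
    intro Q
    rw [eval_map, ← eval₂_at_apply, PowerSeries.constantCoeff_C]
  obtain ⟨y, hy, hyb⟩ := HenselianRing.is_henselian (I := Ideal.span {(PowerSeries.X : PowerSeries R)})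
    G hG (PowerSeries.C b)
    (by rw [Ideal.mem_span_singleton, PowerSeries.X_dvd_iff, hc, h0])
    (by
      apply IsUnit.map
      rw [PowerSeries.isUnit_iff_constantCoeff, hc, ← derivative_map]
      exact h1)
  refine ⟨y, hy, ?_⟩
  rw [Ideal.mem_span_singleton, PowerSeries.X_dvd_iff, map_sub, PowerSeries.constantCoeff_C,
    sub_eq_zero] at hyb
  exact hyb

/-- A monic polynomial over power series whose reduction comes from a separable polynomial over an
algebraically closed field splits into linear factors. -/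
theorem exists_prod_series {L R : Type*} [Field L] [IsAlgClosed L] [CommRing R] [IsDomain R]
    (j : L →+* R) (G : (PowerSeries R)[X]) (hG : G.Monic) (f : L[X]) (hf : f.Separable)
    (hGf : G.map PowerSeries.constantCoeff = f.map j) :
    ∃ (T : Finset L) (y : L → PowerSeries R), G = ∏ b ∈ T, (X - C (y b)) := by
  classical
  have hy : ∀ b : L, ∃ y : PowerSeries R, f.IsRoot b →
      G.IsRoot y ∧ PowerSeries.constantCoeff y = j b := by
    intro b
    by_cases hb : f.IsRoot b
    · obtain ⟨y, h1, h2⟩ := exists_root_series G hG (j b)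
        (by rw [hGf, eval_map, eval₂_at_apply, hb.eq_zero, map_zero])
        (by
          rw [hGf, derivative_map, eval_map, eval₂_at_apply]
          apply IsUnit.map
          rw [isUnit_iff_ne_zero]
          have := hf.eval₂_derivative_ne_zero (RingHom.id L) (x := b)
            (by rw [eval₂_id]; exact hb)
          rwa [eval₂_id] at this)
      exact ⟨y, fun _ => ⟨h1, h2⟩⟩
    · exact ⟨0, fun h => absurd h hb⟩
  choose y hy using hy
  have hf0 : f ≠ 0 := hf.ne_zero
  have hdeg : f.natDegree = G.natDegree := by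
    rw [← hG.natDegree_map PowerSeries.constantCoeff, hGf, natDegree_map_eq_of_injective j.injective]
  refine ⟨f.roots.toFinset, y, ?_⟩
  have hmem : ∀ b ∈ f.roots.toFinset, f.IsRoot b := fun b hb =>
    (mem_roots hf0).1 (Multiset.mem_toFinset.1 hb)
  have hcard : f.roots.toFinset.card = G.natDegree := by
    rw [Multiset.toFinset_card_of_nodup (nodup_roots hf), IsAlgClosed.card_roots_eq_natDegree, hdeg]
  have hinj : Set.InjOn y f.roots.toFinset := by
    intro a ha b hb hab
    apply j.injective
    rw [← (hy a (hmem a ha)).2, ← (hy b (hmem b hb)).2, hab]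
  have hdvd : (∏ b ∈ f.roots.toFinset, (X - C (y b))) ∣ G := by
    have h1 : (∏ b ∈ f.roots.toFinset, (X - C (y b))) =
        (((f.roots.toFinset.image y).val).map fun a => X - C a).prod := by
      rw [← Finset.prod_image (f := fun a => X - C a) hinj]
      rfl
    rw [h1, Multiset.prod_X_sub_C_dvd_iff_le_roots hG.ne_zero,
      Multiset.le_iff_subset (f.roots.toFinset.image y).nodup]
    intro a ha
    obtain ⟨b, hb, rfl⟩ := Finset.mem_image.1 ha
    exact (mem_roots hG.ne_zero).2 (hy b (hmem b hb)).1
  refine eq_of_monic_of_dvd_of_natDegree_le (monic_prod_of_monic _ _ fun b _ => monic_X_sub_C _)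
    hG hdvd ?_
  rw [natDegree_prod_of_monic _ _ fun b _ => monic_X_sub_C _]
  simp [hcard]

/-- Restriction to the parametrised curve `t = c(X)`. -/
noncomputable def curve {σ K Ω : Type*} [CommRing K] [CommRing Ω] (φ : K →+* Ω) (c : σ → Ω[X]) :
    MvPolynomial σ K →+* Ω[X] :=
  MvPolynomial.eval₂Hom (C.comp φ) c

/-- Bertini-Noether over an algebraically closed field. -/
theorem bertini_closed {σ L : Type*} [Field L] [IsAlgClosed L] (F : (MvPolynomial σ L)[X])
    (hm : F.Monic) (hirr : Irreducible F) (c : σ → L[X])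
    (hsep : (F.map (MvPolynomial.eval fun i => (c i).eval 0)).Separable) :
    ∃ h : MvPolynomial σ L, h ≠ 0 ∧ ∀ (Ω : Type*) [Field Ω] (φ : L →+* Ω) (e : σ → Ω),
      MvPolynomial.eval₂Hom φ e h ≠ 0 →
        Irreducible (F.map (curve φ fun i => (c i).map φ + X * C (e i))) := by
  classical
  let ψ : MvPolynomial σ L →+* (MvPolynomial σ L)[X] :=
    curve MvPolynomial.C fun i => (c i).map MvPolynomial.C + X * C (MvPolynomial.X i)
  let ι : (MvPolynomial σ L)[X] →+* PowerSeries (MvPolynomial σ L) := coeToPowerSeries.ringHom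
  have hι : Function.Injective ι := coe_injective _
  obtain ⟨T, y, hT⟩ := exists_prod_series (MvPolynomial.C : L →+* MvPolynomial σ L)
    ((F.map ψ).map ι) ((hm.map ψ).map ι) _ hsep (by
      rw [map_map, map_map, map_map]
      congr 1
      apply MvPolynomial.ringHom_ext
      · simp [ψ, ι, curve]
      · intro i
        simp [ψ, ι, curve, ← coeff_zero_eq_eval_zero, -polynomial_map_coe])
  obtain ⟨D, hD⟩ := exists_inner_bound (F.map ψ)
  let P : Finset L → (PowerSeries (MvPolynomial σ L))[X] := fun J => ∏ b ∈ J, (X - C (y b))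
  have hPm : ∀ J, (P J).Monic := fun J => monic_prod_of_monic _ _ fun b _ => monic_X_sub_C _
  have hJ : ∀ J : Finset L, ∃ g : MvPolynomial σ L, g ≠ 0 ∧
      ((∃ k m, D < m ∧ g = PowerSeries.coeff m ((P J).coeff k)) ∨ P J ∈ lifts ι) := by
    intro J
    by_cases h : ∃ k m, D < m ∧ PowerSeries.coeff m ((P J).coeff k) ≠ 0
    · obtain ⟨k, m, h1, h2⟩ := h
      exact ⟨_, h2, Or.inl ⟨k, m, h1, rfl⟩⟩
    · refine ⟨1, one_ne_zero, Or.inr ?_⟩
      push Not at h
      rw [lifts_iff_coeff_lifts]
      intro k
      refine ⟨PowerSeries.trunc (D + 1) ((P J).coeff k), ?_⟩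
      ext1 m
      rw [coeToPowerSeries.ringHom_apply, coeff_coe, PowerSeries.coeff_trunc]
      split_ifs with hm'
      · rfl
      · exact (h k m (by omega)).symm
  choose g hg0 hg using hJ
  refine ⟨∏ J ∈ T.powerset, g J, Finset.prod_ne_zero_iff.2 fun J _ => hg0 J, ?_⟩
  intro Ω _ φ e he
  let ev : MvPolynomial σ L →+* Ω := MvPolynomial.eval₂Hom φ e
  have hline : (curve φ fun i => (c i).map φ + X * C (e i)) = (mapRingHom ev).comp ψ := by
    have h1 : ev.comp MvPolynomial.C = φ := by
      ext
      simp [ev]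
    apply MvPolynomial.ringHom_ext
    · simp [ψ, ev, curve]
    · intro i
      simp only [ψ, curve, RingHom.comp_apply, MvPolynomial.eval₂Hom_X', coe_mapRingHom,
        Polynomial.map_add, Polynomial.map_mul, map_X, map_C, map_map, h1]
      simp [ev]
  have hF1 : F.natDegree ≠ 0 := fun h0 => hirr.ne_one (hm.natDegree_eq_zero.1 h0)
  rw [hline, ← map_map, ((hm.map ψ).map _).irreducible_iff_natDegree]
  refine ⟨fun h1 => hF1 ?_, fun A B hA hB hAB => ?_⟩
  · rw [← hm.natDegree_map ψ, ← (hm.map ψ).natDegree_map (mapRingHom ev), h1, natDegree_one]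
  let ι' : Ω[X] →+* PowerSeries Ω := coeToPowerSeries.ringHom
  have hcomm : ι'.comp (mapRingHom ev) = (PowerSeries.map ev).comp ι :=
    RingHom.ext fun p => polynomial_map_coe
  have hPmap : ∀ J, (P J).map (PowerSeries.map ev) =
      ∏ b ∈ J, (X - C (PowerSeries.map ev (y b))) := by
    intro J
    simp [P, Polynomial.map_prod]
  have hprod : A.map ι' * B.map ι' = 1 * ∏ b ∈ T, (X - C (PowerSeries.map ev (y b))) := by
    rw [← Polynomial.map_mul, hAB, map_map, hcomm, ← map_map, hT, one_mul]
    exact hPmap T
  obtain ⟨t, u, a, b, htu, hdis, hab, hAt, hBu⟩ :=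
    mul_eq_mul_prime_prod (fun b _ => prime_X_sub_C _) hprod
  have hDe : ∀ k m, D < m → ((A * B).coeff k).coeff m = 0 := by
    intro k m hm'
    rw [hAB, coeff_map, coe_mapRingHom, coeff_map, hD k m hm', map_zero]
  have key : ∀ (J : Finset L) (A₁ : Ω[X][X]) (a₁ : (PowerSeries Ω)[X]), J ⊆ T → A₁.Monic →
      IsUnit a₁ → (∀ k m, D < m → (A₁.coeff k).coeff m = 0) →
      A₁.map ι' = a₁ * ∏ b ∈ J, (X - C (PowerSeries.map ev (y b))) →
      ∃ Q : (MvPolynomial σ L)[X][X], Q.map ι = P J ∧ Q.natDegree = A₁.natDegree ∧ Q.Monic := by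
    intro J A₁ a₁ hJT hA₁ ha₁ hD₁ hE
    have hE' : A₁.map ι' = (P J).map (PowerSeries.map ev) := by
      apply eq_of_monic_of_associated (hA₁.map _) ((hPm J).map _)
      rw [hE, hPmap]
      exact associated_unit_mul_left _ _ ha₁
    rcases hg J with ⟨k, m, h1, h2⟩ | h
    · exfalso
      apply he
      rw [map_prod]
      refine Finset.prod_eq_zero (Finset.mem_powerset.2 hJT) ?_
      have h3 := congrArg (fun Z => PowerSeries.coeff m (Z.coeff k)) hE'
      simp only [coeff_map, PowerSeries.coeff_map] at h3
      rw [h2]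
      change ev _ = 0
      rw [← h3]
      exact (coeff_coe _ _).trans (hD₁ k m h1)
    · obtain ⟨Q, h1, h2, h3⟩ := lifts_and_natDegree_eq_and_monic h (hPm J)
      refine ⟨Q, h1, ?_, h3⟩
      rw [h2, ← (hPm J).natDegree_map (PowerSeries.map ev), ← hE', hA₁.natDegree_map]
  obtain ⟨Q₁, h11, h12, h13⟩ := key t A a (htu ▸ Finset.subset_union_left) hA
    (IsUnit.of_mul_eq_one b hab.symm) (coeff_factor hB.ne_zero hDe) hAt
  obtain ⟨Q₂, h21, h22, h23⟩ := key u B b (htu ▸ Finset.subset_union_right) hB
    (IsUnit.of_mul_eq_one a (by rw [mul_comm]; exact hab.symm))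
    (coeff_factor hA.ne_zero (by rw [mul_comm]; exact hDe)) hBu
  have hQ : Q₁ * Q₂ = F.map ψ := by
    apply map_injective ι hι
    rw [Polynomial.map_mul, h11, h21, hT, ← htu, Finset.prod_union hdis]
  let ρ : (MvPolynomial σ L)[X] →+* MvPolynomial σ L :=
    eval₂RingHom (MvPolynomial.eval₂Hom MvPolynomial.C fun i =>
      MvPolynomial.X i - MvPolynomial.C ((c i).eval 1)) 1
  have hρ : ρ.comp ψ = RingHom.id _ := by
    have h1 : ∀ p : L[X], ρ (p.map MvPolynomial.C) = MvPolynomial.C (p.eval 1) := by
      intro p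
      have : ρ.comp (mapRingHom MvPolynomial.C) = MvPolynomial.C.comp (evalRingHom 1) := by
        apply Polynomial.ringHom_ext <;> simp [ρ]
      exact congrArg (fun z => z p) this
    apply MvPolynomial.ringHom_ext
    · simp [ψ, ρ, curve]
    · intro i
      simp only [ψ, curve, RingHom.comp_apply, MvPolynomial.eval₂Hom_X', map_add, h1]
      simp [ρ]
  have hF : Q₁.map ρ * Q₂.map ρ = F := by
    rw [← Polynomial.map_mul, hQ, map_map, hρ, map_id]
  have := (hm.irreducible_iff_natDegree.1 hirr).2 _ _ (h13.map ρ) (h23.map ρ) hF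
  rwa [h13.natDegree_map, h23.natDegree_map, h12, h22] at this

/-- Bertini-Noether over a field `K`: for `K`-rational `e` off a hypersurface, the restriction to
the curve `c(X) + X e` is irreducible over every field extension of `K`. -/
theorem bertini {σ K L : Type*} [Field K] [Field L] [Algebra K L] [IsAlgClosure K L]
    (F : (MvPolynomial σ K)[X]) (hm : F.Monic)
    (hirr : Irreducible (F.map (MvPolynomial.map (algebraMap K L)))) (c : σ → K[X])
    (hsep : (F.map (MvPolynomial.eval fun i => (c i).eval 0)).Separable) :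
    ∃ h : MvPolynomial σ L, h ≠ 0 ∧ ∀ e : σ → K,
      MvPolynomial.eval (fun i => algebraMap K L (e i)) h ≠ 0 →
      ∀ (Ω : Type*) [Field Ω] (φ : K →+* Ω), Irreducible
        ((F.map (curve (RingHom.id K) fun i => c i + X * C (e i))).map (mapRingHom φ)) := by
  have : IsAlgClosed L := IsAlgClosure.isAlgClosed K
  obtain ⟨h, h0, H⟩ := bertini_closed (F.map (MvPolynomial.map (algebraMap K L))) (hm.map _) hirr
    (fun i => (c i).map (algebraMap K L)) (by
      have : (MvPolynomial.eval fun i => ((c i).map (algebraMap K L)).eval 0).comp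
          (MvPolynomial.map (algebraMap K L)) =
          (algebraMap K L).comp (MvPolynomial.eval fun i => (c i).eval 0) := by
        apply MvPolynomial.ringHom_ext
        · simp
        · intro i
          simp only [RingHom.comp_apply, MvPolynomial.map_X, MvPolynomial.eval_X,
            ← coeff_zero_eq_eval_zero, coeff_map]
      rw [map_map, this, ← map_map]
      exact hsep.map)
  refine ⟨h, h0, fun e he Ω _ φ => ?_⟩
  let Ω' := AlgebraicClosure Ω
  let _ : Algebra K Ω' := ((algebraMap Ω Ω').comp φ).toAlgebra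
  let θ : L →+* Ω' := (IsAlgClosed.lift : L →ₐ[K] Ω').toRingHom
  have hθ : ∀ x : K, θ (algebraMap K L x) = algebraMap Ω Ω' (φ x) := fun x =>
    (IsAlgClosed.lift : L →ₐ[K] Ω').commutes x
  have hθ' : θ.comp (algebraMap K L) = (algebraMap Ω Ω').comp φ := RingHom.ext hθ
  have h1 := H Ω' θ (fun i => θ (algebraMap K L (e i))) (by
    have : MvPolynomial.eval₂Hom θ (fun i => θ (algebraMap K L (e i))) =
        θ.comp (MvPolynomial.eval fun i => algebraMap K L (e i)) := by
      apply MvPolynomial.ringHom_ext <;> simp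
    rw [this, RingHom.comp_apply]
    exact (map_ne_zero_iff _ θ.injective).2 he)
  apply Monic.irreducible_of_irreducible_map (mapRingHom (algebraMap Ω Ω')) _ ((hm.map _).map _)
  rw [map_map] at h1
  rw [map_map, map_map]
  have h2 : ((mapRingHom (algebraMap Ω Ω')).comp (mapRingHom φ)).comp
      (curve (RingHom.id K) fun i => c i + X * C (e i)) =
      (curve θ fun i => ((c i).map (algebraMap K L)).map θ + X * C (θ (algebraMap K L (e i)))).comp
        (MvPolynomial.map (algebraMap K L)) := by
    apply MvPolynomial.ringHom_ext <;> simp [curve, hθ, map_map, hθ']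
  rw [h2]
  exact h1

/-- Generic separability of an irreducible monic polynomial in characteristic zero. -/
theorem exists_disc {R : Type*} [CommRing R] [IsDomain R] [IsIntegrallyClosed R] [CharZero R]
    (g : R[X]) (hm : g.Monic) (hirr : Irreducible g) :
    ∃ Δ : R, Δ ≠ 0 ∧ ∃ a b : R[X], g * a + g.derivative * b = C Δ := by
  let K := FractionRing R
  have hinj : Function.Injective (algebraMap R K) := IsFractionRing.injective R K
  have : CharZero K := charZero_of_injective_algebraMap hinj
  have h1 : IsCoprime (g.map (algebraMap R K)) (g.derivative.map (algebraMap R K)) := by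
    rw [← derivative_map]
    exact ((hm.irreducible_iff_irreducible_map_fraction_map (K := K)).1 hirr).separable
  have h2 := resultant_ne_zero _ _ h1
  rw [natDegree_map_eq_of_injective hinj, natDegree_map_eq_of_injective hinj,
    resultant_map_map] at h2
  obtain ⟨a, b, -, -, h⟩ := exists_mul_add_mul_eq_C_resultant g g.derivative le_rfl le_rfl
    (Or.inl fun h0 => hirr.ne_one (hm.natDegree_eq_zero.1 h0))
  exact ⟨_, fun h0 => h2 (by rw [h0, map_zero]), a, b, h⟩

theorem separable_of_disc {R k : Type*} [CommRing R] [Field k] {g a b : R[X]} {Δ : R}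
    (h : g * a + g.derivative * b = C Δ) (φ : R →+* k) (hφ : φ Δ ≠ 0) : (g.map φ).Separable := by
  refine ⟨C (φ Δ)⁻¹ * a.map φ, C (φ Δ)⁻¹ * b.map φ, ?_⟩
  have h1 := congrArg (map φ) h
  rw [Polynomial.map_add, Polynomial.map_mul, Polynomial.map_mul, map_C, ← derivative_map] at h1
  rw [mul_assoc, mul_assoc, ← mul_add, mul_comm (a.map φ), mul_comm (b.map φ), h1, ← C_mul,
    inv_mul_cancel₀ hφ, C_1]

end Vale.Agent.P022K.MB
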