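import Vale.Agent.P022K.MB.Wk
import Mathlib.Data.Finsupp.Weight
import Mathlib.Data.Finsupp.Order

/-!
# P022K / MB / Cv: the data of a curve over a local field, with an open family of rational points
-/

open Filter Topology Module

namespace Vale.Agent.P022K.MB

/-- the reduced divisor of a finite set -/
noncomputable def ind {α : Type*} (Z : Finset α) : α →₀ ℤ := ∑ a ∈ Z, Finsupp.single a 1

theorem ind_apply {α : Type*} [DecidableEq α] (Z : Finset α) (b : α) :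
    ind Z b = if b ∈ Z then 1 else 0 := by
  simp [ind, Finsupp.finsetSum_apply, Finsupp.single_apply]

theorem ind_of_mem {α : Type*} {Z : Finset α} {b : α} (h : b ∈ Z) : ind Z b = 1 := by
  classical rw [ind_apply, if_pos h]

theorem ind_of_notMem {α : Type*} {Z : Finset α} {b : α} (h : b ∉ Z) : ind Z b = 0 := by
  classical rw [ind_apply, if_neg h]

theorem ind_nonneg {α : Type*} (Z : Finset α) (b : α) : 0 ≤ ind Z b := by
  classical rw [ind_apply]; split_ifs <;> norm_num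

theorem ind_le_one {α : Type*} (Z : Finset α) (b : α) : ind Z b ≤ 1 := by
  classical rw [ind_apply]; split_ifs <;> norm_num

theorem deg_ind {α : Type*} (Z : Finset α) : (ind Z).degree = Z.card := by
  simp [ind, map_sum]

/-- A function field `E` over `k` with a function `x` of degree `r`; the points of `U` are rational
points with local parameter `x`; `L D j` is the space of functions with poles at most `D + j P`,
`P` the polar divisor of `x`. -/
structure Cv (k E : Type*) [NontriviallyNormedField k] [Field E] [Algebra k E] (U : Set k) where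
  r : ℕ
  g : ℕ
  c : ℕ
  x : E
  L : (U →₀ ℤ) → ℤ → Submodule k E
  ord : U → E → ℤ
  ev : k → E →ₗ[k] k
  isOpen : IsOpen U
  nonempty : U.Nonempty
  r_pos : 0 < r
  fin : ∀ D j, FiniteDimensional k (L D j)
  one : 1 ∈ L 0 0
  mul : ∀ {D D' j j' z w}, z ∈ L D j → w ∈ L D' j' → z * w ∈ L (D + D') (j + j')
  lin : ∀ a : U, x - algebraMap k E a ∈ L (-Finsupp.single a 1) 1
  lin_ne : ∀ a : k, x - algebraMap k E a ≠ 0
  le_ord : ∀ {D j z}, z ∈ L D j → z ≠ 0 → ∀ a, -D a ≤ ord a z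
  ord_mul : ∀ a {z w}, z ≠ 0 → w ≠ 0 → ord a (z * w) = ord a z + ord a w
  ord_lin : ∀ a b : U, ord a (x - algebraMap k E b) = Finsupp.single b (1 : ℤ) a
  of_ord : ∀ {D D' j z}, z ∈ L D j → (∀ a, -D' a ≤ ord a z) → z ∈ L D' j
  R1 : ∀ D j, D.degree + j * r + 1 - g ≤ (finrank k (L D j) : ℤ)
  R2 : ∀ D j, (c : ℤ) ≤ D.degree + j * r → (finrank k (L D j) : ℤ) = D.degree + j * r + 1 - g
  const : ∀ z ∈ L 0 0, ∃ a, z = algebraMap k E a
  ai : ∀ {φ q A j}, q ≠ 0 → (∀ n : ℕ, φ ^ n * q ∈ L (n • A) j) → φ ∈ L A 0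
  ev_zero : ∀ {j z} (a : U), z ∈ L 0 j → z ≠ 0 → (ev a z = 0 ↔ 0 < ord a z)
  ev_diff : ∀ {j z} (a : U), z ∈ L 0 j →
    ∃ d, HasStrictDerivAt (fun ξ => ev ξ z) d a ∧ (z ≠ 0 → ord a z = 1 → d ≠ 0)

namespace Cv

variable {k E : Type*} [NontriviallyNormedField k] [Field E] [Algebra k E] {U : Set k}
  (C : Cv k E U)

instance (D : U →₀ ℤ) (j : ℤ) : FiniteDimensional k (C.L D j) := C.fin D j

theorem mono {D D' : U →₀ ℤ} (h : D ≤ D') (j : ℤ) : C.L D j ≤ C.L D' j := by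
  intro z hz
  by_cases h0 : z = 0
  · exact h0 ▸ Submodule.zero_mem _
  · exact C.of_ord hz fun a => (neg_le_neg (h a)).trans (C.le_ord hz h0 a)

theorem cast {D D' : U →₀ ℤ} {j j' : ℤ} {z : E} (hz : z ∈ C.L D j) (h : D = D') (h' : j = j') :
    z ∈ C.L D' j' := h ▸ h' ▸ hz

theorem cst (a : k) : algebraMap k E a ∈ C.L 0 0 := by
  rw [Algebra.algebraMap_eq_smul_one]
  exact Submodule.smul_mem _ _ C.one

theorem ord_one (a : U) : C.ord a 1 = 0 := by
  have := C.ord_mul a (one_ne_zero (α := E)) one_ne_zero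
  rw [mul_one] at this
  omega

theorem ord_smul (a : U) {b : k} (hb : b ≠ 0) {z : E} (hz : z ≠ 0) :
    C.ord a (b • z) = C.ord a z := by
  have h0 : ∀ {b : k}, b ≠ 0 → algebraMap k E b ≠ 0 := fun h => (map_ne_zero _).2 h
  have h1 := C.le_ord (C.cst b) (h0 hb) a
  have h2 := C.le_ord (C.cst b⁻¹) (h0 (inv_ne_zero hb)) a
  have h3 := C.ord_mul a (h0 hb) (h0 (inv_ne_zero hb))
  rw [← map_mul, mul_inv_cancel₀ hb, map_one, C.ord_one] at h3
  rw [Algebra.smul_def, C.ord_mul a (h0 hb) hz]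
  simp only [Finsupp.coe_zero, Pi.zero_apply, neg_zero] at h1 h2
  omega

theorem exists_ne {D : U →₀ ℤ} {j : ℤ} (h : (C.g : ℤ) ≤ D.degree + j * C.r) :
    ∃ z ∈ C.L D j, z ≠ 0 := by
  have h1 := C.R1 D j
  have h2 : C.L D j ≠ ⊥ := fun e => by
    rw [e, finrank_bot] at h1
    omega
  exact (Submodule.ne_bot_iff _).1 h2

theorem deg_nonneg {D : U →₀ ℤ} {j : ℤ} {z : E} (hz : z ∈ C.L D j) (h0 : z ≠ 0) :
    0 ≤ D.degree + j * C.r := by
  set i : ℤ := C.c + |D.degree + j * C.r| with hi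
  have hr : (1 : ℤ) ≤ C.r := by exact_mod_cast C.r_pos
  have h1 := C.R1 0 i
  have h2 := C.R2 D (j + i) (by
    have := neg_abs_le (D.degree + j * C.r)
    have h3 : 0 ≤ i := by positivity
    nlinarith)
  have h3 : finrank k (C.L 0 i) ≤ finrank k (C.L D (j + i)) := by
    refine LinearMap.finrank_le_finrank_of_injective
      (f := (LinearMap.mulLeft k z).restrict fun w hw => C.cast (C.mul hz hw) (add_zero _) rfl) ?_
    intro w w' e
    exact Subtype.ext (mul_left_cancel₀ h0 (congrArg Subtype.val e))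
  have h4 : (finrank k (C.L 0 i) : ℤ) ≤ finrank k (C.L D (j + i)) := by exact_mod_cast h3
  rw [map_zero] at h1
  nlinarith

/-- the polynomial in `x` which vanishes on `Z` -/
noncomputable def t (Z : Finset U) : E := ∏ a ∈ Z, (C.x - algebraMap k E a)

theorem t_ne (Z : Finset U) : C.t Z ≠ 0 := Finset.prod_ne_zero_iff.2 fun a _ => C.lin_ne a

theorem t_spec (Z : Finset U) : C.t Z ∈ C.L (-ind Z) Z.card ∧ ∀ a, C.ord a (C.t Z) = ind Z a := by
  classical
  induction Z using Finset.induction_on with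
  | empty => exact ⟨by simpa [t, ind] using C.one, fun a => by simpa [t, ind] using C.ord_one a⟩
  | insert b Z hb ih =>
    have e : C.t (insert b Z) = (C.x - algebraMap k E b) * C.t Z := Finset.prod_insert hb
    have e' : ind (insert b Z) = Finsupp.single b 1 + ind Z := Finset.sum_insert hb
    rw [e, e', Finset.card_insert_of_notMem hb]
    refine ⟨C.cast (C.mul (C.lin b) ih.1) (by abel) (by push_cast; ring), fun a => ?_⟩
    rw [C.ord_mul a (C.lin_ne b) (C.t_ne Z), C.ord_lin, ih.2, Finsupp.add_apply]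

/-- simple zeros persist -/
theorem move0 [CompleteSpace k] {ι : Type*} {F : Filter ι} [F.NeBot] {j : ℤ} {p : ι → E} {p₀ : E}
    (hp : ∀ᶠ i in F, p i ∈ C.L 0 j) (h : Wk.Lim k F p p₀) (h0 : p₀ ≠ 0) (Z : Finset U)
    (hZ : ∀ a ∈ Z, C.ord a p₀ = 1) (S : U → Set k) (hS : ∀ a ∈ Z, S a ∈ 𝓝 (a : k)) :
    ∀ᶠ i in F, p i ≠ 0 ∧ ∃ X : Finset U, X.card = Z.card ∧ (∀ b ∈ X, ∃ a ∈ Z, (b : k) ∈ S a) ∧
      p i ∈ C.L (-ind X) j := by
  classical
  have h₀ := h.mem hp
  obtain ⟨V, hV, hV'⟩ := (Z.finite_toSet.image Subtype.val).t2_separation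
  have h1 : ∀ a ∈ Z, ∀ᶠ i in F, ∃ ξ ∈ S a ∩ V a ∩ U, C.ev ξ (p i) = 0 := by
    intro a ha
    obtain ⟨d, hd, hd0⟩ := C.ev_diff a h₀
    exact Wk.ev_zero (C.L 0 j) C.ev (fun z hz => (C.ev_diff a hz).imp fun _ h => h.1) hp h₀ h
      ((C.ev_zero a h₀ h0).2 (by rw [hZ a ha]; norm_num)) hd (hd0 h0 (hZ a ha))
      (inter_mem (inter_mem (hS a ha) ((hV a).2.mem_nhds (hV a).1)) (C.isOpen.mem_nhds a.2))
  obtain ⟨l, hl⟩ := Module.Projective.exists_dual_ne_zero k h0
  filter_upwards [(Z.eventually_all).2 h1, hp, (h l).eventually_ne hl] with i hi hpi hne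
  have hp0 : p i ≠ 0 := fun e => hne (by rw [e, map_zero])
  choose! ξ hξ hξ' using hi
  let X : U → U := fun a => if h : ξ a ∈ U then ⟨ξ a, h⟩ else a
  have hX : ∀ a ∈ Z, (X a : k) = ξ a := fun a ha => by simp only [X, dif_pos (hξ a ha).2]
  refine ⟨hp0, Z.image X, Finset.card_image_of_injOn fun a ha b hb e => ?_, fun b hb => ?_,
    C.of_ord hpi fun b => ?_⟩
  · by_contra hn
    have h2 := hV' ⟨a, ha, rfl⟩ ⟨b, hb, rfl⟩ (fun e => hn (Subtype.ext e))
    refine Set.disjoint_left.1 h2 (hξ a ha).1.2 ?_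
    rw [← hX a ha, e, hX b hb]
    exact (hξ b hb).1.2
  · obtain ⟨a, ha, rfl⟩ := Finset.mem_image.1 hb
    exact ⟨a, ha, hX a ha ▸ (hξ a ha).1.1⟩
  · rw [Finsupp.neg_apply, neg_neg]
    by_cases hb : b ∈ Z.image X
    · rw [ind_of_mem hb]
      obtain ⟨a, ha, rfl⟩ := Finset.mem_image.1 hb
      exact (C.ev_zero (X a) hpi hp0).1 (by rw [hX a ha]; exact hξ' a ha)
    · rw [ind_of_notMem hb]
      simpa using C.le_ord hpi hp0 b

/-- a limit without poles on `Z`: the poles of the approximations are cancelled by zeros -/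
theorem move [CompleteSpace k] {ι : Type*} {F : Filter ι} [F.NeBot] {j : ℤ} {p : ι → E} {p₀ : E}
    (Z : Finset U) (hp : ∀ᶠ i in F, p i ∈ C.L (ind Z) j) (h : Wk.Lim k F p p₀) (h0 : p₀ ≠ 0)
    (hZ : ∀ a ∈ Z, C.ord a p₀ = 0) (S : U → Set k) (hS : ∀ a ∈ Z, S a ∈ 𝓝 (a : k)) :
    ∀ᶠ i in F, p i ≠ 0 ∧ ∃ X : Finset U, X.card = Z.card ∧ (∀ b ∈ X, ∃ a ∈ Z, (b : k) ∈ S a) ∧
      p i ∈ C.L (ind Z - ind X) j := by
  have h1 := C.move0 (j := Z.card + j) (p := fun i => C.t Z * p i)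
    (hp.mono fun i hi => C.cast (C.mul (C.t_spec Z).1 hi) (by abel) rfl)
    (h.map (LinearMap.mulLeft k (C.t Z))) (mul_ne_zero (C.t_ne Z) h0) Z (fun a ha => by
      show C.ord a (C.t Z * p₀) = 1
      rw [C.ord_mul a (C.t_ne Z) h0, (C.t_spec Z).2, hZ a ha, ind_of_mem ha, add_zero]) S hS
  filter_upwards [h1, hp] with i ⟨hi, X, hX, hX', hm⟩ hpi
  have hp0 := right_ne_zero_of_mul hi
  refine ⟨hp0, X, hX, hX', C.of_ord hpi fun b => ?_⟩
  have := C.le_ord hm hi b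
  rw [C.ord_mul b (C.t_ne Z) hp0, (C.t_spec Z).2] at this
  simp only [Finsupp.neg_apply, Finsupp.sub_apply] at this ⊢
  omega

end Cv

end Vale.Agent.P022K.MB
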