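import Vale.Agent.P022K.MB.Spec
import Vale.Agent.P022K.MB.Bert

/-!
# P022K / MB: reduction of the hypersurface case to plane curves (`CORE → MBD`)
-/

namespace Vale.Agent.P022K.MB

open Polynomial Filter Topology

/-- Implicit function theorem, weak form. -/
theorem eventually_exists_zero {l E : Type*} [NontriviallyNormedField l] [CompleteSpace l]
    [NormedAddCommGroup E] [NormedSpace l E] [CompleteSpace E] {G : E × l → l} {a : E} {b c : l}
    (hG : AnalyticAt l G (a, b)) (h0 : G (a, b) = 0) (hd : HasDerivAt (fun y => G (a, y)) c b)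
    (hc : c ≠ 0) {W : Set (E × l)} (hW : W ∈ 𝓝 (a, b)) :
    ∀ᶠ a' in 𝓝 a, ∃ b', G (a', b') = 0 ∧ (a', b') ∈ W := by
  have h1 := hG.hasStrictFDerivAt
  set D := fderiv l G (a, b)
  have hD : D (0, 1) = c := by
    have h2 : HasDerivAt (fun y : l => (a, y)) ((0 : E), (1 : l)) b :=
      (hasDerivAt_const b a).prodMk (hasDerivAt_id b)
    exact (h1.hasFDerivAt.comp_hasDerivAt b h2).unique hd
  have h3 := (hasStrictFDerivAt_fst.prodMk h1).map_nhds_eq_of_surj (by
    rw [LinearMap.range_eq_top]
    rintro ⟨u, w⟩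
    refine ⟨(u, 0) + ((w - D (u, 0)) / c) • ((0 : E), (1 : l)), Prod.ext ?_ ?_⟩
    · simp
    · change D _ = w
      rw [map_add, map_smul, hD, smul_eq_mul, div_mul_cancel₀ _ hc, add_sub_cancel])
  have h4 : (fun x : E × l => (x.1, G x)) '' W ∈ 𝓝 (a, (0 : l)) := by
    have := image_mem_map (m := fun x : E × l => (x.1, G x)) hW
    rw [h3] at this
    simpa [h0] using this
  have h5 : Tendsto (fun a' : E => (a', (0 : l))) (𝓝 a) (𝓝 (a, 0)) :=
    (continuous_id.prodMk continuous_const).tendsto a
  filter_upwards [h5.eventually h4] with a' ha'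
  obtain ⟨⟨u, w⟩, hw, he⟩ := ha'
  obtain ⟨rfl, h6⟩ := Prod.mk.inj he
  exact ⟨w, h6, hw⟩

theorem analyticAt_eval₂ {K l σ : Type*} [Field K] [NontriviallyNormedField l] [Algebra K l]
    [Fintype σ] (f : (MvPolynomial σ K)[X]) (p : (σ → l) × l) :
    AnalyticAt l (fun x : (σ → l) × l => f.eval₂ (MvPolynomial.aeval x.1).toRingHom x.2) p := by
  induction f using Polynomial.induction_on' with
  | add f g hf hg =>
    simp only [eval₂_add]
    exact hf.add hg
  | monomial n r =>
    simp only [eval₂_monomial]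
    refine AnalyticAt.mul ?_ (analyticAt_snd.pow n)
    exact AnalyticAt.aeval_mvPolynomial (f := fun x : (σ → l) × l => x.1) (fun i =>
      ((ContinuousLinearMap.proj i).comp (ContinuousLinearMap.fst l (σ → l) l)).analyticAt p) r

/-- Smooth points of a hypersurface move with the base point. -/
theorem eventually_smooth_point {K l σ : Type*} [Field K] [NontriviallyNormedField l]
    [CompleteSpace l] [Algebra K l] [Finite σ] (f : (MvPolynomial σ K)[X]) {a : σ → l} {b : l}
    (h0 : f.eval₂ (MvPolynomial.aeval a).toRingHom b = 0)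
    (h1 : (derivative f).eval₂ (MvPolynomial.aeval a).toRingHom b ≠ 0) {W : Set ((σ → l) × l)}
    (hW : W ∈ 𝓝 (a, b)) :
    ∀ᶠ a' in 𝓝 a, ∃ b', f.eval₂ (MvPolynomial.aeval a').toRingHom b' = 0 ∧
      (derivative f).eval₂ (MvPolynomial.aeval a').toRingHom b' ≠ 0 ∧ W ∈ 𝓝 (a', b') := by
  have := Fintype.ofFinite σ
  refine eventually_exists_zero (analyticAt_eval₂ f (a, b)) h0 ?_ h1
    (W := {x | (derivative f).eval₂ (MvPolynomial.aeval x.1).toRingHom x.2 ≠ 0 ∧ W ∈ 𝓝 x}) ?_
  · have := (f.map (MvPolynomial.aeval a).toRingHom).hasDerivAt b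
    simpa only [derivative_map, eval_map] using this
  · exact ((analyticAt_eval₂ (derivative f) (a, b)).continuousAt.eventually_ne h1).and
      (eventually_eventually_nhds.2 hW)

/-- Weak approximation off a hypersurface. -/
theorem exists_near {K L ι τ : Type*} [Field K] [Infinite K] [Field L] [Algebra K L] [Finite ι]
    [Finite τ] {k : ι → Type*} [∀ i, NontriviallyNormedField (k i)] [∀ i, Algebra K (k i)]
    (hd : DenseRange fun a : K => fun i => algebraMap K (k i) a) (h : MvPolynomial τ L)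
    (h0 : h ≠ 0) (x : ∀ i, τ → k i) (U : ∀ i, Set (τ → k i)) (hU : ∀ i, U i ∈ 𝓝 (x i)) :
    ∃ κ : τ → K, MvPolynomial.eval (fun n => algebraMap K L (κ n)) h ≠ 0 ∧
      ∀ i, (fun n => algebraMap K (k i) (κ n)) ∈ U i := by
  have h1 : ∀ i, ∃ t : τ → Set (k i), (∀ n, t n ∈ 𝓝 (x i n)) ∧ Set.univ.pi t ⊆ U i := by
    intro i
    have := hU i
    rw [nhds_pi, mem_pi] at this
    obtain ⟨I, -, t, ht, hs⟩ := this
    exact ⟨t, ht, (Set.pi_mono' (fun _ _ => subset_rfl) (Set.subset_univ I)).trans hs⟩
  choose t ht hsub using h1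
  let S : τ → Set K := fun n => {a | ∀ i, algebraMap K (k i) a ∈ t i n}
  have hS : ∀ n, (S n).Infinite := by
    intro n hfin
    rcases isEmpty_or_nonempty ι with hι | ⟨⟨i₀⟩⟩
    · have : S n = Set.univ := Set.eq_univ_of_forall fun a i => isEmptyElim i
      exact Set.infinite_univ (this ▸ hfin)
    · classical
      let O : ∀ i, Set (k i) := fun i => interior (t i n)
      have hO : ∀ i, x i n ∈ O i := fun i => mem_interior_iff_mem_nhds.2 (ht i n)
      have hc : IsClosed ((algebraMap K (k i₀)) '' S n) := (hfin.image _).isClosed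
      obtain ⟨w, hw1, hw2⟩ := ((infinite_of_mem_nhds (x i₀ n)
        (isOpen_interior.mem_nhds (hO i₀))).sdiff (hfin.image (algebraMap K (k i₀)))).nonempty
      have hop : IsOpen (Set.univ.pi O ∩ (fun z : ∀ i, k i => z i₀) ⁻¹'
          ((algebraMap K (k i₀)) '' S n)ᶜ) :=
        (isOpen_set_pi Set.finite_univ fun i _ => isOpen_interior).inter
          (hc.isOpen_compl.preimage (continuous_apply i₀))
      obtain ⟨a, ha1, ha2⟩ := hd.exists_mem_open hop ⟨Function.update (fun i => x i n) i₀ w, by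
        refine ⟨fun i _ => ?_, by simpa using hw2⟩
        by_cases hi : i = i₀
        · subst hi
          simpa using hw1
        · rw [Function.update_of_ne hi]
          exact hO i⟩
      exact ha2 ⟨a, fun i => interior_subset (ha1 i (Set.mem_univ i)), rfl⟩
  by_contra hcon
  push Not at hcon
  apply h0
  apply MvPolynomial.funext_set (fun n => algebraMap K L '' S n)
    fun n => (hS n).image (algebraMap K L).injective.injOn
  intro z hz
  choose κ hκ1 hκ2 using fun n => hz n (Set.mem_univ n)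
  by_contra hne
  obtain ⟨i, hi⟩ := hcon κ (by
    rw [map_zero] at hne
    rwa [show (fun n => algebraMap K L (κ n)) = z from funext hκ2])
  exact hi (hsub i fun n _ => hκ1 n i)

theorem aevalAeval_curve {K l σ : Type*} [Field K] [CommRing l] [Algebra K l]
    (f : (MvPolynomial σ K)[X]) (c : σ → K[X]) (s y : l) :
    aevalAeval s y (f.map (curve (RingHom.id K) c)) =
      f.eval₂ (MvPolynomial.aeval fun n => aeval s (c n)).toRingHom y := by
  induction f using Polynomial.induction_on' with
  | add f g hf hg => rw [Polynomial.map_add, map_add, hf, hg, eval₂_add]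
  | monomial n r =>
    have : (aeval s).toRingHom.comp (curve (RingHom.id K) c) =
        (MvPolynomial.aeval fun n => aeval s (c n)).toRingHom := by
      apply MvPolynomial.ringHom_ext <;> simp [curve]
    rw [Polynomial.map_monomial, eval₂_monomial, ← this, ← C_mul_X_pow_eq_monomial]
    simp

/-- The hypersurface case follows from the case of plane curves. -/
theorem mbd_of_core (hcore : CORE) : MBD := by
  intro K _ _ ι _ k l _ _ _ _ _ _ _ _ _ _ hd σ _ f hm hirr a b h0 h1 W hW δ hδ
  classical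
  have hK : Infinite K := Infinite.of_injective _ (Nat.cast_injective (R := K))
  obtain ⟨Δ, hΔ, A, B, hAB⟩ := exists_disc f hm (hm.irreducible_of_irreducible_map _ _ hirr)
  let pb : ∀ i, PowerBasis (k i) (l i) := fun i => Field.powerBasisOfFiniteOfSeparable (k i) (l i)
  obtain ⟨N, hN⟩ : ∃ N : ℕ, ∀ i, (pb i).dim ≤ N :=
    ((Set.finite_range fun i => (pb i).dim).bddAbove).imp fun N h i => h ⟨i, rfl⟩
  choose c hc1 hc2 using fun i n => (pb i).exists_eq_aeval (a i n)
  let Ψ : ∀ i, (σ × Fin (N + 1) → k i) → σ → l i := fun i κ n =>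
    ∑ m : Fin (N + 1), κ (n, m) • (pb i).gen ^ (m : ℕ)
  have hΨ : ∀ i, Continuous (Ψ i) := fun i => by fun_prop
  have hΨa : ∀ i, Ψ i (fun z => (c i z.1).coeff z.2) = a i := by
    intro i
    funext n
    rw [hc2 i n, aeval_eq_sum_range' ((hc1 i n).trans_le ((hN i).trans (Nat.le_succ N))),
      Finset.sum_range]
  have hV := fun i => eventually_smooth_point f (h0 i) (h1 i) (hW i)
  obtain ⟨κ, hκ1, hκ2⟩ := exists_near hd
    (MvPolynomial.rename (fun n : σ => (n, (0 : Fin (N + 1)))) (Δ * δ))
    ((map_ne_zero_iff _ (MvPolynomial.rename_injective _ fun _ _ h => (Prod.mk.inj h).1)).2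
      (mul_ne_zero hΔ hδ)) (fun i z => (c i z.1).coeff z.2) _
    fun i => (hΨ i).continuousAt.eventually (by
      rw [hΨa]
      exact eventually_eventually_nhds.2 (hV i))
  let c₀ : σ → K[X] := fun n => ∑ m : Fin (N + 1), C (κ (n, m)) * X ^ (m : ℕ)
  have hc₀ : ∀ n, (c₀ n).eval 0 = κ (n, 0) := by
    intro n
    simp [c₀, eval_finsetSum, Fin.sum_univ_succ]
  have hc₀' : ∀ i, (fun n => aeval (pb i).gen (c₀ n)) =
      Ψ i fun z => algebraMap K (k i) (κ z) := by
    intro i
    funext n
    simp [c₀, Ψ, Algebra.smul_def, ← IsScalarTower.algebraMap_apply]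
  rw [MvPolynomial.eval_rename, map_mul] at hκ1
  have hκ3 : (fun n => (c₀ n).eval 0) = (fun z => algebraMap K K (κ z)) ∘
      fun n : σ => (n, (0 : Fin (N + 1))) := funext hc₀
  rw [← hκ3] at hκ1
  obtain ⟨h, hh0, hh⟩ := bertini f hm hirr c₀
    (separable_of_disc hAB _ (left_ne_zero_of_mul hκ1))
  let Θ : ∀ i, (σ → k i) → σ → l i := fun i e n =>
    aeval (pb i).gen (c₀ n) + e n • (pb i).gen
  have hΘ : ∀ i, Continuous (Θ i) := fun i => by fun_prop
  obtain ⟨e, he1, he2⟩ := exists_near hd h hh0 (fun _ _ => 0) _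
    fun i => (hΘ i).continuousAt.eventually (by
      have : Θ i (fun _ => 0) = Ψ i fun z => algebraMap K (k i) (κ z) := by
        rw [← hc₀']
        funext n
        simp [Θ]
      rw [this]
      exact hκ2 i)
  let c₁ : σ → K[X] := fun n => c₀ n + X * C (e n)
  have hc₁ : ∀ i, (Θ i fun n => algebraMap K (k i) (e n)) = fun n => aeval (pb i).gen (c₁ n) := by
    intro i
    funext n
    simp only [c₁, Θ, Algebra.smul_def, ← IsScalarTower.algebraMap_apply, map_add, map_mul,
      aeval_X, aeval_C]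
    rw [mul_comm]
  choose b' hb1 hb2 hb3 using he2
  simp only [hc₁] at hb1 hb2 hb3
  have hδ' : ∀ {l' : Type} [CommRing l'] [Algebra K l'] (s : l'),
      aeval s (curve (RingHom.id K) c₁ δ) = MvPolynomial.aeval (fun n => aeval s (c₁ n)) δ := by
    intro l' _ _ s
    have := aevalAeval_curve (C δ) c₁ s 0
    simpa using this
  obtain ⟨s, y, hs1, hs2, hs3⟩ := hcore K ι k l hd (f.map (curve (RingHom.id K) c₁)) (hm.map _)
    (hh e he1) (fun i => (pb i).gen) b' (fun i => by rw [aevalAeval_curve]; exact hb1 i)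
    (fun i => by rw [derivative_map, aevalAeval_curve]; exact hb2 i)
    (fun i => (fun p : l i × l i => ((fun n => aeval p.1 (c₁ n)), p.2)) ⁻¹' W i)
    (fun i => by
      refine ContinuousAt.preimage_mem_nhds (Continuous.continuousAt ?_) (hb3 i)
      refine Continuous.prodMk (continuous_pi fun n => ?_) continuous_snd
      exact (Polynomial.continuous_aeval (c₁ n)).comp continuous_fst)
    (curve (RingHom.id K) c₁ δ) (fun hz => right_ne_zero_of_mul hκ1 (by
      have := hδ' (0 : K)
      rw [hz, map_zero] at this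
      have h2 : (fun n => aeval (0 : K) (c₁ n)) = fun n => (c₀ n).eval 0 := by
        funext n
        simp [c₁, coe_aeval_eq_eval]
      rw [h2, MvPolynomial.aeval_eq_eval] at this
      exact this.symm))
  refine ⟨fun n => aeval s (c₁ n), y, by rwa [← aevalAeval_curve], by rwa [← hδ'], ?_⟩
  intro i Ω _ _ ε j
  obtain ⟨p, hp, τ, h2, h3⟩ := hs3 i Ω ε j
  refine ⟨_, hp, τ, fun n => ?_, h3⟩
  rw [← aeval_algHom_apply, h2, aeval_algHom_apply]
  exact congrArg ε (aeval_algHom_apply (τ.restrictScalars K) p.1 (c₁ n))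

end Vale.Agent.P022K.MB
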