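import Vale.Agent.P022K.MB.FF
import Vale.Agent.P022K.MB.Red

/-!
# P022K / MB: the analytic arc of rational points through a smooth point (helper22)
-/

namespace Vale.Agent.P022K.MB

open Polynomial Filter Topology

section
variable {K l : Type*} [Field K] [NontriviallyNormedField l] [Algebra K l]

theorem analyticAt_aevalAeval (f : K[X][X]) (p : l × l) :
    AnalyticAt l (fun x : l × l => aevalAeval x.1 x.2 f) p := by
  induction f using Polynomial.induction_on with
  | C a =>
    simp only [aevalAeval_C]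
    induction a using Polynomial.induction_on with
    | C c => simp only [aeval_C]; exact analyticAt_const
    | add p q hp hq => simp only [map_add]; exact hp.add hq
    | monomial n c h =>
      simp only [pow_succ, ← mul_assoc, map_mul (aeval _) _ X, aeval_X]
      exact h.mul analyticAt_fst
  | add p q hp hq => simp only [map_add]; exact hp.add hq
  | monomial n a h =>
    simp only [pow_succ, ← mul_assoc, map_mul (aevalAeval _ _) _ X, aevalAeval_Y]
    exact h.mul analyticAt_snd

theorem hasDerivAt_aevalAeval (f : K[X][X]) (a b : l) :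
    HasDerivAt (fun y => aevalAeval a y f) (aevalAeval a b (derivative f)) b := by
  induction f using Polynomial.induction_on with
  | C c => simpa only [aevalAeval_C, derivative_C, map_zero] using hasDerivAt_const b _
  | add p q hp hq => simp only [map_add]; exact hp.add hq
  | monomial n c h =>
    simp only [pow_succ, ← mul_assoc, map_mul (aevalAeval _ _) _ X, aevalAeval_Y, derivative_mul,
      derivative_X, map_add, mul_one] at h ⊢
    simpa only [mul_one] using h.fun_mul (hasDerivAt_id' b)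

end

/-- analytic implicit function theorem in two variables -/
theorem exists_branch {l : Type*} [NontriviallyNormedField l] [CompleteSpace l] {G : l × l → l}
    {a b c : l} (hG : AnalyticAt l G (a, b)) (h0 : G (a, b) = 0)
    (hd : HasDerivAt (fun y => G (a, y)) c b) (hc : c ≠ 0) :
    ∃ η : l → l, AnalyticAt l η a ∧ η a = b ∧ ∀ᶠ t in 𝓝 a, G (t, η t) = 0 := by
  have h1 := hG.hasStrictFDerivAt
  set D := fderiv l G (a, b)
  have hD : D (0, 1) = c := by
    have h2 : HasDerivAt (fun y : l => (a, y)) ((0 : l), (1 : l)) b :=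
      (hasDerivAt_const b a).prodMk (hasDerivAt_id b)
    exact (h1.hasFDerivAt.comp_hasDerivAt b h2).unique hd
  let D' : l × l →L[l] l × l := (ContinuousLinearMap.fst l l l).prod D
  have hinj : Function.Injective D' := by
    rw [injective_iff_map_eq_zero]
    rintro ⟨u, v⟩ h
    obtain ⟨h2, h3⟩ := Prod.mk.inj h
    have h2 : u = 0 := h2
    have h4 : ((u, v) : l × l) = v • ((0 : l), (1 : l)) := by simp [h2]
    have h3 : D (u, v) = 0 := h3
    rw [h4, map_smul, hD, smul_eq_mul] at h3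
    rw [h2, (mul_eq_zero.1 h3).resolve_right hc]
    rfl
  let i : (l × l) ≃L[l] l × l :=
    (LinearEquiv.ofInjectiveEndo D'.toLinearMap hinj).toContinuousLinearEquiv
  have h5 : HasStrictFDerivAt (fun x : l × l => (x.1, G x)) (i : l × l →L[l] l × l) (a, b) :=
    hasStrictFDerivAt_fst.prodMk h1
  let F := h5.toOpenPartialHomeomorph _
  have hF : ∀ x, F x = (x.1, G x) := fun _ => rfl
  have h6 : AnalyticAt l F.symm (F (a, b)) :=
    F.analyticAt_symm' h5.mem_toOpenPartialHomeomorph_source (analyticAt_fst.prod hG)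
      h5.hasFDerivAt.fderiv
  have h7 : F (a, b) = (a, 0) := by rw [hF, h0]
  have h8 : AnalyticAt l (fun t : l => (t, (0 : l))) a := analyticAt_id.prod analyticAt_const
  rw [h7] at h6
  refine ⟨fun t => (F.symm (t, 0)).2, analyticAt_snd.comp (h6.comp_of_eq h8 rfl), ?_, ?_⟩
  · change (F.symm (a, 0)).2 = b
    rw [← h7, F.left_inv h5.mem_toOpenPartialHomeomorph_source]
  · have h9 : F.target ∈ 𝓝 (a, (0 : l)) :=
      F.open_target.mem_nhds (h7 ▸ F.map_source h5.mem_toOpenPartialHomeomorph_source)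
    filter_upwards [h8.continuousAt.eventually h9] with t ht
    have h10 := F.right_inv ht
    rw [hF] at h10
    obtain ⟨h11, h12⟩ := Prod.mk.inj h10
    have h13 : (t, (F.symm (t, 0)).2) = F.symm (t, 0) := Prod.ext h11.symm rfl
    exact (congrArg G h13).trans h12

/-- the family of evaluations along the arc -/
theorem IsFF.exists_arc {l E : Type*} [NontriviallyNormedField l] [CompleteSpace l] [CharZero l]
    [Field E] [Algebra l E] {f : l[X][X]} {x y : E} (h : IsFF l f x y) (hm : f.Monic) {a b : l}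
    (h0 : aevalAeval a b f = 0) (h1 : aevalAeval a b (derivative f) ≠ 0) {W : Set (l × l)}
    (hW : W ∈ 𝓝 (a, b)) :
    ∃ (U : Set l) (ev : l → (OO l x →ₐ[l] l)), IsOpen U ∧ a ∈ U ∧
      (∀ ξ ∈ U, ev ξ ⟨x, self_mem_OO l x⟩ = ξ ∧ (ξ, ev ξ ⟨y, h.y_mem hm⟩) ∈ W) ∧
      ∀ (z : OO l x), ∀ ξ ∈ U, AnalyticAt l (fun t => ev t z) ξ := by
  classical
  obtain ⟨η, hη, hb, hz⟩ := exists_branch (analyticAt_aevalAeval f (a, b)) h0
    (hasDerivAt_aevalAeval f a b) h1
  have hc : ContinuousAt (fun t => (t, η t)) a := continuousAt_id.prodMk hη.continuousAt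
  have h2 : ∀ᶠ t in 𝓝 a, aevalAeval t (η t) (derivative f) ≠ 0 := by
    have h3 := ((analyticAt_aevalAeval (derivative f) (a, η a)).continuousAt.comp_of_eq hc rfl)
    exact h3.eventually_ne (by simpa only [Function.comp, hb] using h1)
  have h3 : ∀ᶠ t in 𝓝 a, (t, η t) ∈ W := hc (by simpa only [hb] using hW)
  obtain ⟨U, hU, hUo, haU⟩ := eventually_nhds_iff.1
    (hz.and (h2.and (h3.and hη.eventually_analyticAt)))
  have key : ∀ t, ∃ P : OO l x →ₐ[l] l, t ∈ U → ∀ (z : OO l x) (p : l[X][X]),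
      aevalAeval x y (derivative f) * z = aevalAeval x y p →
        aevalAeval t (η t) (derivative f) * P z = aevalAeval t (η t) p := by
    intro t
    by_cases ht : t ∈ U
    · obtain ⟨P, hP⟩ := h.exists_ev hm (hU t ht).1 (hU t ht).2.1
      exact ⟨P, fun _ => hP⟩
    · obtain ⟨P, _⟩ := h.exists_ev hm h0 h1
      exact ⟨P, fun h => absurd h ht⟩
  choose ev hev using key
  refine ⟨U, ev, hUo, haU, fun ξ hξ => ⟨?_, ?_⟩, fun z ξ hξ => ?_⟩
  · have := hev ξ hξ ⟨x, self_mem_OO l x⟩ (derivative f * C X) (by rw [map_mul, aevalAeval_X])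
    rw [map_mul, aevalAeval_X] at this
    exact mul_left_cancel₀ (hU ξ hξ).2.1 this
  · have := hev ξ hξ ⟨y, h.y_mem hm⟩ (derivative f * X) (by rw [map_mul, aevalAeval_Y])
    rw [map_mul, aevalAeval_Y] at this
    rw [mul_left_cancel₀ (hU ξ hξ).2.1 this]
    exact (hU ξ hξ).2.2.1
  · obtain ⟨p, hp⟩ := h.exists_mul_eq hm z.2
    have h4 : AnalyticAt l (fun t => (t, η t)) ξ := analyticAt_id.prod (hU ξ hξ).2.2.2
    have h5 := ((analyticAt_aevalAeval p (ξ, η ξ)).comp_of_eq h4 rfl).div
      ((analyticAt_aevalAeval (derivative f) (ξ, η ξ)).comp_of_eq h4 rfl) (hU ξ hξ).2.1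
    refine h5.congr ?_
    filter_upwards [hUo.mem_nhds hξ] with t ht
    exact (eq_div_of_mul_eq (hU t ht).2.1 ((mul_comm _ _).trans (hev t ht z p hp))).symm

/-- moving the base point to a generic position -/
theorem exists_good_point {K k l : Type*} [Field K] [NontriviallyNormedField k]
    [NontriviallyNormedField l] [NormedAlgebra k l] [CompleteSpace l] [FiniteDimensional k l]
    [Algebra.IsSeparable k l] [Algebra K l] (f : K[X][X]) {a b : l} (h0 : aevalAeval a b f = 0)
    (h1 : aevalAeval a b (derivative f) ≠ 0) {W : Set (l × l)} (hW : W ∈ 𝓝 (a, b)) {δ : K[X]}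
    (hδ : δ ≠ 0) :
    ∃ a' b' : l, aevalAeval a' b' f = 0 ∧ aevalAeval a' b' (derivative f) ≠ 0 ∧ W ∈ 𝓝 (a', b') ∧
      aeval a' δ ≠ 0 ∧ ∀ σ : l ≃ₐ[k] l, σ a' = a' → σ = 1 := by
  have h2 : ∀ᶠ a' in 𝓝 a, ∃ b', aevalAeval a' b' f = 0 ∧
      (a', b') ∈ {p : l × l | aevalAeval p.1 p.2 (derivative f) ≠ 0 ∧ W ∈ 𝓝 p} :=
    eventually_exists_zero (analyticAt_aevalAeval f (a, b)) h0 (hasDerivAt_aevalAeval f a b) h1
      (((analyticAt_aevalAeval (derivative f) (a, b)).continuousAt.eventually_ne h1).and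
        (eventually_mem_nhds_iff.2 hW))
  obtain ⟨θ, hθ0, hθ⟩ : ∃ θ : l, θ ≠ 0 ∧ ∀ σ : l ≃ₐ[k] l, σ θ = θ → σ = 1 := by
    let pb := Field.powerBasisOfFiniteOfSeparable k l
    have h3 : ∀ σ : l ≃ₐ[k] l, σ pb.gen = pb.gen → σ = 1 := fun σ hσ =>
      AlgEquiv.coe_toAlgHom_injective (pb.algHom_ext hσ)
    by_cases h4 : pb.gen = 0
    · exact ⟨1, one_ne_zero, fun σ _ => h3 σ (by rw [h4, map_zero])⟩
    · exact ⟨pb.gen, h4, h3⟩
  have h3 : Tendsto (fun c : k => a + c • θ) (𝓝[≠] 0) (𝓝 a) := by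
    have : Continuous fun c : k => a + c • θ := by fun_prop
    simpa using (this.tendsto 0).mono_left nhdsWithin_le_nhds
  have h4 : {c : k | aeval (a + c • θ) δ = 0}.Finite := by
    refine Set.Finite.subset ((δ.rootSet_finite l).preimage (f := fun c : k => a + c • θ)
      fun c _ c' _ h => ?_) fun c hc => (mem_rootSet.2 ⟨hδ, hc⟩)
    exact smul_left_injective k hθ0 (add_left_cancel h)
  have h5 : ∀ σ : l ≃ₐ[k] l, {c : k | σ (a + c • θ) = a + c • θ ∧ σ ≠ 1}.Finite := by
    intro σ
    refine Set.Subsingleton.finite fun c hc c' hc' => ?_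
    have h6 : σ θ - θ ≠ 0 := fun h => hc.2 (hθ σ (sub_eq_zero.1 h))
    refine smul_left_injective k h6 ?_
    have h7 := hc.1
    have h8 := hc'.1
    rw [map_add, map_smul] at h7 h8
    simp only [smul_sub]
    linear_combination h7 - h8
  have h6 := (h4.union (Set.finite_iUnion h5)).eventually_cofinite_notMem.filter_mono
    (nhdsNE_le_cofinite (0 : k))
  obtain ⟨c, ⟨b', h7, h8, h9⟩, hc⟩ := ((h3.eventually h2).and h6).exists
  refine ⟨_, b', h7, h8, h9, fun h => hc (Or.inl h), fun σ hσ => ?_⟩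
  by_contra hne
  exact hc (Or.inr (Set.mem_iUnion.2 ⟨σ, hσ, hne⟩))

end Vale.Agent.P022K.MB
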