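import Vale.Agent.P022K.MB.Spec

/-!
# P022K / MB: function fields of plane curves (helper22)
-/

namespace Vale.Agent.P022K.MB

open Polynomial
open scoped IntermediateField IntermediateField.algebraAdjoinAdjoin Pointwise

variable {k E : Type*} [Field k] [Field E] [Algebra k E]

/-- `k[X] → k[x]` -/
noncomputable def rho (k : Type*) {E : Type*} [Field k] [Field E] [Algebra k E] (x : E) :
    k[X] →+* Algebra.adjoin k {x} :=
  (aeval (⟨x, Algebra.self_mem_adjoin_singleton k x⟩ : Algebra.adjoin k {x})).toRingHom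

theorem coe_rho (x : E) (p : k[X]) : ((rho k x p : Algebra.adjoin k {x}) : E) = aeval x p := by
  have := Polynomial.aeval_algHom_apply (Algebra.adjoin k {x}).val
    (⟨x, Algebra.self_mem_adjoin_singleton k x⟩ : Algebra.adjoin k {x}) p
  exact this.symm

theorem rho_surj (x : E) : Function.Surjective (rho k x) := by
  rintro ⟨z, hz⟩
  rw [Algebra.adjoin_singleton_eq_range_aeval] at hz
  obtain ⟨p, rfl⟩ := hz
  exact ⟨p, Subtype.ext (coe_rho x p)⟩

theorem rho_inj {x : E} (hx : Transcendental k x) : Function.Injective (rho k x) := by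
  intro p q h
  have h2 : aeval x p = aeval x q := by rw [← coe_rho, ← coe_rho, h]
  exact (transcendental_iff_injective.1 hx) h2

theorem aeval_map_rho (x y : E) (p : k[X][X]) : aeval y (p.map (rho k x)) = aevalAeval x y p := by
  induction p using Polynomial.induction_on with
  | C a => rw [map_C, aeval_C, aevalAeval_C, ← coe_rho]; rfl
  | add p q hp hq => rw [Polynomial.map_add, map_add, map_add, hp, hq]
  | monomial n a h =>
    rw [pow_succ, ← mul_assoc, Polynomial.map_mul, map_mul, map_mul, h, map_X, aeval_X,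
      aevalAeval_Y]

theorem aevalAeval_map {k' : Type*} [Field k'] [Algebra k k'] {Ω : Type*} [CommRing Ω]
    [Algebra k' Ω] [Algebra k Ω] [IsScalarTower k k' Ω] (x y : Ω) (p : k[X][X]) :
    aevalAeval x y (p.map (mapRingHom (algebraMap k k'))) = aevalAeval x y p := by
  induction p using Polynomial.induction_on with
  | C a => rw [map_C, aevalAeval_C, aevalAeval_C, coe_mapRingHom, aeval_map_algebraMap]
  | add p q hp hq => rw [Polynomial.map_add, map_add, map_add, hp, hq]
  | monomial n a h =>
    rw [pow_succ, ← mul_assoc, Polynomial.map_mul, map_mul, map_mul, h, map_X, aevalAeval_Y,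
      aevalAeval_Y]

theorem algHom_aevalAeval {A B : Type*} [CommRing A] [CommRing B] [Algebra k A] [Algebra k B]
    (φ : A →ₐ[k] B) (x y : A) (p : k[X][X]) :
    φ (aevalAeval x y p) = aevalAeval (φ x) (φ y) p := by
  induction p using Polynomial.induction_on with
  | C a => rw [aevalAeval_C, aevalAeval_C, aeval_algHom_apply]
  | add p q hp hq => rw [map_add, map_add, map_add, hp, hq]
  | monomial n a h =>
    rw [pow_succ, ← mul_assoc, map_mul (aevalAeval x y), map_mul φ, h,
      map_mul (aevalAeval (φ x) (φ y)) _ X, aevalAeval_Y, aevalAeval_Y]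

theorem isPID_adjoin (x : E) :
    IsPrincipalIdealRing (Algebra.adjoin k {x}) :=
  IsPrincipalIdealRing.of_surjective (rho k x) (rho_surj x)

theorem isIC_adjoin (x : E) :
    IsIntegrallyClosed (Algebra.adjoin k {x}) := by
  have := isPID_adjoin (k := k) x
  infer_instance

theorem aevalAeval_mem_OO {x y : E} (hy : y ∈ OO k x) (p : k[X][X]) :
    aevalAeval x y p ∈ OO k x := by
  induction p using Polynomial.induction_on with
  | C a =>
    rw [aevalAeval_C, ← coe_rho]
    exact (mem_OO k).2 (isIntegral_algebraMap (x := rho k x a))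
  | add p q hp hq => rw [map_add]; exact add_mem hp hq
  | monomial n a h => rw [pow_succ, ← mul_assoc, map_mul, aevalAeval_Y]; exact mul_mem h hy

theorem mem_OO_of_monic {f : k[X][X]} (hm : f.Monic) {x y : E} (h : aevalAeval x y f = 0) :
    y ∈ OO k x :=
  ⟨f.map (rho k x), hm.map _, by rw [← aeval_def, aeval_map_rho, h]⟩

/-- the kernel of evaluation at a point of an irreducible curve with transcendental abscissa -/
theorem ker_of_irreducible {f : k[X][X]} (hm : f.Monic) (hf : Irreducible f) {x y : E}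
    (hx : Transcendental k x) (h : aevalAeval x y f = 0) (p : k[X][X])
    (hp : aevalAeval x y p = 0) : f ∣ p := by
  have := isIC_adjoin (k := k) x
  have hy : IsIntegral (Algebra.adjoin k {x}) y := mem_OO_of_monic hm h
  let e : k[X] ≃+* Algebra.adjoin k {x} := RingEquiv.ofBijective (rho k x) ⟨rho_inj hx, rho_surj x⟩
  have hf' : Irreducible (f.map (rho k x)) :=
    (MulEquiv.irreducible_iff (Polynomial.mapEquiv e)).2 hf
  have h1 : minpoly (Algebra.adjoin k {x}) y ∣ f.map (rho k x) :=
    minpoly.isIntegrallyClosed_dvd hy (by rw [aeval_map_rho, h])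
  have h2 : minpoly (Algebra.adjoin k {x}) y ∣ p.map (rho k x) :=
    minpoly.isIntegrallyClosed_dvd hy (by rw [aeval_map_rho, hp])
  have h3 : f.map (rho k x) ∣ minpoly (Algebra.adjoin k {x}) y :=
    (minpoly.irreducible hy).dvd_symm hf' h1
  exact (map_dvd_map _ (rho_inj hx) hm).1 (h3.trans h2)

namespace IsFF
variable {f : k[X][X]} {x y : E}

theorem zero (h : IsFF k f x y) : aevalAeval x y f = 0 := (h.ker f).2 dvd_rfl

theorem natDegree_pos (h : IsFF k f x y) (hm : f.Monic) : 0 < f.natDegree := by
  by_contra h0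
  have h1 : f = 1 := hm.natDegree_eq_zero.1 (by omega)
  have h2 := h.zero
  rw [h1, map_one] at h2
  exact one_ne_zero h2

theorem eq_zero_of_lt (h : IsFF k f x y) (hm : f.Monic) {p : k[X][X]}
    (hp : p.natDegree < f.natDegree) (h0 : aevalAeval x y p = 0) : p = 0 := by
  by_contra hne
  exact hm.not_dvd_of_natDegree_lt hne hp ((h.ker p).1 h0)

theorem transcendental (h : IsFF k f x y) (hm : f.Monic) : Transcendental k x := by
  rintro ⟨p, hp, h0⟩
  have := h.eq_zero_of_lt hm (p := C p) (by rw [natDegree_C]; exact h.natDegree_pos hm)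
    (by rw [aevalAeval_C, h0])
  exact hp (C_eq_zero.1 this)

theorem y_mem (h : IsFF k f x y) (hm : f.Monic) : y ∈ OO k x := mem_OO_of_monic hm h.zero

theorem minpoly_eq (h : IsFF k f x y) (hm : f.Monic) :
    minpoly (Algebra.adjoin k {x}) y = f.map (rho k x) := by
  have hx := h.transcendental hm
  have := isIC_adjoin (k := k) x
  have hy : IsIntegral (Algebra.adjoin k {x}) y := h.y_mem hm
  have h1 : minpoly (Algebra.adjoin k {x}) y ∣ f.map (rho k x) :=
    minpoly.isIntegrallyClosed_dvd hy (by rw [aeval_map_rho, h.zero])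
  obtain ⟨q, hq⟩ := Polynomial.map_surjective (rho k x) (rho_surj x)
    (minpoly (Algebra.adjoin k {x}) y)
  have h2 : f ∣ q := (h.ker q).1 (by rw [← aeval_map_rho, hq, minpoly.aeval])
  have h3 : f.map (rho k x) ∣ minpoly (Algebra.adjoin k {x}) y := hq ▸ Polynomial.map_dvd _ h2
  exact eq_of_monic_of_associated (minpoly.monic hy) (hm.map _) (associated_of_dvd_dvd h1 h3)

theorem minpoly_field (h : IsFF k f x y) (hm : f.Monic) :
    minpoly k⟮x⟯ y = (f.map (rho k x)).map (algebraMap (Algebra.adjoin k {x}) k⟮x⟯) := by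
  have := isIC_adjoin (k := k) x
  rw [minpoly.isIntegrallyClosed_eq_field_fractions' k⟮x⟯ (h.y_mem hm), h.minpoly_eq hm]

theorem integral_field (h : IsFF k f x y) (hm : f.Monic) : IsIntegral k⟮x⟯ y :=
  IsIntegral.tower_top (R := Algebra.adjoin k {x}) (h.y_mem hm)

theorem mem_adjoin (x y : E) (p : k[X][X]) :
    aevalAeval x y p ∈ Algebra.adjoin (Algebra.adjoin k {x}) {y} := by
  rw [← aeval_map_rho]
  exact Polynomial.aeval_mem_adjoin_singleton _ _

theorem adjoin_top (h : IsFF k f x y) : k⟮x⟯⟮y⟯ = ⊤ := by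
  have key : ∀ p : k[X][X], aevalAeval x y p ∈ k⟮x⟯⟮y⟯ := by
    intro p
    rw [← aeval_map_rho, ← aeval_map_algebraMap k⟮x⟯]
    exact IntermediateField.algebra_adjoin_le_adjoin _ _ (Polynomial.aeval_mem_adjoin_singleton _ _)
  rw [eq_top_iff]
  intro z _
  obtain ⟨p, q, hq, hz⟩ := h.gen z
  rw [eq_div_of_mul_eq hq hz]
  exact div_mem (key p) (key q)

theorem algebra_adjoin_top (h : IsFF k f x y) (hm : f.Monic) : Algebra.adjoin k⟮x⟯ {y} = ⊤ := by
  rw [← IntermediateField.adjoin_simple_toSubalgebra_of_isAlgebraic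
    (h.integral_field hm).isAlgebraic, h.adjoin_top]
  rfl

theorem finiteDimensional (h : IsFF k f x y) (hm : f.Monic) : FiniteDimensional k⟮x⟯ E := by
  have := IntermediateField.adjoin.finiteDimensional (h.integral_field hm)
  rw [h.adjoin_top] at this
  exact IntermediateField.topEquiv.toLinearEquiv.finiteDimensional

theorem finrank_eq (h : IsFF k f x y) (hm : f.Monic) : Module.finrank k⟮x⟯ E = f.natDegree := by
  have h1 := IntermediateField.adjoin.finrank (h.integral_field hm)
  rw [h.adjoin_top, IntermediateField.finrank_top', h.minpoly_field hm,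
    (hm.map _).natDegree_map, hm.natDegree_map] at h1
  exact h1

/-- Euler: `f_y · O ⊆ k[x, y]` -/
theorem exists_mul_eq [CharZero k] (h : IsFF k f x y) (hm : f.Monic) {z : E} (hz : z ∈ OO k x) :
    ∃ p : k[X][X], aevalAeval x y (derivative f) * z = aevalAeval x y p := by
  have hx := h.transcendental hm
  have := isIC_adjoin (k := k) x
  have := h.finiteDimensional hm
  have hd := traceForm_dualSubmodule_adjoin (Algebra.adjoin k {x}) k⟮x⟯
    (h.algebra_adjoin_top hm) (h.y_mem hm)
  have h1 : z ∈ (Algebra.traceForm k⟮x⟯ E).dualSubmodule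
      (Subalgebra.toSubmodule (Algebra.adjoin (Algebra.adjoin k {x}) {y})) := by
    intro w hw
    have hw' : IsIntegral (Algebra.adjoin k {x}) w :=
      IsIntegral.of_mem_of_fg _ (h.y_mem hm).fg_adjoin_singleton w hw
    have h2 : IsIntegral (Algebra.adjoin k {x}) (Algebra.trace k⟮x⟯ E (z * w)) :=
      Algebra.isIntegral_trace (IsIntegral.mul hz hw')
    obtain ⟨c, hc⟩ := IsIntegrallyClosed.algebraMap_eq_of_integral h2
    rw [Algebra.traceForm_apply, ← hc]
    exact Submodule.algebraMap_mem c
  rw [hd] at h1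
  have h3 : aeval y (derivative (minpoly k⟮x⟯ y)) = aevalAeval x y (derivative f) := by
    rw [h.minpoly_field hm, derivative_map, aeval_map_algebraMap, derivative_map, aeval_map_rho]
  rw [h3] at h1
  obtain ⟨w, hw, hw2⟩ := (Submodule.mem_smul_pointwise_iff_exists _ _ _).1 h1
  obtain ⟨q, rfl⟩ := (Algebra.adjoin_singleton_eq_range_aeval _ y).le hw
  obtain ⟨p, rfl⟩ := Polynomial.map_surjective (rho k x) (rho_surj x) q
  by_cases h0 : aevalAeval x y (derivative f) = 0
  · exact ⟨0, by rw [h0, zero_mul, map_zero]⟩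
  refine ⟨p, ?_⟩
  rw [← hw2, smul_eq_mul, ← mul_assoc, mul_inv_cancel₀ h0, one_mul, ← aeval_map_rho]
  rfl

theorem deriv_ne_zero [CharZero k] (h : IsFF k f x y) (hm : f.Monic) :
    aevalAeval x y (derivative f) ≠ 0 := by
  intro h0
  have hp := h.natDegree_pos hm
  have h1 := h.eq_zero_of_lt hm (natDegree_derivative_lt hp.ne') h0
  have h2 := derivative_eq_zero.1 h1
  omega

/-- if `f` stays irreducible over every extension, `k` is algebraically closed in `E` -/
theorem algClosed [CharZero k] (h : IsFF k f x y) (hm : f.Monic) (α : E) (hα : IsAlgebraic k α)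
    (hirr : Irreducible (f.map (mapRingHom (algebraMap k k⟮α⟯)))) :
    ∃ c : k, algebraMap k E c = α := by
  have hx := h.transcendental hm
  have hαi : IsIntegral k α := hα.isIntegral
  have := IntermediateField.adjoin.finiteDimensional hαi
  have hx' : Transcendental k⟮α⟯ x := hx.extendScalars _
  have hmap : ∀ p : k[X][X], aevalAeval x y (p.map (mapRingHom (algebraMap k k⟮α⟯))) =
      aevalAeval x y p := aevalAeval_map x y
  obtain ⟨p, hp⟩ := h.exists_mul_eq hm (z := α) (IsIntegral.tower_top hαi)
  have hp2 : aevalAeval x y (p %ₘ f) = aevalAeval x y p := by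
    conv_rhs => rw [← modByMonic_add_div p f, map_add, map_mul, h.zero, zero_mul, add_zero]
  have hpos := h.natDegree_pos hm
  have hf1 : f ≠ 1 := by rintro rfl; simp at hpos
  set a : k⟮α⟯ := IntermediateField.AdjoinSimple.gen k α with ha
  set ψ := mapRingHom (algebraMap k k⟮α⟯) with hψ
  have h1 : f.map ψ ∣ (derivative f).map ψ * C (C a) - (p %ₘ f).map ψ := by
    refine ker_of_irreducible (hm.map _) hirr hx' (y := y) (by rw [hmap, h.zero]) _ ?_
    rw [map_sub, map_mul, hmap, hmap, hp2, aevalAeval_C, aeval_C, ← hp]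
    exact sub_self _
  have h2 : (derivative f).map ψ * C (C a) - (p %ₘ f).map ψ = 0 := by
    by_contra hne
    refine (hm.map ψ).not_dvd_of_natDegree_lt hne ?_ h1
    rw [hm.natDegree_map]
    refine lt_of_le_of_lt (natDegree_sub_le _ _) (max_lt ?_ ?_)
    · exact lt_of_le_of_lt (natDegree_mul_C_le _ _)
        (lt_of_le_of_lt natDegree_map_le (natDegree_derivative_lt hpos.ne'))
    · exact lt_of_le_of_lt natDegree_map_le (natDegree_modByMonic_lt p hm hf1)
  have h3 : derivative f ≠ 0 := fun h0 => h.deriv_ne_zero hm (by rw [h0, map_zero])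
  have h4 := congrArg (fun q => (q.coeff (derivative f).natDegree).coeff
    (derivative f).leadingCoeff.natDegree) (sub_eq_zero.1 h2)
  simp only [coeff_mul_C, coeff_map, hψ, coe_mapRingHom, coeff_natDegree] at h4
  have h5 : (derivative f).leadingCoeff.leadingCoeff ≠ 0 :=
    leadingCoeff_ne_zero.2 (leadingCoeff_ne_zero.2 h3)
  have h6 := congrArg (algebraMap k⟮α⟯ E) h4
  rw [map_mul, ← IsScalarTower.algebraMap_apply, ← IsScalarTower.algebraMap_apply] at h6
  refine ⟨((derivative f).leadingCoeff.leadingCoeff)⁻¹ * ((p %ₘ f).coeff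
    (derivative f).natDegree).coeff (derivative f).leadingCoeff.natDegree, ?_⟩
  rw [map_mul, ← h6, ← mul_assoc, ← map_mul, inv_mul_cancel₀ h5, map_one, one_mul]; rfl

/-- points of the curve with trivial kernel give embeddings of the function field -/
theorem exists_hom (h : IsFF k f x y) {E' : Type*} [Field E'] [Algebra k E'] (x' y' : E')
    (h' : ∀ p : k[X][X], aevalAeval x' y' p = 0 ↔ f ∣ p) :
    ∃ φ : E →ₐ[k] E', φ x = x' ∧ φ y = y' := by
  let g : k[X][X] →ₐ[k] E := aevalAeval x y
  have hs : Function.Surjective g.rangeRestrict := AlgHom.rangeRestrict_surjective g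
  have hk : RingHom.ker g.rangeRestrict.toRingHom ≤ RingHom.ker (aevalAeval x' y').toRingHom := by
    intro p hp
    have : g p = 0 := congrArg Subtype.val ((RingHom.mem_ker).1 hp)
    exact (h' p).2 ((h.ker p).1 this)
  let ψ : g.range →ₐ[k] E' := AlgHom.liftOfSurjective g.rangeRestrict hs (aevalAeval x' y') hk
  have hψ : ∀ p, ψ (g.rangeRestrict p) = aevalAeval x' y' p :=
    AlgHom.liftOfSurjective_apply _ hs _ hk
  have hinj : Function.Injective ψ := by
    rw [injective_iff_map_eq_zero]
    intro a ha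
    obtain ⟨p, rfl⟩ := hs a
    rw [hψ] at ha
    exact Subtype.ext ((h.ker p).2 ((h' p).1 ha))
  have : IsFractionRing g.range E := by
    refine IsFractionRing.of_field _ _ fun z => ?_
    obtain ⟨p, q, hq, hz⟩ := h.gen z
    exact ⟨g.rangeRestrict p, g.rangeRestrict q, eq_div_of_mul_eq hq hz⟩
  have key : ∀ p, IsFractionRing.liftAlgHom (K := E) hinj (g p) = aevalAeval x' y' p := by
    intro p
    rw [← hψ, IsFractionRing.liftAlgHom_apply]
    exact IsFractionRing.lift_algebraMap hinj (g.rangeRestrict p)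
  refine ⟨IsFractionRing.liftAlgHom hinj, ?_, ?_⟩
  · have := key (C X)
    rwa [aevalAeval_X, aevalAeval_X] at this
  · have := key X
    rwa [aevalAeval_Y, aevalAeval_Y] at this

/-- evaluation of the integral functions at a smooth point of the curve -/
theorem exists_ev [CharZero k] (h : IsFF k f x y) (hm : f.Monic) {Ω : Type*} [Field Ω]
    [Algebra k Ω] {a b : Ω} (h0 : aevalAeval a b f = 0) (h1 : aevalAeval a b (derivative f) ≠ 0) :
    ∃ P : OO k x →ₐ[k] Ω, ∀ (z : OO k x) (p : k[X][X]),
      aevalAeval x y (derivative f) * z = aevalAeval x y p →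
        aevalAeval a b (derivative f) * P z = aevalAeval a b p := by
  have wd : ∀ p q : k[X][X], aevalAeval x y p = aevalAeval x y q →
      aevalAeval a b p = aevalAeval a b q := by
    intro p q hpq
    obtain ⟨c, hc⟩ := (h.ker (p - q)).1 (by rw [map_sub, hpq, sub_self])
    rw [← sub_eq_zero, ← map_sub, hc, map_mul, h0, zero_mul]
  choose r hr using fun z : OO k x => h.exists_mul_eq hm z.2
  set D := derivative f with hD
  have key : ∀ (z : OO k x) (p : k[X][X]), aevalAeval x y D * z = aevalAeval x y p →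
      aevalAeval a b (r z) / aevalAeval a b D = aevalAeval a b p / aevalAeval a b D := by
    intro z p hp
    rw [wd _ _ ((hr z).symm.trans hp)]
  refine ⟨{ toFun := fun z => aevalAeval a b (r z) / aevalAeval a b D
            map_one' := ?_, map_mul' := ?_, map_zero' := ?_, map_add' := ?_, commutes' := ?_ }, ?_⟩
  · rw [key 1 D (by simp), div_self h1]
  · intro z w
    have h2 : aevalAeval a b (D * r (z * w)) = aevalAeval a b (r z * r w) := by
      refine wd _ _ ?_
      rw [map_mul, map_mul, ← hr, ← hr, ← hr, Subalgebra.coe_mul]; ring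
    rw [map_mul, map_mul] at h2
    field_simp
    rw [← h2]; ring
  · rw [key 0 0 (by simp), map_zero, zero_div]
  · intro z w
    rw [key (z + w) (r z + r w) (by rw [map_add, ← hr, ← hr, Subalgebra.coe_add]; ring), map_add,
      add_div]
  · intro c
    rw [key (algebraMap k _ c) (D * C (C c)) (by rw [map_mul, aevalAeval_C, aeval_C]; rfl), map_mul,
      aevalAeval_C, aeval_C, mul_div_cancel_left₀ _ h1]
  · intro z p hp
    change aevalAeval a b D * (aevalAeval a b (r z) / aevalAeval a b D) = _
    rw [key z p hp, mul_div_cancel₀ _ h1]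

end IsFF

/-- the function field of an irreducible plane curve exists -/
theorem exists_isFF {k : Type} [Field k] {f : k[X][X]} (hf : Irreducible f) :
    ∃ (E : Type) (_ : Field E) (_ : Algebra k E) (x y : E), IsFF k f x y := by
  have : IsDomain (AdjoinRoot f) := AdjoinRoot.isDomain_of_prime hf.prime
  let g : k[X][X] →ₐ[k] FractionRing (AdjoinRoot f) :=
    (IsScalarTower.toAlgHom k (AdjoinRoot f) (FractionRing (AdjoinRoot f))).comp
      (Ideal.Quotient.mkₐ k (Ideal.span {f}))
  have hg : aevalAeval (g (C X)) (g X) = g := by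
    ext <;> simp
  have hg2 : ∀ p, g p = algebraMap (AdjoinRoot f) _ (AdjoinRoot.mk f p) := fun _ => rfl
  refine ⟨FractionRing (AdjoinRoot f), inferInstance, inferInstance, g (C X), g X, ?_, ?_⟩
  · intro p
    rw [hg, hg2, map_eq_zero_iff _ (IsFractionRing.injective _ _), AdjoinRoot.mk_eq_zero]
  · intro z
    obtain ⟨a, b, hb, rfl⟩ := IsFractionRing.div_surjective (A := AdjoinRoot f) z
    obtain ⟨p, rfl⟩ := AdjoinRoot.mk_surjective a
    obtain ⟨q, rfl⟩ := AdjoinRoot.mk_surjective b
    have hq : algebraMap (AdjoinRoot f) (FractionRing (AdjoinRoot f)) (AdjoinRoot.mk f q) ≠ 0 :=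
      IsFractionRing.to_map_ne_zero_of_mem_nonZeroDivisors hb
    exact ⟨p, q, by rw [hg, hg2]; exact hq, by rw [hg, hg2, hg2, div_mul_cancel₀ _ hq]⟩

end Vale.Agent.P022K.MB
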