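import Vale.Agent.P022K.MB.Spec

/-!
# P022K / MB / RR0: valuation rings of a function field, the filtration at infinity, COUNT
-/

open Polynomial Module
open scoped IntermediateField

namespace Vale.Agent.P022K.MB.RR

variable {k E : Type*} [Field k] [Field E] [Algebra k E]

variable (k E) in
/-- valuation rings which contain the constants -/
def Pl : Type _ := {R : ValuationSubring E // ∀ c : k, algebraMap k E c ∈ R}

/-- the valuation ring as a subalgebra -/
def Pl.alg (R : Pl k E) : Subalgebra k E := { R.1.toSubring with algebraMap_mem' := R.2 }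

theorem Pl.mem_alg {R : Pl k E} {z : E} : z ∈ R.alg ↔ z ∈ R.1 := Iff.rfl

theorem mem_OO_iff {x z : E} : z ∈ OO k x ↔ ∀ R : Pl k E, x ∈ R.1 → z ∈ R.1 := by
  have h := iInf_valuationSubring_superset (s := ((Algebra.adjoin k {x}).toSubring : Set E))
  rw [Subring.closure_eq] at h
  have h1 : z ∈ OO k x ↔ z ∈ (integralClosure (Algebra.adjoin k {x}).toSubring E).toSubring :=
    Iff.rfl
  rw [h1, ← h, Subring.mem_iInf]
  constructor
  · intro h2 R hx
    exact h2 ⟨R.1, (Algebra.adjoin_le (S := R.alg) (Set.singleton_subset_iff.2 hx))⟩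
  · intro h2 R
    exact h2 ⟨R.1, fun c => R.2 (Subalgebra.algebraMap_mem (Algebra.adjoin k {x}) c)⟩
      (R.2 (Algebra.self_mem_adjoin_singleton k x))

theorem isIntegral_iff {z : E} : IsIntegral k z ↔ ∀ R : Pl k E, z ∈ R.1 := by
  have : Algebra.IsIntegral k (Algebra.adjoin k {(0 : E)}) :=
    Algebra.IsIntegral.adjoin fun _ h => h ▸ isIntegral_zero
  refine Iff.trans ⟨fun h => (mem_OO k).2 h.tower_top, fun h => isIntegral_trans _ h⟩
    (mem_OO_iff.trans ⟨fun h R => h R (zero_mem _), fun h R _ => h R⟩)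

theorem Pl.aeval_mem (R : Pl k E) {w : E} (hw : w ∈ R.1) (u : k[X]) : aeval w u ∈ R.1 :=
  Algebra.adjoin_le (S := R.alg) (Set.singleton_subset_iff.2 hw) (aeval_mem_adjoin_singleton k w)

theorem Pl.inv_mem (R : Pl k E) {x : E} (hx : x ∉ R.1) : x⁻¹ ∈ R.1 :=
  (R.1.mem_or_inv_mem x).resolve_left hx

/-- a polynomial in `1 / x` with non zero constant term is a unit at infinity -/
theorem Pl.unit (R : Pl k E) {x : E} (hx : x ∉ R.1) {u : k[X]} (hu : u.coeff 0 ≠ 0) :
    aeval x⁻¹ u ≠ 0 ∧ (aeval x⁻¹ u)⁻¹ ∈ R.1 := by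
  have hx0 : x ≠ 0 := fun h => hx (h ▸ zero_mem _)
  have h1 : aeval x⁻¹ u = aeval x⁻¹ u.divX * x⁻¹ + algebraMap k E (u.coeff 0) := by
    conv_lhs => rw [← divX_mul_X_add u]
    simp
  have hv : R.1.valuation x⁻¹ < 1 := by
    rw [map_inv₀, inv_lt_one₀ ((Valuation.pos_iff _).2 hx0)]
    exact not_le.1 fun h => hx ((R.1.valuation_le_one_iff x).1 h)
  have hc : R.1.valuation (algebraMap k E (u.coeff 0)) = 1 := by
    refine le_antisymm ((R.1.valuation_le_one_iff _).2 (R.2 _)) ?_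
    have h2 := (R.1.valuation_le_one_iff _).2 (R.2 (u.coeff 0)⁻¹)
    rwa [map_inv₀, map_inv₀, inv_le_one₀ ((Valuation.pos_iff _).2 ((_root_.map_ne_zero _).2 hu))] at h2
  have h3 : R.1.valuation (aeval x⁻¹ u) = 1 := by
    rw [h1, Valuation.map_add_eq_of_lt_right, hc]
    rw [hc, map_mul]
    exact mul_lt_one_of_nonneg_of_lt_one_right
      ((R.1.valuation_le_one_iff _).2 (R.aeval_mem (R.inv_mem hx) _)) zero_le hv
  refine ⟨fun h => by simp [h] at h3, (R.1.valuation_le_one_iff _).1 ?_⟩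
  rw [map_inv₀, h3, inv_one]

variable (k) in
/-- poles of order at most `j` times those of `x` at the poles of `x` -/
def T (x : E) (j : ℤ) : Submodule k E where
  carrier := {z | ∀ R : Pl k E, x ∉ R.1 → z * x ^ (-j) ∈ R.1}
  add_mem' := fun ha hb R hR => by rw [add_mul]; exact add_mem (ha R hR) (hb R hR)
  zero_mem' := fun R _ => by rw [zero_mul]; exact zero_mem _
  smul_mem' := fun c a ha R hR => by
    rw [smul_mul_assoc]; exact R.alg.smul_mem (ha R hR) c

theorem mem_T {x z : E} {j : ℤ} : z ∈ T k x j ↔ ∀ R : Pl k E, x ∉ R.1 → z * x ^ (-j) ∈ R.1 :=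
  Iff.rfl

theorem T_mul {x z w : E} {i j : ℤ} (hz : z ∈ T k x i) (hw : w ∈ T k x j) :
    z * w ∈ T k x (i + j) := fun R hR => by
  have hx0 : x ≠ 0 := fun h => hR (h ▸ zero_mem _)
  rw [neg_add, zpow_add₀ hx0, mul_mul_mul_comm]
  exact mul_mem (hz R hR) (hw R hR)

theorem zpow_mem_T (x : E) (j : ℤ) : x ^ j ∈ T k x j := fun R hR => by
  have hx0 : x ≠ 0 := fun h => hR (h ▸ zero_mem _)
  rw [← zpow_add₀ hx0, add_neg_cancel, zpow_zero]
  exact one_mem _

theorem T_mono {x : E} {i j : ℤ} (h : i ≤ j) : T k x i ≤ T k x j := fun z hz R hR => by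
  have hx0 : x ≠ 0 := fun h => hR (h ▸ zero_mem _)
  obtain ⟨n, rfl⟩ := Int.le.dest h
  rw [neg_add, zpow_add₀ hx0, ← mul_assoc, zpow_neg x n, ← inv_zpow, zpow_natCast]
  exact mul_mem (hz R hR) (pow_mem (R.inv_mem hR) n)

theorem mem_V_iff {x z : E} {M : ℕ} : z ∈ V k x M ↔ z ∈ OO k x ∧ z ∈ T k x M := by
  rw [mem_V]
  refine and_congr_right fun hz => ?_
  rw [mem_OO_iff, mem_T, zpow_neg, ← inv_zpow, zpow_natCast]
  refine ⟨fun h R hR => h R (R.inv_mem hR), fun h R hR => ?_⟩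
  by_cases hx : x ∈ R.1
  · exact mul_mem (mem_OO_iff.1 hz R hx) (pow_mem hR M)
  · exact h R hx

theorem exists_mul_mem {x : E} [Algebra.IsAlgebraic k⟮x⟯ E] (z : E) :
    ∃ d : k[X], aeval x d ≠ 0 ∧ aeval x d * z ∈ OO k x := by
  have h : Algebra.IsAlgebraic (Algebra.adjoin k {x}) E :=
    IntermediateField.isAlgebraic_adjoin_iff_top.1 inferInstance
  obtain ⟨y, hy, h1⟩ := (h.1 z).exists_integral_multiple
  obtain ⟨d, hd⟩ := Algebra.adjoin_eq_exists_aeval k x y
  refine ⟨d, fun e => hy (Subtype.ext (hd ▸ e)), ?_⟩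
  rw [hd]
  exact h1

theorem adjoin_inv (x : E) : k⟮x⁻¹⟯ = k⟮x⟯ := by
  refine le_antisymm (IntermediateField.adjoin_simple_le_iff.2
    (inv_mem (IntermediateField.mem_adjoin_simple_self k x)))
    (IntermediateField.adjoin_simple_le_iff.2 ?_)
  simpa using inv_mem (IntermediateField.mem_adjoin_simple_self k x⁻¹)

theorem exists_mem_T {x : E} [h : Algebra.IsAlgebraic k⟮x⟯ E] (z : E) :
    ∃ j : ℕ, z ∈ T k x j := by
  have : Algebra.IsAlgebraic k⟮x⁻¹⟯ E := by rw [adjoin_inv]; exact h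
  obtain ⟨d, hd, h1⟩ := exists_mul_mem (k := k) (x := x⁻¹) z
  have hd0 : d ≠ 0 := fun e => hd (by rw [e, map_zero])
  obtain ⟨u, hu, h2⟩ := exists_eq_pow_rootMultiplicity_mul_and_not_dvd d hd0 0
  rw [C_0, sub_zero] at hu h2
  refine ⟨d.rootMultiplicity 0, fun R hR => ?_⟩
  obtain ⟨h3, h4⟩ := R.unit hR (mt X_dvd_iff.2 h2)
  have h5 := mul_mem (mem_OO_iff.1 h1 R (R.inv_mem hR)) h4
  rw [hu, map_mul, map_pow, aeval_X] at h5
  rw [zpow_neg, ← inv_zpow, zpow_natCast]
  rwa [mul_right_comm, mul_inv_cancel_right₀ h3, mul_comm] at h5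

theorem isAlgebraic_of {x y : E} (hx : Transcendental k x) [h3 : Algebra.IsAlgebraic k⟮x⟯ E]
    (hy : Transcendental k y) : Algebra.IsAlgebraic k⟮y⟯ E := by
  have h4 : ∀ t : E, Set.range (fun _ : Unit => t) = {t} := fun t => by ext; simp [eq_comm]
  have hb : IsTranscendenceBasis k (fun _ : Unit => x) := by
    rw [isTranscendenceBasis_iff_algebraicIndependent_isAlgebraic]
    refine ⟨algebraicIndependent_unique_type_iff.2 hx, ?_⟩
    rw [h4]
    exact (IntermediateField.isAlgebraic_adjoin_iff_top).1 h3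
  have hby : IsTranscendenceBasis k (fun _ : Unit => y) :=
    (algebraicIndependent_unique_type_iff.2 hy).isTranscendenceBasis_of_lift_trdeg_le_of_finite
      hb.lift_cardinalMk_eq_trdeg.ge
  have h5 := hby.isAlgebraic_field
  rwa [h4] at h5

/-- the valuations have rank one -/
theorem Pl.almost {x : E} (hx : Transcendental k x) [Algebra.IsAlgebraic k⟮x⟯ E] (R : Pl k E)
    {φ q : E} (hq : q ≠ 0) (h : ∀ n : ℕ, φ ^ n * q ∈ R.1) : φ ∈ R.1 := by
  by_contra hn
  have hφ : Transcendental k φ := fun ha => hn (isIntegral_iff.1 ha.isIntegral R)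
  have := isAlgebraic_of hx hφ
  obtain ⟨m, hm⟩ := exists_mem_T (k := k) (x := φ) q⁻¹
  have h0 : φ ≠ 0 := fun e => hn (e ▸ zero_mem _)
  have h1 := mul_mem (hm R hn) (h (m + 1))
  rw [zpow_neg, zpow_natCast] at h1
  refine hn ?_
  convert h1 using 1
  rw [pow_succ]
  field_simp

theorem OT_neg {x : E} (hx : Transcendental k x) {z : E} (hz : z ∈ OO k x) (h : z ∈ T k x (-1)) :
    z = 0 := by
  by_contra h0
  have h1 : IsIntegral k z := isIntegral_iff.2 fun R => by
    by_cases hR : x ∈ R.1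
    · exact mem_OO_iff.1 hz R hR
    · simpa using T_mono (show (-1 : ℤ) ≤ 0 by norm_num) h R hR
  have h2 : IsIntegral k z⁻¹ := h1.isAlgebraic.inv.isIntegral
  refine hx (IsIntegral.isAlgebraic (isIntegral_iff.2 fun R => ?_))
  by_contra hR
  have h3 := mul_mem (h R hR) (isIntegral_iff.1 h2 R)
  rw [neg_neg, zpow_one, mul_right_comm, mul_inv_cancel₀ h0, one_mul] at h3
  exact hR h3

theorem OT_zero {x z : E} (hz : z ∈ OO k x) (h : z ∈ T k x 0) : IsIntegral k z :=
  isIntegral_iff.2 fun R => by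
    by_cases hR : x ∈ R.1
    · exact mem_OO_iff.1 hz R hR
    · simpa using h R hR

/-- a primitive relation -/
theorem exists_rel {x : E} (hx0 : x ≠ 0) {ι : Type*} [Fintype ι] {y : ι → E}
    (h : ¬ LinearIndependent k⟮x⟯ y) :
    ∃ φ : ι → k[X], (∃ i, (φ i).coeff 0 ≠ 0) ∧ ∑ i, aeval x (φ i) * y i = 0 := by
  classical
  have hex : ∃ n, ∃ φ : ι → k[X], (∃ i, φ i ≠ 0) ∧ ∑ i, aeval x (φ i) * y i = 0 ∧
      ∑ i, (φ i).natDegree = n := by
    open scoped IntermediateField.algebraAdjoinAdjoin in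
    rw [← LinearIndependent.iff_fractionRing (Algebra.adjoin k {x}) k⟮x⟯,
      Fintype.not_linearIndependent_iff] at h
    obtain ⟨g, h1, i, hi⟩ := h
    choose φ hφ using fun i => Algebra.adjoin_eq_exists_aeval k x (g i)
    refine ⟨_, φ, ⟨i, fun e => hi (Subtype.ext ?_)⟩, ?_, rfl⟩
    · rw [← hφ, e, map_zero]; rfl
    · simp only [hφ]; exact h1
  obtain ⟨φ, ⟨i0, hi0⟩, h2, h3⟩ := Nat.find_spec hex
  refine ⟨φ, ?_, h2⟩
  by_contra hcon
  push Not at hcon
  have e : ∀ i, φ i = (φ i).divX * X := fun i => by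
    conv_lhs => rw [← divX_mul_X_add (φ i), hcon i, C_0, add_zero]
  have hne : (φ i0).divX ≠ 0 := fun h0 => hi0 (by rw [e i0, h0, zero_mul])
  have hdeg : (φ i0).natDegree = (φ i0).divX.natDegree + 1 := by
    conv_lhs => rw [e i0]
    exact natDegree_mul_X hne
  have hlt : ∑ i, (φ i).divX.natDegree < Nat.find hex := by
    rw [← h3]
    refine Finset.sum_lt_sum (fun i _ => natDegree_divX_le) ⟨i0, Finset.mem_univ _, ?_⟩
    omega
  refine Nat.find_min hex hlt ⟨fun i => (φ i).divX, ⟨i0, hne⟩, ?_, rfl⟩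
  have h4 : x * ∑ i, aeval x ((φ i).divX) * y i = 0 := by
    rw [← h2, Finset.mul_sum]
    refine Finset.sum_congr rfl fun i _ => ?_
    conv_rhs => rw [e i, map_mul, aeval_X]
    ring
  exact (mul_eq_zero.1 h4).resolve_left hx0

/-- more than `r` functions of `T (j + 1)` are dependent modulo `T j` -/
theorem exists_comb {x : E} (hx0 : x ≠ 0) [FiniteDimensional k⟮x⟯ E] {j : ℤ} {ι : Type*}
    [Fintype ι] (hι : finrank k⟮x⟯ E < Fintype.card ι) {y : ι → E} (hy : ∀ i, y i ∈ T k x (j + 1)) :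
    ∃ c : ι → k, (∃ i, c i ≠ 0) ∧ ∑ i, c i • y i ∈ T k x j := by
  have h : ¬ LinearIndependent k⟮x⁻¹⟯ y := by
    rw [adjoin_inv]
    exact fun h => absurd h.fintype_card_le_finrank (not_le.2 hι)
  obtain ⟨φ, h1, h2⟩ := exists_rel (inv_ne_zero hx0) h
  refine ⟨fun i => (φ i).coeff 0, h1, fun R hR => ?_⟩
  have h3 : (∑ i, (φ i).coeff 0 • y i) * x ^ (-j) =
      -∑ i, aeval x⁻¹ (φ i).divX * (y i * x ^ (-(j + 1))) := by
    rw [eq_neg_iff_add_eq_zero, ← zero_mul (x ^ (-j)), ← h2, Finset.sum_mul, Finset.sum_mul,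
      ← Finset.sum_add_distrib]
    refine Finset.sum_congr rfl fun i _ => ?_
    conv_rhs => rw [← divX_mul_X_add (φ i)]
    rw [neg_add, zpow_add₀ hx0, zpow_neg_one, Algebra.smul_def]
    simp only [map_add, map_mul, aeval_X, aeval_C]
    ring
  rw [h3]
  exact neg_mem (sum_mem fun i _ => mul_mem (R.aeval_mem (R.inv_mem hR) _) (hy i R hR))

variable (k) in
/-- the leading term at infinity -/
noncomputable def psi (x : E) (j : ℤ) : E →ₗ[k] E ⧸ T k x 0 :=
  (T k x 0).mkQ.comp (LinearMap.mulRight k (x ^ (-j)))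

theorem mul_zpow_mem {x z : E} (hx0 : x ≠ 0) {i j : ℤ} :
    z * x ^ (-j) ∈ T k x i ↔ z ∈ T k x (j + i) := by
  simp only [mem_T, neg_add, zpow_add₀ hx0, mul_assoc]

theorem psi_eq_zero {x z : E} (hx0 : x ≠ 0) {j : ℤ} : psi k x j z = 0 ↔ z ∈ T k x j := by
  simp only [psi, LinearMap.comp_apply, LinearMap.mulRight_apply, Submodule.mkQ_apply,
    Submodule.Quotient.mk_eq_zero, mul_zpow_mem hx0, add_zero]

variable (k) in
/-- the space of leading terms -/
noncomputable def Q (x : E) : Submodule k (E ⧸ T k x 0) := (T k x 1).map (T k x 0).mkQ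

theorem map_psi {x : E} (hx0 : x ≠ 0) (j : ℤ) : (T k x (j + 1)).map (psi k x j) = Q k x := by
  ext q
  constructor
  · rintro ⟨z, hz, rfl⟩
    exact ⟨_, (mul_zpow_mem hx0).2 hz, rfl⟩
  · rintro ⟨z, hz, rfl⟩
    refine ⟨z * x ^ j, add_comm 1 j ▸ T_mul hz (zpow_mem_T x j), ?_⟩
    simp only [psi, LinearMap.comp_apply, LinearMap.mulRight_apply, mul_assoc, ← zpow_add₀ hx0,
      add_neg_cancel, zpow_zero, mul_one]

theorem rank_Q {x : E} (hx0 : x ≠ 0) [FiniteDimensional k⟮x⟯ E] :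
    Module.rank k (Q k x) ≤ finrank k⟮x⟯ E := by
  refine rank_le fun s hs => ?_
  by_contra hn
  choose y hy hy' using fun i : s => (i.1.2 : _ ∈ (T k x 1).map (T k x 0).mkQ)
  obtain ⟨c, ⟨i, hi⟩, hc⟩ := exists_comb (k := k) hx0 (j := 0) (ι := s) (by simpa using hn)
    (y := y) (by simpa using hy)
  refine hi (Fintype.linearIndependent_iff.1 hs c (Subtype.ext ?_) i)
  have := (Submodule.Quotient.mk_eq_zero _).2 hc
  rw [← Submodule.mkQ_apply, map_sum] at this
  simpa only [map_smul, hy', Submodule.coe_sum, Submodule.coe_smul, Submodule.coe_zero] using this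

theorem fin_Q {x : E} (hx0 : x ≠ 0) [FiniteDimensional k⟮x⟯ E] : FiniteDimensional k (Q k x) :=
  Module.rank_lt_aleph0_iff.1 ((rank_Q hx0).trans_lt Cardinal.natCast_lt_aleph0)

theorem finrank_Q {x : E} (hx0 : x ≠ 0) [FiniteDimensional k⟮x⟯ E] :
    finrank k (Q k x) ≤ finrank k⟮x⟯ E := finrank_le_of_rank_le (rank_Q hx0)

theorem map_psi_le {x : E} (hx0 : x ≠ 0) (N : Submodule k E) (j : ℤ) :
    (N ⊓ T k x (j + 1)).map (psi k x j) ≤ Q k x :=
  map_psi (k := k) hx0 j ▸ Submodule.map_mono inf_le_right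

theorem step {x : E} (hx0 : x ≠ 0) [FiniteDimensional k⟮x⟯ E] (N : Submodule k E) (j : ℤ)
    [FiniteDimensional k ↥(N ⊓ T k x j)] :
    FiniteDimensional k ↥(N ⊓ T k x (j + 1)) ∧ finrank k ↥(N ⊓ T k x (j + 1)) =
      finrank k ↥(N ⊓ T k x j) + finrank k ((N ⊓ T k x (j + 1)).map (psi k x j)) := by
  have := fin_Q (k := k) hx0
  have h1 : FiniteDimensional k ((N ⊓ T k x (j + 1)).map (psi k x j)) :=
    Submodule.finiteDimensional_of_le (map_psi_le hx0 N j)
  have hle : N ⊓ T k x j ≤ N ⊓ T k x (j + 1) := inf_le_inf_left _ (T_mono (by omega))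
  have hk : LinearMap.ker ((psi k x j).domRestrict (N ⊓ T k x (j + 1))) =
      (N ⊓ T k x j).comap (N ⊓ T k x (j + 1)).subtype := by
    ext z
    simp only [LinearMap.mem_ker, LinearMap.domRestrict_apply, psi_eq_zero hx0,
      Submodule.mem_comap, Submodule.subtype_apply, Submodule.mem_inf]
    exact ⟨fun h => ⟨z.2.1, h⟩, fun h => h.2⟩
  have h2 : FiniteDimensional k ↥(N ⊓ T k x (j + 1)) := by
    refine Module.Finite.of_fg (Submodule.fg_of_fg_map_of_fg_inf_ker (psi k x j)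
      (Module.Finite.iff_fg.1 h1) ?_)
    have : N ⊓ T k x (j + 1) ⊓ LinearMap.ker (psi k x j) = N ⊓ T k x j := by
      ext z
      simp only [Submodule.mem_inf, LinearMap.mem_ker, psi_eq_zero hx0]
      exact ⟨fun h => ⟨h.1.1, h.2⟩, fun h => ⟨hle h, h.2⟩⟩
    rw [this]
    exact Module.Finite.iff_fg.1 inferInstance
  refine ⟨h2, ?_⟩
  rw [← LinearMap.finrank_range_add_finrank_ker ((psi k x j).domRestrict (N ⊓ T k x (j + 1))), hk,
    LinearMap.range_domRestrict, (Submodule.comapSubtypeEquivOfLe hle).finrank_eq, add_comm]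

theorem step_le {x : E} (hx0 : x ≠ 0) [FiniteDimensional k⟮x⟯ E] (N : Submodule k E) (j : ℤ)
    [FiniteDimensional k ↥(N ⊓ T k x j)] (n : ℕ) :
    FiniteDimensional k ↥(N ⊓ T k x (j + n)) ∧
      finrank k ↥(N ⊓ T k x (j + n)) ≤ finrank k ↥(N ⊓ T k x j) + n * finrank k (Q k x) := by
  induction n with
  | zero =>
    rw [Nat.cast_zero, add_zero]
    exact ⟨inferInstance, by simp⟩
  | succ n ih =>
    obtain ⟨h1, h2⟩ := ih
    obtain ⟨h3, h4⟩ := step hx0 N (j + n)
    have := fin_Q (k := k) hx0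
    have h5 := Submodule.finrank_mono (map_psi_le hx0 N (j + n))
    rw [Nat.cast_succ, ← add_assoc]
    exact ⟨h3, by rw [h4, Nat.succ_mul]; omega⟩

variable (k) in
/-- the Riemann-Roch spaces of the multiples of the polar divisor -/
abbrev W (x : E) (j : ℤ) : Submodule k E := (OO k x).toSubmodule ⊓ T k x j

theorem ne_zero_of {x : E} (hx : Transcendental k x) : x ≠ 0 := fun h => hx (h ▸ isAlgebraic_zero)

theorem fin_W {x : E} (hx : Transcendental k x) [FiniteDimensional k⟮x⟯ E] (j : ℤ) :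
    FiniteDimensional k (W k x j) := by
  have h0 : W k x (-1) = ⊥ := (Submodule.eq_bot_iff _).2 fun z hz => OT_neg hx hz.1 hz.2
  have : FiniteDimensional k (W k x (-1)) := by rw [h0]; infer_instance
  have := (step_le (ne_zero_of hx) (OO k x).toSubmodule (-1) (j + 1).toNat).1
  exact Submodule.finiteDimensional_of_le (S₂ := W k x (-1 + (j + 1).toNat))
    (inf_le_inf_left _ (T_mono (by omega)))

theorem exists_forall_mem_T {x : E} [Algebra.IsAlgebraic k⟮x⟯ E] {ι : Type*} [Finite ι]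
    (z : ι → E) : ∃ j : ℕ, ∀ i, z i ∈ T k x j := by
  choose j hj using fun i => exists_mem_T (k := k) (x := x) (z i)
  obtain ⟨b, hb⟩ := (Set.finite_range j).bddAbove
  exact ⟨b, fun i => T_mono (by exact_mod_cast hb ⟨i, rfl⟩) (hj i)⟩

theorem card_le_of_rank {A Ω : Type*} [CommRing A] [Algebra k A] [Field Ω] [Algebra k Ω] {H : A}
    {n : ℕ} (hr : Module.rank k (A ⧸ Ideal.span {H}) ≤ n) (S : Finset (A →ₐ[k] Ω))
    (hS : ∀ P ∈ S, P H = 0) : S.card ≤ n := by
  have : FiniteDimensional k (A ⧸ Ideal.span {H}) :=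
    Module.rank_lt_aleph0_iff.1 (hr.trans_lt Cardinal.natCast_lt_aleph0)
  let g : S → (A ⧸ Ideal.span {H} →ₐ[k] Ω) := fun P => Ideal.Quotient.liftₐ _ P.1 fun a ha => by
    obtain ⟨b, rfl⟩ := Ideal.mem_span_singleton'.1 ha
    rw [map_mul, hS P.1 P.2, mul_zero]
  have hg : Function.Injective g := fun P P' e => Subtype.ext (AlgHom.ext fun a =>
    congrArg (fun F : A ⧸ Ideal.span {H} →ₐ[k] Ω => F (Ideal.Quotient.mk _ a)) e)
  have h6 := ((linearIndependent_algHom_toLinearMap k (A ⧸ Ideal.span {H}) Ω).comp g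
    hg).fintype_card_le_finrank
  rw [Module.finrank_linearMap_self, Fintype.card_coe] at h6
  exact h6.trans (finrank_le_of_rank_le hr)

theorem card_le_range {A B : Type*} [AddCommGroup A] [Module k A] [AddCommGroup B] [Module k B]
    [FiniteDimensional k A] (f : A →ₗ[k] B) (s : Finset B)
    (hs : LinearIndependent k fun i : s => (i : B)) (h : ∀ i : s, ∃ a, f a = i) :
    s.card ≤ finrank k (LinearMap.range f) := by
  have := (LinearIndependent.of_comp (LinearMap.range f).subtype (v := fun i : s =>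
    (⟨i, h i⟩ : LinearMap.range f)) hs).fintype_card_le_finrank
  rwa [Fintype.card_coe] at this

theorem rank_quot {x : E} (hx : Transcendental k x) [FiniteDimensional k⟮x⟯ E] {M : ℕ}
    {H : OO k x} (hH : (H : E) ∈ T k x M) (H0 : H ≠ 0) :
    Module.rank k (OO k x ⧸ Ideal.span {H}) ≤ (M * finrank k⟮x⟯ E : ℕ) := by
  have hx0 := ne_zero_of hx
  refine rank_le fun s hs => ?_
  choose y hy using fun i : s => Ideal.Quotient.mk_surjective i.1
  obtain ⟨j, hj⟩ := exists_forall_mem_T (k := k) (x := x) fun i => (y i : E)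
  have := fin_W hx j
  have := fin_W hx (j + M)
  have h1 := (step_le hx0 (OO k x).toSubmodule j M).2
  have h2 := Nat.mul_le_mul_left M (finrank_Q (k := k) hx0)
  let f : W k x (j + M) →ₗ[k] OO k x ⧸ Ideal.span {H} :=
    (Ideal.Quotient.mkₐ k (Ideal.span {H})).toLinearMap.comp
      (Submodule.inclusion (inf_le_left : W k x (j + M) ≤ (OO k x).toSubmodule))
  have h3 := LinearMap.finrank_range_add_finrank_ker f
  have h4 := card_le_range f s hs fun i => ⟨⟨y i, (y i).2, T_mono (by omega) (hj i)⟩, hy i⟩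
  have h5 : finrank k (W k x j) ≤ finrank k (LinearMap.ker f) := by
    refine LinearMap.finrank_le_finrank_of_injective
      (f := LinearMap.codRestrict _ ((LinearMap.mulRight k (H : E)).restrict
        fun w hw => ⟨(OO k x).mul_mem hw.1 H.2, T_mul hw.2 hH⟩) fun w => ?_) fun w w' e => ?_
    · exact Ideal.Quotient.eq_zero_iff_mem.2
        (Ideal.mem_span_singleton'.2 ⟨⟨w, w.2.1⟩, rfl⟩)
    · exact Subtype.ext (mul_right_cancel₀ (fun h => H0 (Subtype.ext h))
        (congrArg (fun z => ((z : LinearMap.ker f) : E)) e))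
  change finrank k (W k x (j + M)) ≤ finrank k (W k x j) + _ at h1
  omega

theorem count : COUNT := fun _ _ _ _ _ _ hx _ _ _ _ hH H0 _ _ _ S hS =>
  card_le_of_rank (rank_quot hx (mem_V_iff.1 hH).2 H0) S hS

end Vale.Agent.P022K.MB.RR
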