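import Vale.Agent.P022K.MB.Nm
import Vale.Agent.P022K.MB.Ev
import Vale.Agent.P022K.MB.RR0

/-!
# P022K / MB: from the local statement to Moret-Bailly's theorem for curves (helper22)
-/

namespace Vale.Agent.P022K.MB

open Polynomial TensorProduct Filter Topology
open scoped IntermediateField

/-- simple zeros persist under perturbation of the coefficients -/
theorem eventually_zeros {l : Type*} [NontriviallyNormedField l] [CompleteSpace l] {J : Type*}
    [Fintype J] {g : J → l → l} {U : Set l} (hU : IsOpen U) (hg : ∀ j, ∀ ξ ∈ U, AnalyticAt l (g j) ξ)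
    (c : J → l) (Z : Finset l) (hZ : ∀ ξ ∈ Z, ξ ∈ U ∧ ∑ j, c j * g j ξ = 0 ∧
      ∃ d ≠ 0, HasDerivAt (fun t => ∑ j, c j * g j t) d ξ) :
    ∀ᶠ c' in 𝓝 c, ∃ t : Z → l, Function.Injective t ∧ ∀ ξ, t ξ ∈ U ∧ ∑ j, c' j * g j (t ξ) = 0 := by
  obtain ⟨B, hB, hd⟩ := Z.finite_toSet.t2_separation
  have key : ∀ ξ : Z, ∀ᶠ c' in 𝓝 c, ∃ t, ∑ j, c' j * g j t = 0 ∧
      (c', t) ∈ (Set.univ : Set (J → l)) ×ˢ (U ∩ B ξ) := by
    intro ξ
    obtain ⟨h1, h2, d, h3, h4⟩ := hZ ξ ξ.2
    refine eventually_exists_zero (G := fun p : (J → l) × l => ∑ j, p.1 j * g j p.2) ?_ h2 h4 h3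
      (prod_mem_nhds univ_mem ((hU.inter (hB ξ).2).mem_nhds ⟨h1, (hB ξ).1⟩))
    refine Finset.analyticAt_fun_sum _ fun j _ => AnalyticAt.fun_mul ?_ ?_
    · exact (((ContinuousLinearMap.proj j : (J → l) →L[l] l).comp
        (ContinuousLinearMap.fst l (J → l) l)).analyticAt _)
    · exact (hg j ξ h1).comp_of_eq analyticAt_snd rfl
  filter_upwards [eventually_all.2 key] with c' hc'
  choose t ht1 ht2 using hc'
  refine ⟨t, fun ξ ξ' h => ?_, fun ξ => ⟨(ht2 ξ).2.1, ht1 ξ⟩⟩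
  by_contra hne
  exact Set.disjoint_left.1 (hd ξ.2 ξ'.2 fun e => hne (Subtype.ext e)) (ht2 ξ).2.2
    (h ▸ (ht2 ξ').2.2)

theorem local_zeros (hloc : LOC) {K k l E : Type} [Field K] [CharZero K] [NontriviallyNormedField k]
    [NontriviallyNormedField l] [NormedAlgebra k l] [ProperSpace l] [CompleteSpace k]
    [FiniteDimensional k l] [IsGalois k l] [Algebra K k] [Algebra K l] [IsScalarTower K k l]
    [Field E] [Algebra K E] {f : K[X][X]} (hm : f.Monic)
    (hirr : ∀ (Ω : Type) [Field Ω] (φ : K →+* Ω), Irreducible (f.map (mapRingHom φ))) {x y : E}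
    (h : IsFF K f x y) {a b : l} (h0 : aevalAeval a b f = 0)
    (h1 : aevalAeval a b (derivative f) ≠ 0) {W : Set (l × l)} (hW : W ∈ 𝓝 (a, b))
    (ha : ∀ σ : l ≃ₐ[k] l, σ a = a → σ = 1) :
    ∃ M0 : ℕ, 0 < M0 ∧ ∀ n : ℕ, 0 < n → ∀ (J : Type) [Fintype J] (z : J → OO K x),
      V K x (n * M0) ≤ Submodule.span K (Set.range fun j => (z j : E)) →
      ∃ c : J → k, ∀ᶠ c' in 𝓝 c, ∀ κ : J → K, (fun j => algebraMap K k (κ j)) = c' →
        ∃ S : Finset (OO K x →ₐ[K] l), S.card = n * M0 * f.natDegree ∧ ∀ P ∈ S,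
          P (∑ j, κ j • z j) = 0 ∧ ∃ p ∈ W, ∃ σ : l ≃ₐ[k] l,
            P ⟨x, self_mem_OO K x⟩ = σ p.1 ∧ P ⟨y, h.y_mem hm⟩ = σ p.2 := by
  classical
  have : CharZero l := charZero_of_injective_algebraMap (algebraMap K l).injective
  have : CharZero k := charZero_of_injective_algebraMap (algebraMap K k).injective
  set f' := f.map (mapRingHom (algebraMap K l)) with hf'
  have hm' : f'.Monic := hm.map _
  obtain ⟨E', _, _, x', y', h'⟩ := exists_isFF (hirr l (algebraMap K l))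
  let _ : Algebra K E' := ((algebraMap l E').comp (algebraMap K l)).toAlgebra
  have : IsScalarTower K l E' := IsScalarTower.of_algebraMap_eq fun _ => rfl
  obtain ⟨φ, rfl, rfl⟩ := h.exists_hom x' y' fun p => by
    rw [← aevalAeval_map (k' := l), h'.ker,
      map_dvd_map _ (map_injective _ (algebraMap K l).injective) hm]
  -- a neighbourhood of `a` disjoint from its conjugates
  obtain ⟨U0, hU0, hU1⟩ : ∃ U0 ∈ 𝓝 a, ∀ ξ ∈ U0, ∀ ξ' ∈ U0, ∀ σ : l ≃ₐ[k] l, σ ξ = ξ' → σ = 1 := by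
    have h2 : ∀ σ : l ≃ₐ[k] l, ∀ᶠ p : l × l in 𝓝 (a, a), σ p.1 = p.2 → σ = 1 := by
      intro σ
      by_cases hσ : σ = 1
      · exact Eventually.of_forall fun _ _ => hσ
      have h3 : Continuous σ := σ.toLinearMap.continuous_of_finiteDimensional
      have h4 : ContinuousAt (fun p : l × l => σ p.1 - p.2) (a, a) := by fun_prop
      filter_upwards [h4.eventually_ne (sub_ne_zero.2 fun e => hσ (ha σ e))] with p hp e
      exact absurd (sub_eq_zero.2 e) hp
    have h3 := eventually_all.2 h2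
    rw [nhds_prod_eq] at h3
    obtain ⟨U0, hU0, h4⟩ := mem_prod_self_iff.1 h3
    exact ⟨U0, hU0, fun ξ hξ ξ' hξ' σ => h4 (Set.mk_mem_prod hξ hξ') σ⟩
  obtain ⟨U, ev, hUo, haU, hev, han⟩ := h'.exists_arc hm' (a := a) (b := b)
    (by rw [aevalAeval_map, h0]) (by rw [derivative_map, aevalAeval_map]; exact h1)
    (inter_mem hW (prod_mem_nhds hU0 univ_mem))
  have := h'.finiteDimensional hm'
  have hr : Module.finrank l⟮φ x⟯ E' = f.natDegree := by rw [h'.finrank_eq hm', hm.natDegree_map]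
  obtain ⟨M1, hM1, hL⟩ := hloc l E' (φ x) (h'.transcendental hm') (fun α hα => h'.algClosed hm' α hα
    (by
      rw [Polynomial.map_map, mapRingHom_comp]
      exact hirr _ _)) U hUo ⟨a, haU⟩ ev (fun ξ hξ => (hev ξ hξ).1) han
  refine ⟨Fintype.card (l ≃ₐ[k] l) * M1, Nat.mul_pos Fintype.card_pos hM1, fun n hn J _ z hz => ?_⟩
  obtain ⟨H, Z, hH, hZc, hZ⟩ := hL n hn
  let e := AlgEquiv.ofBijective _ (ext_phiO_bijective φ hm h h')
  have he : ∀ w, e w = ext l (phiO l φ x) w := fun _ => rfl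
  obtain ⟨u, rfl⟩ := e.surjective H
  have hu : u ∈ TV K l x (n * M1) := mem_TV_of φ hm h h' hH
  obtain ⟨c, hc⟩ := exists_coord_norm (k := k) z (by rwa [mul_left_comm]) hu
  let evK : l → (OO K x →ₐ[K] l) := fun t => ((ev t).restrictScalars K).comp (phiO l φ x)
  have hext : ∀ t w, ext l (evK t) w = ev t (e w) := by
    intro t w
    induction w using TensorProduct.induction_on with
    | zero => simp
    | tmul c n =>
      rw [he, ext_tmul, ext_tmul, map_smul]; rfl
    | add a b ha hb => simp only [map_add, ha, hb]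
  have hne : Z.Nonempty := by
    rw [← Finset.card_pos, hZc, hr]
    exact Nat.mul_pos (Nat.mul_pos hn hM1) (h.natDegree_pos hm)
  have hu0 : e u ≠ 0 := by
    obtain ⟨ξ, hξ⟩ := hne
    intro e0
    apply (hZ ξ hξ).2.2
    simp [e0]
  -- the conjugates of `u` do not vanish on `Z`
  have hnv : ∀ ξ ∈ Z, ∀ σ : l ≃ₐ[k] l, σ ≠ 1 → ev ξ (e (act K _ σ u)) ≠ 0 := by
    intro ξ hξ σ hσ h2
    let P := (ext l ((σ⁻¹.restrictScalars K).toAlgHom.comp (evK ξ))).comp e.symm.toAlgHom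
    have hP1 : P (e u) = 0 := by
      have h3 := ext_act σ⁻¹ (evK ξ) (act K _ σ u)
      rw [act_act, inv_mul_cancel, act_one, hext, h2, map_zero] at h3
      simpa [P] using h3
    have hP2 : P ⟨φ x, self_mem_OO l _⟩ = σ⁻¹ ξ := by
      have h3 : (⟨φ x, self_mem_OO l _⟩ : OO l (φ x)) = e (1 ⊗ₜ[K] ⟨x, self_mem_OO K x⟩) := by
        rw [he, ext_tmul, one_smul]; rfl
      have h4 : P (e (1 ⊗ₜ[K] ⟨x, self_mem_OO K x⟩)) = σ⁻¹ (ev ξ ⟨φ x, self_mem_OO l _⟩) := by
        simp only [P, AlgHom.comp_apply, AlgEquiv.coe_toAlgHom, AlgEquiv.symm_apply_apply, ext_tmul,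
          one_smul]
        rfl
      rw [h3, h4, (hev ξ (hZ ξ hξ).1).1]
    have hinj : Set.InjOn ev Z := fun t ht t' ht' e => by
      rw [← (hev t (hZ t ht).1).1, e, (hev t' (hZ t' ht').1).1]
    have hP3 : P ∉ Z.image ev := by
      intro h3
      obtain ⟨t, ht, h4⟩ := Finset.mem_image.1 h3
      rw [← h4, (hev t (hZ t ht).1).1] at hP2
      exact hσ (inv_eq_one.1 (hU1 ξ (hev ξ (hZ ξ hξ).1).2.2.1 t (hev t (hZ t ht).1).2.2.1 _ hP2.symm))
    have h5 := RR.count l E' (φ x) (h'.transcendental hm') (n * M1) (e u) hH hu0 l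
      (insert P (Z.image ev)) (by
        intro Q hQ
        rcases Finset.mem_insert.1 hQ with rfl | hQ
        · exact hP1
        · obtain ⟨t, ht, rfl⟩ := Finset.mem_image.1 hQ
          exact (hZ t ht).2.1)
    rw [Finset.card_insert_of_notMem hP3, Finset.card_image_of_injOn hinj, hZc] at h5
    omega
  have hsum : ∀ t, ∑ j, algebraMap k l (c j) * evK t (z j) =
      ev t (e u) * ∏ σ ∈ Finset.univ.erase (1 : l ≃ₐ[k] l), ev t (e (act K _ σ u)) := by
    intro t
    have h2 := congrArg (ext l (evK t)) hc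
    rw [map_prod, map_sum, ← Finset.mul_prod_erase _ _ (Finset.mem_univ 1), act_one] at h2
    simp only [ext_tmul, smul_eq_mul] at h2
    simpa only [hext] using h2.symm
  have h6 := eventually_zeros (g := fun j t => evK t (z j)) hUo (fun j ξ hξ => han _ ξ hξ)
    (fun j => algebraMap k l (c j)) Z (fun ξ hξ => by
      obtain ⟨h2, h3, h4⟩ := hZ ξ hξ
      simp only [hsum]
      refine ⟨h2, by rw [h3, zero_mul], ?_⟩
      have h5 : AnalyticAt l (fun t => ∏ σ ∈ Finset.univ.erase (1 : l ≃ₐ[k] l),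
          ev t (e (act K _ σ u))) ξ := Finset.analyticAt_fun_prod _ fun σ _ => han _ ξ h2
      refine ⟨_, ?_, (han (e u) ξ h2).differentiableAt.hasDerivAt.fun_mul
        h5.differentiableAt.hasDerivAt⟩
      rw [h3, zero_mul, add_zero]
      exact mul_ne_zero h4 (Finset.prod_ne_zero_iff.2 fun σ hσ =>
        hnv ξ hξ σ (Finset.ne_of_mem_erase hσ)))
  have h7 : Continuous fun (d : J → k) (j : J) => algebraMap k l (d j) :=
    continuous_pi fun j => (continuous_algebraMap k l).comp (continuous_apply j)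
  refine ⟨c, ?_⟩
  filter_upwards [(h7.tendsto c).eventually h6] with c' hc' κ hκ
  obtain ⟨t, ht, ht2⟩ := hc'
  let Q : (l ≃ₐ[k] l) × Z → (OO K x →ₐ[K] l) := fun p =>
    (p.1.restrictScalars K).toAlgHom.comp (evK (t p.2))
  have hQx : ∀ p, Q p ⟨x, self_mem_OO K x⟩ = p.1 (t p.2) := fun p =>
    congrArg p.1 (hev _ (ht2 p.2).1).1
  have hQ : Function.Injective Q := by
    rintro ⟨σ, ξ⟩ ⟨τ, ξ'⟩ e
    have h2 : σ (t ξ) = τ (t ξ') := by rw [← hQx (σ, ξ), e, hQx]
    have h3 := hU1 _ (hev _ (ht2 ξ).1).2.2.1 _ (hev _ (ht2 ξ').1).2.2.1 (τ⁻¹ * σ) (by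
      rw [AlgEquiv.mul_apply, h2]; exact τ.symm_apply_apply _)
    obtain rfl : τ = σ := inv_mul_eq_one.1 h3
    rw [ht (τ.injective h2)]
  refine ⟨Finset.univ.image Q, ?_, fun P hP => ?_⟩
  · rw [Finset.card_image_of_injective _ hQ, Finset.card_univ, Fintype.card_prod, Fintype.card_coe,
      hZc, hr]
    ring
  · obtain ⟨p, _, rfl⟩ := Finset.mem_image.1 hP
    refine ⟨?_, _, (hev _ (ht2 p.2).1).2.1, p.1, hQx p, rfl⟩
    change p.1 (evK (t p.2) _) = 0
    rw [map_eq_zero_iff _ p.1.injective, map_sum, ← (ht2 p.2).2, ← hκ]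
    refine Finset.sum_congr rfl fun j _ => ?_
    rw [map_smul, Algebra.smul_def, IsScalarTower.algebraMap_apply K k l]

theorem exists_lift {K A Ω : Type*} [Field K] [CommRing A] [Algebra K A] [Field Ω] [Algebra K Ω]
    {H : A} {n : ℕ} (hr : Module.rank K (A ⧸ Ideal.span {H}) ≤ n) (P0 : A →ₐ[K] Ω)
    (h0 : P0 H = 0) : ∃ P : A →ₐ[K] AlgebraicClosure K, ∀ a, P a = 0 ↔ P0 a = 0 := by
  have : FiniteDimensional K (A ⧸ Ideal.span {H}) :=
    Module.rank_lt_aleph0_iff.1 (hr.trans_lt Cardinal.natCast_lt_aleph0)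
  have hle : Ideal.span {H} ≤ RingHom.ker P0 := (Ideal.span_singleton_le_iff_mem _).2 h0
  have : Module.Finite K (A ⧸ RingHom.ker P0) :=
    Module.Finite.of_surjective (Ideal.Quotient.factorₐ K hle).toLinearMap
      (Ideal.Quotient.factor_surjective hle)
  have : (RingHom.ker P0).IsPrime := RingHom.ker_isPrime _
  let ψ : (A ⧸ RingHom.ker P0) →ₐ[K] AlgebraicClosure K := IsAlgClosed.lift
  refine ⟨ψ.comp (Ideal.Quotient.mkₐ K (RingHom.ker P0)), fun a => ⟨fun h => ?_, fun h => ?_⟩⟩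
  · by_contra hne
    have h3 : Ideal.Quotient.mk (RingHom.ker P0) a ≠ 0 := fun e =>
      hne (Ideal.Quotient.eq_zero_iff_mem.1 e)
    exact (((Algebra.IsIntegral.isIntegral (R := K) _).isUnit h3).map ψ).ne_zero h
  · change ψ (Ideal.Quotient.mk _ a) = 0
    rw [Ideal.Quotient.eq_zero_iff_mem.2 h, map_zero]

theorem core_of_loc (hloc : LOC) : CORE := by
  intro K _ _ ι _ k l _ _ _ _ _ _ _ _ _ _ hd f hm hirr a b h0 h1 W hW δ hδ
  classical
  have := Fintype.ofFinite ι
  have : Infinite K := Infinite.of_injective _ (Nat.cast_injective (R := K))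
  obtain ⟨E, _, _, x, y, h⟩ := exists_isFF (f := f) (by simpa using hirr K (RingHom.id K))
  rcases isEmpty_or_nonempty ι with hι | ⟨⟨i0⟩⟩
  · obtain ⟨s, hs⟩ := Infinite.exists_notMem_finset δ.roots.toFinset
    obtain ⟨y0, hy0⟩ := IsAlgClosed.exists_root (f.map (aeval
      (algebraMap K (AlgebraicClosure K) s)).toRingHom) (by
        rw [hm.degree_map]; exact (natDegree_pos_iff_degree_pos.1 (h.natDegree_pos hm)).ne')
    refine ⟨algebraMap K _ s, y0, ?_, ?_, fun i => isEmptyElim i⟩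
    · rw [← eval₂_aeval, ← eval_map]; exact hy0
    · rw [aeval_algebraMap_apply, _root_.map_ne_zero]
      exact fun e => hs (Multiset.mem_toFinset.2 ((mem_roots hδ).2 e))
  choose a' b' h0' h1' hW' hδ' ha' using fun i =>
    exists_good_point (k := k i) f (h0 i) (h1 i) (hW i) hδ
  have hW2 : ∀ i, W i ∩ {p | aeval p.1 δ ≠ 0} ∈ 𝓝 (a' i, b' i) := fun i => by
    refine inter_mem (hW' i) ?_
    have := (analyticAt_aevalAeval (C δ) (a' i, b' i)).continuousAt
    simp only [aevalAeval_C] at this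
    exact this.eventually_ne (hδ' i)
  choose M0 hM0 hL using fun i => local_zeros hloc hm hirr h (h0' i) (h1' i) (hW2 i) (ha' i)
  set M := ∏ i, M0 i with hM
  have hMi : ∀ i, (∏ j ∈ Finset.univ.erase i, M0 j) * M0 i = M := fun i =>
    Finset.prod_erase_mul _ _ (Finset.mem_univ i)
  have := h.finiteDimensional hm
  have hx := h.transcendental hm
  have : FiniteDimensional K (V K x M) := by
    have := RR.fin_W hx M
    exact Submodule.finiteDimensional_of_le (S₂ := RR.W K x M) fun z hz => RR.mem_V_iff.1 hz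
  let B := Module.finBasis K (V K x M)
  let z : Fin (Module.finrank K (V K x M)) → OO K x := fun j => ⟨B j, (B j).2.1⟩
  have hz : V K x M ≤ Submodule.span K (Set.range fun j => (z j : E)) := fun w hw => by
    have h2 := congrArg Subtype.val (B.sum_repr ⟨w, hw⟩)
    rw [Submodule.coe_sum] at h2
    exact (Submodule.mem_span_range_iff_exists_fun K).2 ⟨_, h2⟩
  choose c hc using fun i => hL i _ (Finset.prod_pos fun j _ => hM0 j) _ z (by rwa [hMi i])
  have : Nontrivial (V K x M) := ⟨⟨1, one_mem_V x M⟩, 0, fun e => one_ne_zero (congrArg Subtype.val e)⟩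
  obtain ⟨j0⟩ := B.index_nonempty
  obtain ⟨κ, hκ0, hκ⟩ := exists_near (L := K) hd (MvPolynomial.X j0) (MvPolynomial.X_ne_zero _) c _ hc
  choose S hS hS2 using fun i => hκ i κ rfl
  simp only [hMi] at hS
  set H : OO K x := ∑ j, κ j • z j with hH
  have hH1 : (H : E) = (∑ j, κ j • B j : V K x M) := by simp [hH, z]
  have hHV : (H : E) ∈ V K x M := hH1 ▸ Subtype.mem _
  have hH0 : H ≠ 0 := fun e => by
    rw [e] at hH1
    have := Fintype.linearIndependent_iff.1 B.linearIndependent κ (Subtype.ext hH1.symm) j0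
    simp [this] at hκ0
  have hr := h.finrank_eq hm
  obtain ⟨P0, hP0⟩ : (S i0).Nonempty := by
    rw [← Finset.card_pos, hS]
    exact Nat.mul_pos (Finset.prod_pos fun j _ => hM0 j) (h.natDegree_pos hm)
  obtain ⟨P, hP⟩ := exists_lift (RR.rank_quot hx (RR.mem_V_iff.1 hHV).2 hH0) P0 (hS2 i0 P0 hP0).1
  have hPH : P H = 0 := (hP H).2 (hS2 i0 P0 hP0).1
  refine ⟨P ⟨x, self_mem_OO K x⟩, P ⟨y, h.y_mem hm⟩, ?_, ?_, fun i Ω _ _ e j => ?_⟩
  · rw [← algHom_aevalAeval]
    have h2 : aevalAeval (⟨x, self_mem_OO K x⟩ : OO K x) ⟨y, h.y_mem hm⟩ f = 0 :=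
      Subtype.ext ((algHom_aevalAeval (OO K x).val _ _ f).trans h.zero)
    rw [h2, map_zero]
  · rw [aeval_algHom_apply]
    obtain ⟨_, p, hp, σ, h2, _⟩ := hS2 i0 P0 hP0
    rw [Ne, hP, ← aeval_algHom_apply, h2]
    intro h4
    refine hp.2 (σ.injective ?_)
    rw [map_zero, ← h4]
    exact (aeval_algHom_apply (σ.restrictScalars K).toAlgHom p.1 δ).symm
  · have hinj : Function.Injective fun Q : OO K x →ₐ[K] l i => e.comp Q := fun Q Q' h2 =>
      AlgHom.ext fun w => e.injective (congrArg (fun F : OO K x →ₐ[K] Ω => F w) h2)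
    have h2 : j.comp P ∈ (S i).image fun Q => e.comp Q := by
      by_contra h3
      have h5 := RR.count K E x hx M H hHV hH0 Ω (insert (j.comp P) ((S i).image fun Q => e.comp Q))
        (by
          intro Q hQ
          rcases Finset.mem_insert.1 hQ with rfl | hQ
          · rw [AlgHom.comp_apply, hPH, map_zero]
          · obtain ⟨Q', hQ', rfl⟩ := Finset.mem_image.1 hQ
            rw [AlgHom.comp_apply, (hS2 i Q' hQ').1, map_zero])
      rw [Finset.card_insert_of_notMem h3, Finset.card_image_of_injective _ hinj, hS, hr] at h5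
      omega
    obtain ⟨Q, hQ, h3⟩ := Finset.mem_image.1 h2
    obtain ⟨_, p, hp, σ, h4, h5⟩ := hS2 i Q hQ
    exact ⟨p, hp.1, σ, by rw [← h4, ← AlgHom.comp_apply, ← h3]; rfl,
      by rw [← h5, ← AlgHom.comp_apply, ← h3]; rfl⟩

end Vale.Agent.P022K.MB
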