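import Mathlib.Dynamics.Newton
import Mathlib.RingTheory.AdjoinRoot
import Mathlib.RingTheory.Polynomial.ScaleRoots
import Mathlib.RingTheory.Localization.Integer
import Mathlib.RingTheory.Localization.FractionRing
import Mathlib.LinearAlgebra.Vandermonde
import Mathlib.LinearAlgebra.Matrix.NonsingularInverse
import Mathlib.LinearAlgebra.Dual.Lemmas
import Mathlib.Algebra.Polynomial.Bivariate
import Mathlib.Algebra.BigOperators.Intervals
import Mathlib.Data.ZMod.Basic

/-!
The `q`-adic determinant method: integer points of a plane curve `g(s, z) = 0`, monic in `z` and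
without a root in the field of rational functions of `s`, are sparse.
-/

namespace Vale.Agent.P022K.MB

open Polynomial Matrix

theorem newton {Λ : Type*} [CommRing Λ] (P : Λ[X]) (x : Λ) (h : IsNilpotent (P.eval x))
    (h' : IsUnit (P.derivative.eval x)) : ∃! r, IsNilpotent (x - r) ∧ P.eval r = 0 := by
  have := Polynomial.existsUnique_nilpotent_sub_and_aeval_eq_zero (P := P) (x := x)
    (by rwa [coe_aeval_eq_eval]) (by rwa [coe_aeval_eq_eval])
  simpa only [coe_aeval_eq_eval] using this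

/-- Points of a smooth branch are interpolated by one polynomial. -/
theorem exists_interp {Λ ι : Type*} [CommRing Λ] (g : Λ[X][X]) (z₀ q : Λ) (hq : IsNilpotent q)
    (h0 : g.evalEval 0 z₀ = 0) (h1 : IsUnit (g.derivative.evalEval 0 z₀)) (x z : ι → Λ)
    (hx : ∀ i, q ∣ x i) (hz : ∀ i, IsNilpotent (z₀ - z i))
    (hi : ∀ i, g.evalEval (x i) (z i) = 0) : ∃ h : Λ[X], ∀ i, h.eval (x i) = z i := by
  obtain ⟨K, hK⟩ := hq
  let mk : Λ[X] →+* AdjoinRoot (X ^ K : Λ[X]) := AdjoinRoot.mk _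
  have hX : IsNilpotent (mk X) := ⟨K, by rw [← map_pow]; exact AdjoinRoot.mk_self⟩
  have hsplit : ∀ p : Λ[X], mk p = mk (C (p.eval 0)) + mk X * mk p.divX := by
    intro p
    rw [← map_mul, ← map_add, ← coeff_zero_eq_eval_zero, add_comm, X_mul_divX_add]
  have hev : ∀ p : Λ[X][X], (p.map mk).eval (mk (C z₀)) = mk (p.eval (C z₀)) := by
    intro p
    rw [eval_map, eval₂_at_apply]
  have hn : IsNilpotent ((g.map mk).eval (mk (C z₀))) := by
    rw [hev, hsplit]
    change IsNilpotent (mk (C (g.evalEval 0 z₀)) + _)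
    rw [h0, map_zero, map_zero, zero_add]
    exact (Commute.all _ _).isNilpotent_mul_right hX
  have hu : IsUnit ((g.map mk).derivative.eval (mk (C z₀))) := by
    rw [derivative_map, hev, hsplit]
    exact IsNilpotent.isUnit_add_left_of_commute ((Commute.all _ _).isNilpotent_mul_right hX)
      ((h1.map C).map mk) (Commute.all _ _)
  obtain ⟨η, ⟨hη1, hη2⟩, -⟩ := newton _ _ hn hu
  obtain ⟨h, rfl⟩ := AdjoinRoot.mk_surjective η
  refine ⟨h, fun i => ?_⟩
  let ev : AdjoinRoot (X ^ K : Λ[X]) →+* Λ := AdjoinRoot.lift (RingHom.id Λ) (x i) (by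
    obtain ⟨u, hu⟩ := hx i
    rw [eval₂_id, eval_pow, eval_X, hu, mul_pow, hK, zero_mul])
  have hev1 : ∀ p : Λ[X], ev (mk p) = p.eval (x i) := fun p => by
    rw [AdjoinRoot.lift_mk, eval₂_id]
  have hev2 : ∀ (p : Λ[X][X]) (w : Λ[X]), ev ((p.map mk).eval (mk w)) =
      (p.map (evalRingHom (x i))).eval (w.eval (x i)) := by
    intro p w
    rw [eval_map, eval₂_at_apply, hev1, eval_map]
    exact (eval₂_at_apply (evalRingHom (x i)) w).symm
  have hn' := hn.map ev
  have hu' := hu.map ev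
  rw [hev2, eval_C] at hn'
  rw [derivative_map, hev2, eval_C, ← derivative_map] at hu'
  refine (newton _ _ hn' hu').unique ⟨?_, ?_⟩ ⟨hz i, ?_⟩
  · have := hη1.map ev
    rwa [map_sub, hev1, eval_C, hev1] at this
  · rw [← hev2]
    exact (congrArg ev hη2).trans (map_zero ev)
  · rw [map_evalRingHom_eval]
    exact hi i

/-- Determinants of values of polynomials at multiples of `q`. -/
theorem dvd_det_eval {Λ : Type*} [CommRing Λ] {D : ℕ} (q : Λ) (x : Fin D → Λ) (hx : ∀ i, q ∣ x i)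
    (Φ : Fin D → Λ[X]) : (∏ j : Fin D, q ^ (j : ℕ)) ∣ det (of fun i j => (Φ j).eval (x i)) := by
  nontriviality Λ
  rcases Nat.eq_zero_or_pos D with rfl | hD
  · simp
  let P : Λ[X] := ∏ i, (X - C (x i))
  have hP : P.Monic := monic_prod_of_monic _ _ fun b _ => monic_X_sub_C _
  have hPd : P.natDegree = D := by
    rw [natDegree_prod_of_monic _ _ fun b _ => monic_X_sub_C _]
    simp
  have hP1 : P ≠ 1 := fun h => by rw [h, natDegree_one] at hPd; omega
  have hM : (of fun i j => (Φ j).eval (x i)) =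
      vandermonde x * of fun (k : Fin D) j => (Φ j %ₘ P).coeff k := by
    ext i j
    have h1 : P.eval (x i) = 0 := by
      rw [eval_prod]
      exact Finset.prod_eq_zero (Finset.mem_univ i) (by simp)
    have h2 : (Φ j).eval (x i) = (Φ j %ₘ P).eval (x i) := by
      conv_lhs => rw [← modByMonic_add_div (Φ j) P]
      rw [eval_add, eval_mul, h1, zero_mul, add_zero]
    rw [of_apply, h2, eval_eq_sum_range' (hPd ▸ natDegree_modByMonic_lt (Φ j) hP hP1), mul_apply,
      Finset.sum_range]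
    simp [vandermonde_apply, mul_comm]
  choose u hu using hx
  have hV : vandermonde x = of fun (i j : Fin D) => q ^ (j : ℕ) * vandermonde u i j := by
    ext i j
    simp [vandermonde_apply, hu, mul_pow]
  rw [hM, det_mul, hV, det_mul_row, mul_assoc]
  exact dvd_mul_right _ _

theorem abs_det_le {D : ℕ} (A : Matrix (Fin D) (Fin D) ℤ) (b : Fin D → ℤ)
    (h : ∀ i j, |A i j| ≤ b j) : |A.det| ≤ D.factorial * ∏ j, b j := by
  rw [det_apply]
  refine (Finset.abs_sum_le_sum_abs _ _).trans ?_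
  refine (Finset.sum_le_card_nsmul _ _ (∏ j, b j) fun σ _ => ?_).trans ?_
  · have : |Equiv.Perm.sign σ • ∏ i, A (σ i) i| = ∏ i, |A (σ i) i| := by
      rcases Int.units_eq_one_or (Equiv.Perm.sign σ) with h | h <;> simp [h, Finset.abs_prod]
    rw [this]
    exact Finset.prod_le_prod (fun _ _ => abs_nonneg _) fun j _ => h _ _
  · simp [Fintype.card_perm]

/-- If all maximal minors vanish, the columns are dependent. -/
theorem exists_ker {ι : Type*} {D : ℕ} (v : ι → Fin D → ℤ)
    (h : ∀ f : Fin D → ι, det (of fun i j => v (f i) j) = 0) :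
    ∃ c : Fin D → ℤ, c ≠ 0 ∧ ∀ x, ∑ j, c j * v x j = 0 := by
  classical
  let w : ι → Fin D → ℚ := fun x j => v x j
  have hne : Submodule.span ℚ (Set.range w) < ⊤ := by
    rw [lt_top_iff_ne_top]
    intro htop
    obtain ⟨f, hf, -, hli⟩ := Submodule.exists_fun_fin_finrank_span_eq ℚ (Set.range w)
    have hD : D = Module.finrank ℚ (Submodule.span ℚ (Set.range w)) := by
      rw [htop, finrank_top, Module.finrank_fin_fun]
    choose k hk using hf
    have h1 : LinearIndependent ℚ (of fun i j => w (k (Fin.cast hD i)) j).row := by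
      have h3 : (of fun i j => w (k (Fin.cast hD i)) j).row = f ∘ Fin.cast hD := by
        ext i j
        simp [hk]
      rw [h3]
      exact hli.comp (Fin.cast hD) (Fin.cast_injective hD)
    rw [linearIndependent_rows_iff_isUnit, isUnit_iff_isUnit_det, isUnit_iff_ne_zero] at h1
    apply h1
    have h2 := congrArg (Int.castRingHom ℚ) (h fun i => k (Fin.cast hD i))
    rw [RingHom.map_det, map_zero] at h2
    exact h2
  obtain ⟨φ, hφ0, hφ⟩ := Submodule.exists_dual_map_eq_bot_of_lt_top hne inferInstance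
  obtain ⟨b, hb⟩ := IsLocalization.exist_integer_multiples_of_finite (nonZeroDivisors ℤ)
    (fun j : Fin D => φ fun i => if j = i then (1 : ℚ) else 0)
  choose c hc using hb
  have hb0 : ((b : ℤ) : ℚ) ≠ 0 := Int.cast_ne_zero.2 (nonZeroDivisors.coe_ne_zero b)
  have hc' : ∀ j, (c j : ℚ) = (b : ℤ) * φ fun i => if j = i then (1 : ℚ) else 0 := fun j => by
    simpa using hc j
  refine ⟨c, fun h0 => hφ0 ?_, fun x => ?_⟩
  · apply LinearMap.ext
    intro y
    rw [LinearMap.pi_apply_eq_sum_univ]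
    refine Finset.sum_eq_zero fun j _ => ?_
    have := hc' j
    rw [h0, Pi.zero_apply, Int.cast_zero, eq_comm, mul_eq_zero] at this
    rw [this.resolve_left hb0, smul_zero]
  · have h1 : φ (w x) = 0 := by
      have : φ (w x) ∈ (Submodule.span ℚ (Set.range w)).map φ :=
        Submodule.mem_map_of_mem (Submodule.subset_span ⟨x, rfl⟩)
      rwa [hφ, Submodule.mem_bot] at this
    rw [LinearMap.pi_apply_eq_sum_univ] at h1
    have h2 : ((∑ j, c j * v x j : ℤ) : ℚ) = 0 := by
      push_cast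
      simp only [hc', mul_assoc]
      rw [← Finset.mul_sum]
      refine mul_eq_zero_of_right _ (Eq.trans ?_ h1)
      exact Finset.sum_congr rfl fun j _ => by rw [smul_eq_mul, mul_comm]
    exact_mod_cast h2

theorem exists_eval_bound (P : ℤ[X]) :
    ∃ c a : ℕ, ∀ (N : ℕ) (u : ℤ), 1 ≤ N → |u| ≤ N → |P.eval u| ≤ c * (N : ℤ) ^ a := by
  induction P using Polynomial.induction_on' with
  | add p q hp hq =>
    obtain ⟨c, a, h⟩ := hp
    obtain ⟨c', a', h'⟩ := hq
    refine ⟨c + c', a + a', fun N u hN hu => ?_⟩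
    have hN' : (1 : ℤ) ≤ N := by exact_mod_cast hN
    have h1 : (N : ℤ) ^ a ≤ (N : ℤ) ^ (a + a') := pow_le_pow_right₀ hN' (by omega)
    have h2 : (N : ℤ) ^ a' ≤ (N : ℤ) ^ (a + a') := pow_le_pow_right₀ hN' (by omega)
    rw [eval_add]
    refine (abs_add_le _ _).trans ?_
    push_cast
    rw [add_mul]
    exact add_le_add ((h N u hN hu).trans (mul_le_mul_of_nonneg_left h1 (by positivity)))
      ((h' N u hN hu).trans (mul_le_mul_of_nonneg_left h2 (by positivity)))
  | monomial n r =>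
    refine ⟨r.natAbs, n, fun N u _ hu => ?_⟩
    rw [eval_monomial, abs_mul, abs_pow, Int.natCast_natAbs]
    exact mul_le_mul_of_nonneg_left (pow_le_pow_left₀ (abs_nonneg _) hu n) (abs_nonneg _)

/-- The determinant of the monomials `s ^ i`, `s ^ i * z` at points of one residue class vanishes. -/
theorem det_class_eq_zero (g : ℤ[X][X]) (p r b : ℕ) (hr : 1 ≤ r) (hp : 2 ≤ p)
    (hy : 2 * b + 4 ≤ p ^ r) (s₀ z₀ : ℤ) (h0 : g.evalEval s₀ z₀ = 0)
    (h1 : IsCoprime (g.derivative.evalEval s₀ z₀) p) (s z : Fin (2 * b + 4) → ℤ)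
    (hi : ∀ i, g.evalEval (s i) (z i) = 0) (hs : ∀ i, ((p : ℤ) ^ r) ^ 3 ∣ s i - s₀)
    (hz : ∀ i, (p : ℤ) ∣ z₀ - z i) (hsb : ∀ i, |s i| ≤ ((p : ℤ) ^ r) ^ 4)
    (hzb : ∀ i, |z i| ≤ ((p : ℤ) ^ r) ^ b) :
    det (of fun i (j : Fin (2 * b + 4)) => s i ^ ((j : ℕ) / 2) * z i ^ ((j : ℕ) % 2)) = 0 := by
  set y : ℤ := (p : ℤ) ^ r with hy'
  have hp' : (2 : ℤ) ≤ p := by exact_mod_cast hp
  have hy1 : 1 < y := one_lt_pow₀ (by omega) (by omega)
  let e : ℕ := ∑ j : Fin (2 * b + 4), (j : ℕ)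
  have he : e = (b + 2) * (2 * b + 3) := by
    have := Finset.sum_range_id_mul_two (2 * b + 4)
    rw [Finset.sum_range, show 2 * b + 4 - 1 = 2 * b + 3 from rfl] at this
    change e * 2 = _ at this
    nlinarith
  let n : ℕ := ((p ^ r) ^ 3) ^ e
  have hn : (n : ℤ) = (y ^ 3) ^ e := by simp [n, hy']
  let π : ℤ →+* ZMod n := Int.castRingHom _
  have hπn : π ((y ^ 3) ^ e) = 0 := by rw [← hn]; simp [π]
  have hpn : IsNilpotent (π p) := ⟨r * 3 * e, by rw [← map_pow, pow_mul, pow_mul]; exact hπn⟩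
  have hqn : IsNilpotent (π (y ^ 3)) := ⟨e, by rw [← map_pow]; exact hπn⟩
  let ρ : ℤ[X] →+* (ZMod n)[X] := eval₂RingHom (C.comp π) (X + C (π s₀))
  have hρ : ∀ (P : ℤ[X][X]) (u w : ℤ), (P.map ρ).evalEval (π (u - s₀)) (π w) =
      π (P.evalEval u w) := by
    intro P u w
    have h2 : (evalRingHom (π (u - s₀))).comp ρ = π.comp (evalRingHom u) := by
      apply Polynomial.ringHom_ext <;> simp [ρ]
    rw [← map_evalRingHom_eval, Polynomial.map_map, h2, ← Polynomial.map_map, eval_map,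
      eval₂_at_apply, map_evalRingHom_eval]
  obtain ⟨h, hh⟩ := exists_interp (g.map ρ) (π z₀) (π (y ^ 3)) hqn
    (by have := hρ g s₀ z₀; rwa [sub_self, map_zero, h0, map_zero] at this)
    (by
      have := hρ g.derivative s₀ z₀
      rw [sub_self, map_zero] at this
      rw [derivative_map, this]
      obtain ⟨a, c, hac⟩ := h1
      have h3 : IsUnit (1 + -(π c * π p)) := IsNilpotent.isUnit_add_left_of_commute
        ((Commute.all _ _).isNilpotent_mul_left hpn).neg isUnit_one (Commute.all _ _)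
      have h4 : 1 + -(π c * π p) = π a * π (g.derivative.evalEval s₀ z₀) := by
        rw [← map_one π, ← hac, map_add, map_mul, map_mul]; ring
      rw [h4] at h3
      exact isUnit_of_mul_isUnit_right h3)
    (fun i => π (s i - s₀)) (fun i => π (z i)) (fun i => map_dvd π (hs i))
    (fun i => by
      obtain ⟨c, hc⟩ := hz i
      rw [← map_sub, hc, map_mul]
      exact (Commute.all _ _).isNilpotent_mul_right hpn)
    (fun i => by rw [hρ, hi, map_zero])
  have hd := dvd_det_eval (π (y ^ 3)) (fun i => π (s i - s₀)) (fun i => map_dvd π (hs i))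
    fun j => (X + C (π s₀)) ^ ((j : ℕ) / 2) * h ^ ((j : ℕ) % 2)
  rw [Finset.prod_pow_eq_pow_sum, ← map_pow, hπn, zero_dvd_iff] at hd
  have hdvd : (y ^ 3) ^ e ∣ det (of fun i (j : Fin (2 * b + 4)) =>
      s i ^ ((j : ℕ) / 2) * z i ^ ((j : ℕ) % 2)) := by
    rw [← hn, ← ZMod.intCast_zmod_eq_zero_iff_dvd, ← hd]
    change π _ = _
    rw [RingHom.map_det]
    congr 1
    ext i j
    simp only [RingHom.mapMatrix_apply, Matrix.map_apply, of_apply, eval_mul, eval_pow, hh,
      eval_add, eval_X, eval_C, map_mul, map_pow, ← map_add, sub_add_cancel]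
  refine Int.eq_zero_of_abs_lt_dvd hdvd ((abs_det_le _ (fun j => (y ^ 2) ^ (j : ℕ) * y ^ b)
    fun i j => ?_).trans_lt ?_)
  · rw [of_apply, abs_mul, abs_pow, abs_pow]
    refine mul_le_mul ((pow_le_pow_left₀ (abs_nonneg _) (hsb i) _).trans ?_) ?_ (by positivity)
      (by positivity)
    · rw [← pow_mul y, ← pow_mul y]
      exact pow_le_pow_right₀ hy1.le (by omega)
    · rcases Nat.mod_two_eq_zero_or_one j with h2 | h2 <;> rw [h2]
      · rw [pow_zero]
        exact one_le_pow₀ hy1.le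
      · rw [pow_one]
        exact hzb i
  · have hf : (((2 * b + 4).factorial : ℕ) : ℤ) ≤ y ^ (2 * b + 4) := by
      have h2 : (2 * b + 4).factorial ≤ (p ^ r) ^ (2 * b + 4) :=
        (Nat.factorial_le_pow _).trans (Nat.pow_le_pow_left hy _)
      rw [hy']
      exact_mod_cast h2
    rw [Finset.prod_mul_distrib, Finset.prod_pow_eq_pow_sum, Finset.prod_const, Finset.card_univ,
      Fintype.card_fin]
    refine (mul_le_mul_of_nonneg_right hf (by positivity)).trans_lt ?_
    change _ * ((y ^ 2) ^ e * _) < _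
    rw [← pow_mul y, ← pow_mul y, ← pow_mul y, ← pow_add, ← pow_add]
    refine pow_lt_pow_right₀ hy1 ?_
    rw [he]
    nlinarith

/-- Sparsity of good integer points. -/
theorem count_points (g : ℤ[X][X])
    (hroot : ∀ A B : ℤ[X], A ≠ 0 ∨ B ≠ 0 → (g.scaleRoots B).eval A ≠ 0) (p : ℕ) (hp : 2 ≤ p) :
    ∃ c r₀ : ℕ, ∀ r, r₀ ≤ r → ∀ T : Finset ℕ, (∀ s ∈ T, s < (p ^ r) ^ 4 ∧
      (g.coeff 0).eval (s : ℤ) ≠ 0 ∧ ∃ z : ℤ, g.evalEval (s : ℤ) z = 0 ∧
        IsCoprime (g.derivative.evalEval (s : ℤ) z) p) → T.card ≤ c * (p ^ r) ^ 3 := by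
  classical
  obtain ⟨c, a, hca⟩ := exists_eval_bound (g.coeff 0)
  let b := 4 * a + 1
  let a₀ := g.support.sup fun k => (g.coeff k).natDegree
  let D₁ := a₀ + g.natDegree * (2 * b + 4)
  refine ⟨D₁ * p, 2 * b + 4 + c, fun r hr T hT => ?_⟩
  have hpr : r < p ^ r := Nat.lt_pow_self (by omega)
  have hp0 : 0 < p := by omega
  have hq0 : 0 < (p ^ r) ^ 3 := by positivity
  choose! hT1 hT2 z hz1 hz2 using hT
  have hzb : ∀ s ∈ T, |z s| ≤ ((p : ℤ) ^ r) ^ b := by
    intro s hs
    have h1 : z s ∣ (g.coeff 0).eval (s : ℤ) := by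
      have h2 := sub_dvd_eval_sub (z s) 0 (g.map (evalRingHom (s : ℤ)))
      rw [map_evalRingHom_eval, hz1 s hs, sub_zero, zero_sub, dvd_neg,
        ← coeff_zero_eq_eval_zero, coeff_map] at h2
      exact h2
    have h3 := hca ((p ^ r) ^ 4) s (Nat.pos_of_ne_zero (by positivity)) (by
      rw [Nat.abs_cast]; exact_mod_cast (hT1 s hs).le)
    have h4 : (c : ℤ) ≤ (p : ℤ) ^ r := by exact_mod_cast (by omega : c ≤ p ^ r)
    refine (Int.le_of_dvd (abs_pos.2 (hT2 s hs)) ((abs_dvd_abs _ _).2 h1)).trans (h3.trans ?_)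
    push_cast
    rw [← pow_mul _ 4, show b = 4 * a + 1 from rfl, pow_succ']
    exact mul_le_mul_of_nonneg_right h4 (by positivity)
  have key := Finset.card_le_mul_card_image_of_maps_to
    (f := fun s : ℕ => (s % (p ^ r) ^ 3, ((z s) % p).toNat)) (s := T)
    (t := Finset.range ((p ^ r) ^ 3) ×ˢ Finset.range p) (fun s _ => by
      rw [Finset.mem_product, Finset.mem_range, Finset.mem_range]
      refine ⟨Nat.mod_lt _ hq0, ?_⟩
      have := Int.emod_lt_of_pos (z s) (b := p) (by omega)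
      omega) D₁ ?_
  · rw [Finset.card_product, Finset.card_range, Finset.card_range] at key
    exact key.trans (le_of_eq (by ring))
  intro t _
  set S := T.filter fun s : ℕ => (s % (p ^ r) ^ 3, ((z s) % p).toNat) = t with hS
  rcases S.eq_empty_or_nonempty with h | ⟨s₀, hs₀⟩
  · rw [h]
    exact Nat.zero_le _
  have hST : ∀ s ∈ S, s ∈ T := fun s hs => (Finset.mem_filter.1 hs).1
  have hcl : ∀ s ∈ S, ((p : ℤ) ^ r) ^ 3 ∣ (s : ℤ) - s₀ ∧ (p : ℤ) ∣ z s₀ - z s := by
    intro s hs
    have h1 := ((Finset.mem_filter.1 hs).2).trans ((Finset.mem_filter.1 hs₀).2).symm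
    rw [Prod.mk.injEq] at h1
    constructor
    · have := (Nat.modEq_iff_dvd.1 (show s₀ ≡ s [MOD (p ^ r) ^ 3] from h1.1.symm))
      exact_mod_cast this
    · apply Int.ModEq.dvd
      have h2 := Int.emod_nonneg (z s) (b := p) (by omega)
      have h3 := Int.emod_nonneg (z s₀) (b := p) (by omega)
      have h4 := h1.2
      change z s % p = z s₀ % p
      omega
  obtain ⟨κ, hκ0, hκ⟩ := exists_ker
    (fun (s : S) (j : Fin (2 * b + 4)) => (s.1 : ℤ) ^ ((j : ℕ) / 2) * z s.1 ^ ((j : ℕ) % 2))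
    fun f => det_class_eq_zero g p r b (by omega) hp (by omega) s₀ (z s₀) (hz1 _ (hST _ hs₀))
      (hz2 _ (hST _ hs₀)) (fun i => (f i).1) (fun i => z (f i).1)
      (fun i => hz1 _ (hST _ (f i).2)) (fun i => (hcl _ (f i).2).1) (fun i => (hcl _ (f i).2).2)
      (fun i => by rw [Nat.abs_cast]; exact_mod_cast (hT1 _ (hST _ (f i).2)).le)
      (fun i => hzb _ (hST _ (f i).2))
  let E : ℕ → ℤ[X] := fun ε => ∑ j : Fin (2 * b + 4),
    if (j : ℕ) % 2 = ε then monomial ((j : ℕ) / 2) (κ j) else 0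
  have hEc : ∀ j : Fin (2 * b + 4), (E ((j : ℕ) % 2)).coeff ((j : ℕ) / 2) = κ j := by
    intro j
    rw [finsetSum_coeff, Finset.sum_eq_single j]
    · simp
    · intro k _ hk
      split_ifs with h1
      · rw [coeff_monomial, if_neg]
        intro h2
        exact hk (Fin.ext (by omega))
      · rfl
    · simp
  have hEd : ∀ ε, (E ε).natDegree ≤ 2 * b + 4 := by
    intro ε
    refine natDegree_sum_le_of_forall_le _ _ fun j _ => ?_
    split_ifs
    · exact (natDegree_monomial_le _).trans (by omega)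
    · simp
  have hE0 : -E 0 ≠ 0 ∨ E 1 ≠ 0 := by
    by_contra hcon
    rw [not_or, not_not, not_not, neg_eq_zero] at hcon
    apply hκ0
    funext j
    rw [← hEc j]
    rcases Nat.mod_two_eq_zero_or_one j with h2 | h2 <;> rw [h2]
    · rw [hcon.1]; rfl
    · rw [hcon.2]; rfl
  have hEv : ∀ s ∈ S, (-E 0).eval (s : ℤ) = (E 1).eval (s : ℤ) * z s := by
    intro s hs
    have h1 := hκ ⟨s, hs⟩
    rw [eval_neg, neg_eq_iff_add_eq_zero, eval_finsetSum, eval_finsetSum, Finset.sum_mul,
      ← Finset.sum_add_distrib, ← h1]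
    refine Finset.sum_congr rfl fun j _ => ?_
    rcases Nat.mod_two_eq_zero_or_one j with h2 | h2 <;> simp [h2, mul_assoc]
  let W := (g.scaleRoots (E 1)).eval (-E 0)
  have hW : W ≠ 0 := hroot _ _ hE0
  have hWd : W.natDegree ≤ D₁ := by
    have h1 : W = ∑ k ∈ Finset.range (g.natDegree + 1),
        g.coeff k * E 1 ^ (g.natDegree - k) * (-E 0) ^ k := by
      simp only [W, eval_eq_sum_range' (Nat.lt_succ_of_le (natDegree_scaleRoots g (E 1)).le),
        coeff_scaleRoots]
    rw [h1]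
    refine natDegree_sum_le_of_forall_le _ _ fun k hk => ?_
    have hk' : k ≤ g.natDegree := Nat.lt_succ_iff.1 (Finset.mem_range.1 hk)
    have h2 : (g.coeff k).natDegree ≤ a₀ := by
      by_cases h : k ∈ g.support
      · exact Finset.le_sup (f := fun k => (g.coeff k).natDegree) h
      · rw [notMem_support_iff.1 h]
        exact Nat.zero_le _
    have h3 : (E 1 ^ (g.natDegree - k)).natDegree ≤ (g.natDegree - k) * (2 * b + 4) :=
      natDegree_pow_le.trans (Nat.mul_le_mul_left _ (hEd 1))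
    have h4 : ((-E 0) ^ k).natDegree ≤ k * (2 * b + 4) :=
      natDegree_pow_le.trans (Nat.mul_le_mul_left _ ((natDegree_neg _).le.trans (hEd 0)))
    refine natDegree_mul_le.trans ((add_le_add (natDegree_mul_le.trans (add_le_add h2 h3))
      h4).trans (le_of_eq ?_))
    rw [add_assoc, ← add_mul, Nat.sub_add_cancel hk']
  have hWs : ∀ s ∈ S, W.eval (s : ℤ) = 0 := by
    intro s hs
    have h1 := scaleRoots_eval₂_mul (p := g) (evalRingHom (s : ℤ)) (z s) (E 1)
    rw [coe_evalRingHom, ← hEv s hs, ← coe_evalRingHom, eval₂_at_apply, ← eval_map,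
      map_evalRingHom_eval, hz1 s (hST s hs), mul_zero] at h1
    exact h1
  refine le_trans ?_ (((W.roots.toFinset_card_le).trans (card_roots' W)).trans hWd)
  refine Finset.card_le_card_of_injOn (fun s : ℕ => (s : ℤ)) (fun s hs => ?_)
    fun _ _ _ _ h => Nat.cast_injective h
  exact Finset.mem_coe.2 (Multiset.mem_toFinset.2 ((mem_roots hW).2 (hWs s hs)))

end Vale.Agent.P022K.MB
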