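import Vale.Agent.P022K.MB.Bert
import Vale.Agent.P022K.MB.Hit1
import Mathlib.RingTheory.Polynomial.RationalRoot
import Mathlib.RingTheory.Localization.Algebra
import Mathlib.RingTheory.Localization.Integral
import Mathlib.RingTheory.Ideal.GoingUp
import Mathlib.FieldTheory.Minpoly.IsIntegrallyClosed

/-!
Hilbert's irreducibility theorem over `ℚ` (one parameter, monic polynomials).
-/

namespace Vale.Agent.P022K.MB

open Polynomial

theorem scale_ne_zero {R : Type*} [CommRing R] [IsDomain R] [IsIntegrallyClosed R] {g : R[X]}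
    (hm : g.Monic) (hirr : Irreducible g) (h2 : 2 ≤ g.natDegree) (A B : R) (h : A ≠ 0 ∨ B ≠ 0) :
    (g.scaleRoots B).eval A ≠ 0 := by
  by_cases hB : B = 0
  · subst hB
    rw [scaleRoots_zero, hm.leadingCoeff, one_smul, eval_pow, eval_X]
    exact pow_ne_zero _ (h.resolve_right fun h => h rfl)
  let K := FractionRing R
  have hinj : Function.Injective (algebraMap R K) := IsFractionRing.injective R K
  have hB' : algebraMap R K B ≠ 0 := (map_ne_zero_iff _ hinj).2 hB
  have h1 := scaleRoots_eval₂_mul (p := g) (algebraMap R K) (algebraMap R K A / algebraMap R K B) B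
  rw [mul_div_cancel₀ _ hB', eval₂_at_apply] at h1
  intro h0
  rw [h0, map_zero, eq_comm, mul_eq_zero, ← eval_map] at h1
  refine ((hm.irreducible_iff_irreducible_map_fraction_map (K := K)).1
    hirr).not_isRoot_of_natDegree_ne_one ?_ (h1.resolve_left (pow_ne_zero _ hB'))
  rw [hm.natDegree_map]
  omega

/-- Finitely many irreducible curves of degree at least two miss some integer fibre. -/
theorem exists_noroot_int {ι : Type*} [Finite ι] (g : ι → ℤ[X][X]) (hm : ∀ i, (g i).Monic)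
    (hirr : ∀ i, Irreducible (g i)) (h2 : ∀ i, 2 ≤ (g i).natDegree) (F : Finset ℕ) :
    ∃ s : ℕ, s ∉ F ∧ ∀ i (z : ℤ), (g i).evalEval (s : ℤ) z ≠ 0 := by
  classical
  have := Fintype.ofFinite ι
  have hroot := fun i => scale_ne_zero (hm i) (hirr i) (h2 i)
  choose Δ hΔ a b hab using fun i => exists_disc (g i) (hm i) (hirr i)
  have hc0 : ∀ i, (g i).coeff 0 ≠ 0 := fun i => by
    have := hroot i 0 1 (Or.inr one_ne_zero)
    rwa [scaleRoots_one, ← coeff_zero_eq_eval_zero] at this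
  let δ : ℤ[X] := ∏ i, (Δ i * (g i).coeff 0)
  have hδ : δ ≠ 0 := Finset.prod_ne_zero_iff.2 fun i _ => mul_ne_zero (hΔ i) (hc0 i)
  obtain ⟨s₀, hs₀⟩ : ∃ s₀ : ℕ, δ.eval (s₀ : ℤ) ≠ 0 := by
    by_contra hcon
    push Not at hcon
    refine hδ (eq_zero_of_infinite_isRoot _ ((Set.infinite_range_of_injective
      (Nat.cast_injective (R := ℤ))).mono ?_))
    rintro _ ⟨s, rfl⟩
    exact hcon s
  let p : ℕ := (δ.eval (s₀ : ℤ)).natAbs + 1
  have hp : 2 ≤ p := Nat.succ_le_succ (Int.natAbs_pos.2 hs₀)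
  have hcop : ∀ u : ℕ, IsCoprime (δ.eval ((s₀ + p * u : ℕ) : ℤ)) (p : ℤ) := by
    intro u
    obtain ⟨w, hw⟩ := sub_dvd_eval_sub ((s₀ + p * u : ℕ) : ℤ) s₀ δ
    rw [sub_eq_iff_eq_add'.1 hw, Nat.cast_add, add_sub_cancel_left, Nat.cast_mul, mul_assoc]
    refine IsCoprime.add_mul_left_left ⟨-(δ.eval (s₀ : ℤ)).sign, 1, ?_⟩ _
    rw [neg_mul, Int.sign_mul_self_eq_natAbs]
    simp [p]
  choose c r₀ hc using fun i => count_points (g i) (hroot i) p hp
  let M := ∑ i, c i + F.card + 1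
  let r := ∑ i, r₀ i + (s₀ + p * M)
  let q := (p ^ r) ^ 3
  have hq : 0 < q := by positivity
  have hr : s₀ + p * M < p ^ r := lt_of_le_of_lt (by omega) (Nat.lt_pow_self (by omega : 1 < p))
  let S := (Finset.range (M * q)).image fun u => s₀ + p * u
  have hS : S.card = M * q := by
    rw [Finset.card_image_of_injective, Finset.card_range]
    intro u v h
    exact Nat.eq_of_mul_eq_mul_left (by omega : 0 < p) (Nat.add_left_cancel h)
  by_contra hcon
  push Not at hcon
  let T : ι → Finset ℕ := fun i => S.filter fun s => ∃ z : ℤ, (g i).evalEval (s : ℤ) z = 0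
  have hT : ∀ i, (T i).card ≤ c i * q := by
    intro i
    refine hc i r ((Finset.single_le_sum (f := r₀) (fun _ _ => Nat.zero_le _)
      (Finset.mem_univ i)).trans (Nat.le_add_right _ _)) _ fun s hs => ?_
    obtain ⟨hs, z, hz⟩ := Finset.mem_filter.1 hs
    obtain ⟨u, hu, rfl⟩ := Finset.mem_image.1 hs
    have hu' := Finset.mem_range.1 hu
    have h3 : IsCoprime ((Δ i).eval ((s₀ + p * u : ℕ) : ℤ) *
        ((g i).coeff 0).eval ((s₀ + p * u : ℕ) : ℤ)) (p : ℤ) := by
      refine (hcop u).of_isCoprime_of_dvd_left ?_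
      rw [← eval_mul]
      exact eval_dvd (Finset.dvd_prod_of_mem _ (Finset.mem_univ i))
    refine ⟨?_, fun h0 => ?_, z, hz, ?_⟩
    · calc s₀ + p * u < s₀ * q + p * (M * q) + q := by nlinarith
        _ = (s₀ + p * M + 1) * q := by ring
        _ ≤ p ^ r * q := Nat.mul_le_mul_right _ hr
        _ = (p ^ r) ^ 4 := by simp only [q]; ring
    · have h4 := h3.of_mul_left_right
      rw [h0, isCoprime_zero_left, Int.isUnit_iff] at h4
      omega
    · refine h3.of_mul_left_left.of_isCoprime_of_dvd_left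
        ⟨(b i).evalEval ((s₀ + p * u : ℕ) : ℤ) z, ?_⟩
      have h4 := congrArg (evalEval ((s₀ + p * u : ℕ) : ℤ) z) (hab i)
      rw [evalEval_add, evalEval_mul, evalEval_mul, hz, zero_mul, zero_add, evalEval_C] at h4
      exact h4.symm
  have hsub : S ⊆ F ∪ Finset.univ.biUnion T := by
    intro s hs
    by_cases hF : s ∈ F
    · exact Finset.mem_union_left _ hF
    · obtain ⟨i, z, hz⟩ := hcon s hF
      exact Finset.mem_union_right _
        (Finset.mem_biUnion.2 ⟨i, Finset.mem_univ i, Finset.mem_filter.2 ⟨hs, z, hz⟩⟩)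
  have h5 := (Finset.card_le_card hsub).trans ((Finset.card_union_le _ _).trans
    (Nat.add_le_add_left (Finset.card_biUnion_le.trans (Finset.sum_le_sum fun i _ => hT i)) _))
  rw [hS, ← Finset.sum_mul] at h5
  simp only [M] at h5
  nlinarith

attribute [local instance] Polynomial.algebra in
/-- Finitely many integral functions outside `ℚ[X]` all have irrational values over some integer. -/
theorem exists_spec {O ι : Type*} [CommRing O] [IsDomain O] [Algebra ℚ[X] O]
    [Algebra.IsIntegral ℚ[X] O] [Finite ι] (w : ι → O)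
    (hw : ∀ i, w i ∉ (algebraMap ℚ[X] O).range) (δ : ℚ[X]) (hδ : δ ≠ 0) :
    ∃ s : ℕ, δ.eval (s : ℚ) ≠ 0 ∧ ∀ (κ : Type*) [CommRing κ] [Nontrivial κ] (π : O →+* κ)
      (j : ℚ →+* κ), π.comp (algebraMap ℚ[X] O) = j.comp (evalRingHom (s : ℚ)) →
      ∀ i a, π (w i) ≠ j a := by
  classical
  let _ : Algebra ℤ[X] O := ((algebraMap ℚ[X] O).comp (algebraMap ℤ[X] ℚ[X])).toAlgebra
  have : IsScalarTower ℤ[X] ℚ[X] O := IsScalarTower.of_algebraMap_eq fun _ => rfl
  have := Polynomial.isLocalization (nonZeroDivisors ℤ) ℚ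
  have h1 : ∀ i, ∃ d : ℤ, d ≠ 0 ∧ IsIntegral ℤ[X] ((d : O) * w i) := by
    intro i
    obtain ⟨⟨_, d, hd, rfl⟩, h⟩ := IsIntegral.exists_multiple_integral_of_isLocalization
      ((nonZeroDivisors ℤ).map (C : ℤ →+* ℤ[X])) (Rₘ := ℚ[X]) (w i)
      (Algebra.IsIntegral.isIntegral _)
    refine ⟨d, nonZeroDivisors.ne_zero hd, ?_⟩
    rw [Submonoid.smul_def, Algebra.smul_def] at h
    simpa using h
  choose d hd hint using h1
  obtain ⟨s, hs1, hs2⟩ := exists_noroot_int (fun i => minpoly ℤ[X] ((d i : O) * w i))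
    (fun i => minpoly.monic (hint i)) (fun i => minpoly.irreducible (hint i))
    (fun i => (minpoly.two_le_natDegree_iff (hint i)).2 (by
      rintro ⟨P, hP⟩
      refine hw i ⟨C (d i : ℚ)⁻¹ * algebraMap ℤ[X] ℚ[X] P, ?_⟩
      rw [map_mul, ← IsScalarTower.algebraMap_apply, hP, ← mul_assoc,
        ← map_intCast (algebraMap ℚ[X] O), ← map_mul, ← map_intCast (C : ℚ →+* ℚ[X]), ← C_mul,
        inv_mul_cancel₀ (Int.cast_ne_zero.2 (hd i)), C_1, map_one, one_mul]))
    (δ.roots.toFinset.preimage (fun s : ℕ => (s : ℚ)) Nat.cast_injective.injOn)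
  refine ⟨s, fun h => hs1 ?_, fun κ _ _ π j hπ i a ha => ?_⟩
  · rw [Finset.mem_preimage, Multiset.mem_toFinset, mem_roots hδ]
    exact h
  let G := minpoly ℤ[X] ((d i : O) * w i)
  have h2 : aeval ((d i : ℚ) * a) (G.map (evalRingHom (s : ℤ))) = 0 := by
    apply j.injective
    have h3 := congrArg π (minpoly.aeval ℤ[X] ((d i : O) * w i))
    have h4 : π.comp (algebraMap ℤ[X] O) =
        (j.comp (algebraMap ℤ ℚ)).comp (evalRingHom (s : ℤ)) := by
      rw [IsScalarTower.algebraMap_eq ℤ[X] ℚ[X] O, ← RingHom.comp_assoc, hπ]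
      apply Polynomial.ringHom_ext <;> simp
    rw [aeval_def, hom_eval₂, h4, map_mul, ha, map_intCast, map_zero] at h3
    rw [aeval_def, hom_eval₂, eval₂_map, map_mul, map_intCast, map_zero]
    exact h3
  obtain ⟨z, hz⟩ := isInteger_of_is_root_of_monic ((minpoly.monic (hint i)).map _) h2
  rw [← hz, aeval_algebraMap_apply, map_eq_zero_iff _ (algebraMap ℤ ℚ).injective_int,
    coe_aeval_eq_eval, map_evalRingHom_eval] at h2
  exact hs2 i z h2

/-- **Hilbert's irreducibility theorem.** -/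
theorem hilbert (f : ℚ[X][X]) (hm : f.Monic) (hirr : Irreducible f) (δ : ℚ[X]) (hδ : δ ≠ 0) :
    ∃ s : ℕ, δ.eval (s : ℚ) ≠ 0 ∧ Irreducible (f.map (evalRingHom (s : ℚ))) := by
  classical
  let Ω := AlgebraicClosure (FractionRing ℚ[X])
  have hΩ : Function.Injective (algebraMap ℚ[X] Ω) := by
    rw [IsScalarTower.algebraMap_eq ℚ[X] (FractionRing ℚ[X]) Ω]
    exact (algebraMap (FractionRing ℚ[X]) Ω).injective.comp (IsFractionRing.injective _ _)
  let O := integralClosure ℚ[X] Ω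
  let ι : ℚ[X] →+* O := algebraMap ℚ[X] O
  have hι : Function.Injective ι := fun x y h => hΩ (congrArg Subtype.val h)
  obtain ⟨n, y, hy⟩ : ∃ (n : ℕ) (y : Fin n → O), f.map ι = ∏ i, (X - C (y i)) := by
    have hm' := hm.map (algebraMap ℚ[X] Ω)
    have h1 := prod_multiset_X_sub_C_of_monic_of_roots_card_eq hm'
      IsAlgClosed.card_roots_eq_natDegree
    have h2 : ∀ x ∈ (f.map (algebraMap ℚ[X] Ω)).roots.toList, x ∈ O := fun x hx =>
      ⟨f, hm, by rw [← eval_map]; exact (mem_roots hm'.ne_zero).1 (Multiset.mem_toList.1 hx)⟩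
    refine ⟨_, fun i : Fin (f.map (algebraMap ℚ[X] Ω)).roots.toList.length =>
      ⟨_, h2 _ (List.getElem_mem i.2)⟩, map_injective O.val.toRingHom Subtype.val_injective ?_⟩
    rw [map_map, Polynomial.map_prod]
    simp only [Polynomial.map_sub, map_X, map_C]
    refine Eq.trans ?_ (Fin.prod_univ_fun_getElem _ fun a : Ω => X - C a).symm
    rw [Multiset.prod_map_toList, h1]
    rfl
  let P : Finset (Fin n) → O[X] := fun J => ∏ b ∈ J, (X - C (y b))
  have hPm : ∀ J, (P J).Monic := fun J => monic_prod_of_monic _ _ fun b _ => monic_X_sub_C _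
  have hJ : ∀ J : {J // P J ∉ lifts ι}, ∃ k, (P J.1).coeff k ∉ ι.range := fun J => by
    have := J.2
    rw [lifts_iff_coeff_lifts] at this
    exact not_forall.1 this
  choose k hk using hJ
  obtain ⟨s, hs1, hs2⟩ := exists_spec (fun J => (P J.1).coeff (k J)) hk δ hδ
  refine ⟨s, hs1, ?_⟩
  have := RingHom.ker_isPrime (evalRingHom (s : ℚ))
  obtain ⟨Q, hQ, hQ'⟩ := Ideal.exists_ideal_over_prime_of_isIntegral_of_isDomain (S := O)
    (RingHom.ker (evalRingHom (s : ℚ))) (by
      rw [(RingHom.injective_iff_ker_eq_bot _).1 hι]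
      exact bot_le)
  let π : O →+* O ⧸ Q := Ideal.Quotient.mk Q
  let j : ℚ →+* O ⧸ Q := (π.comp ι).comp C
  have hπ : π.comp ι = j.comp (evalRingHom (s : ℚ)) := by
    apply Polynomial.ringHom_ext
    · simp [j]
    · have : X - C (s : ℚ) ∈ Q.comap ι := by
        rw [hQ', RingHom.mem_ker]
        simp
      rw [Ideal.mem_comap, map_sub, ← Ideal.Quotient.eq] at this
      simpa [j] using this
  rw [(hm.map _).irreducible_iff_natDegree]
  refine ⟨fun h1 => hirr.ne_one (hm.natDegree_eq_zero.1 ?_), fun A B hA hB hAB => ?_⟩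
  · rw [← hm.natDegree_map (evalRingHom (s : ℚ)), h1, natDegree_one]
  have hPmap : ∀ J, (P J).map π = ∏ b ∈ J, (X - C (π (y b))) := by
    intro J
    simp [P, Polynomial.map_prod]
  have hprod : A.map j * B.map j = 1 * ∏ b, (X - C (π (y b))) := by
    rw [← Polynomial.map_mul, hAB, map_map, ← hπ, ← map_map, hy, one_mul]
    exact hPmap _
  obtain ⟨t, u, a, b, htu, hdis, hab, hAt, hBu⟩ :=
    mul_eq_mul_prime_prod (fun b _ => prime_X_sub_C _) hprod
  have key : ∀ (J : Finset (Fin n)) (A₁ : ℚ[X]) (a₁ : (O ⧸ Q)[X]), A₁.Monic → IsUnit a₁ →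
      A₁.map j = a₁ * ∏ b ∈ J, (X - C (π (y b))) →
      ∃ R : ℚ[X][X], R.map ι = P J ∧ R.natDegree = A₁.natDegree ∧ R.Monic := by
    intro J A₁ a₁ hA₁ ha₁ hE
    have hE' : A₁.map j = (P J).map π := by
      apply eq_of_monic_of_associated (hA₁.map _) ((hPm J).map _)
      rw [hE, hPmap]
      exact associated_unit_mul_left _ _ ha₁
    by_cases h : P J ∈ lifts ι
    · obtain ⟨R, h1, h2, h3⟩ := lifts_and_natDegree_eq_and_monic h (hPm J)
      refine ⟨R, h1, ?_, h3⟩
      rw [h2, ← (hPm J).natDegree_map π, ← hE', hA₁.natDegree_map]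
    · refine absurd ?_ (hs2 _ π j hπ ⟨J, h⟩ (A₁.coeff (k ⟨J, h⟩)))
      rw [← coeff_map, ← hE', coeff_map]
  obtain ⟨Q₁, h11, h12, h13⟩ := key t A a hA (IsUnit.of_mul_eq_one b hab.symm) hAt
  obtain ⟨Q₂, h21, h22, h23⟩ := key u B b hB
    (IsUnit.of_mul_eq_one a (by rw [mul_comm]; exact hab.symm)) hBu
  have hF : Q₁ * Q₂ = f := by
    apply map_injective ι hι
    rw [Polynomial.map_mul, h11, h21, hy, ← htu, Finset.prod_union hdis]
  have := (hm.irreducible_iff_natDegree.1 hirr).2 _ _ h13 h23 hF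
  rwa [h12, h22] at this

end Vale.Agent.P022K.MB
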