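import Vale.Agent.P022K.MB.Cv
import Mathlib.Order.Filter.Ultrafilter.Basic
import Mathlib.Tactic.Module

/-!
# P022K / MB / Key: a multiple of the polar divisor is equivalent to a sum of distinct points of `U`
-/

open Filter Topology Module

namespace Vale.Agent.P022K.MB.Cv

variable {k E : Type*} [NontriviallyNormedField k] [Field E] [Algebra k E] {U : Set k}
  (C : Cv k E U)

/-- non-special divisors -/
theorem nonspecial (Z : Finset U) (h : (finrank k (C.L (ind Z) 0) : ℤ) = Z.card + 1 - C.g) :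
    ∃ A ⊆ Z, C.g ≤ A.card ∧ ∀ z ∈ C.L (ind A) 0, ∃ a, z = algebraMap k E a := by
  classical
  induction Z using Finset.strongInduction with
  | H Z ih =>
    by_cases hc : ∀ z ∈ C.L (ind Z) 0, ∃ a, z = algebraMap k E a
    · refine ⟨Z, subset_rfl, ?_, hc⟩
      have h1 : C.L 0 0 ≤ C.L (ind Z) 0 := C.mono (fun a => ind_nonneg Z a) 0
      have h2 : 0 < finrank k (C.L (ind Z) 0) :=
        finrank_pos_iff_exists_ne_zero.2 ⟨⟨1, h1 C.one⟩, fun e => one_ne_zero
          (congrArg Subtype.val e)⟩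
      omega
    · push Not at hc
      obtain ⟨z, hz, hz'⟩ := hc
      have z0 : z ≠ 0 := by simpa using hz' 0
      have h3 : ∃ a, C.ord a z < 0 := by
        by_contra hn
        push Not at hn
        obtain ⟨a, ha⟩ := C.const z (C.of_ord hz (by simpa using hn))
        exact hz' a ha
      obtain ⟨a, ha⟩ := h3
      have haZ : a ∈ Z := by
        by_contra hn
        have := C.le_ord hz z0 a
        rw [ind_of_notMem hn] at this
        omega
      have h4 : C.L (ind (Z.erase a)) 0 < C.L (ind Z) 0 := by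
        refine lt_of_le_of_ne (C.mono (fun b => ?_) 0) fun e => ?_
        · by_cases hb : b ∈ Z
          · rw [ind_of_mem hb]; exact ind_le_one _ _
          · rw [ind_of_notMem fun h => hb (Finset.mem_of_mem_erase h)]; exact ind_nonneg _ _
        · have := C.le_ord (e ▸ hz) z0 a
          rw [ind_of_notMem (Finset.notMem_erase a Z)] at this
          omega
      have h5 := Submodule.finrank_lt_finrank_of_lt h4
      have h6 := C.R1 (ind (Z.erase a)) 0
      rw [deg_ind] at h6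
      have h7 := Finset.card_erase_add_one haZ
      obtain ⟨A, hA, hA'⟩ := ih _ (Finset.erase_ssubset haZ) (by omega)
      exact ⟨A, hA.trans (Finset.erase_subset a Z), hA'⟩

theorem exists_pairs (u : Ultrafilter ℕ) (hu : (u : Filter ℕ) ≤ atTop) :
    ∃ v : Ultrafilter (ℕ × ℕ), Tendsto Prod.fst (v : Filter (ℕ × ℕ)) (u : Filter ℕ) ∧
      Tendsto Prod.snd (v : Filter (ℕ × ℕ)) (u : Filter ℕ) ∧
      ∀ᶠ i : ℕ × ℕ in v, i.2 + 2 ≤ i.1 := by
  have : ((u : Filter ℕ) ×ˢ (u : Filter ℕ) ⊓ 𝓟 {i : ℕ × ℕ | i.2 + 2 ≤ i.1}).NeBot := by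
    rw [inf_principal_neBot_iff]
    intro S hS
    obtain ⟨A, hA, B, hB, h⟩ := mem_prod_iff.1 hS
    obtain ⟨b, hb⟩ := u.nonempty_of_mem hB
    obtain ⟨a, ha, hab⟩ := u.nonempty_of_mem (inter_mem hA (hu (Ici_mem_atTop (b + 2))))
    exact ⟨(a, b), h ⟨ha, hb⟩, hab⟩
  have h := Ultrafilter.of_le ((u : Filter ℕ) ×ˢ (u : Filter ℕ) ⊓ 𝓟 {i : ℕ × ℕ | i.2 + 2 ≤ i.1})
  exact ⟨_, tendsto_fst.mono_left (h.trans inf_le_left),
    tendsto_snd.mono_left (h.trans inf_le_left), le_principal_iff.1 (h.trans inf_le_right)⟩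

/-- the pigeonhole step -/
theorem key [ProperSpace k] : ∃ M : ℕ, 0 < M ∧ ∃ (Y : U →₀ ℤ) (H : E), 0 ≤ Y ∧
    Y.degree = M * C.r ∧ C.c + 1 ≤ Y.support.card ∧ H ≠ 0 ∧ H ∈ C.L (-Y) M := by
  classical
  have hr : (1 : ℤ) ≤ C.r := by exact_mod_cast C.r_pos
  have hgr : (C.g : ℤ) ≤ C.g * C.r := le_mul_of_one_le_right (by positivity) hr
  obtain ⟨a₀, ha₀⟩ := C.nonempty
  have : Infinite U := (infinite_of_mem_nhds a₀ (C.isOpen.mem_nhds ha₀)).to_subtype
  set s : ℕ := C.c + 2 * C.g + 1 with hs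
  obtain ⟨B, hB⟩ := Infinite.exists_subset_card_eq U (s * C.r)
  have hdB : (ind B).degree = s * C.r := by rw [deg_ind, hB]; push_cast; rfl
  have h1 : ∀ m : ℕ, ∃ h ∈ C.L (-((m : ℤ) • ind B)) (m * s + C.g), h ≠ 0 := fun m =>
    C.exists_ne (by rw [map_neg, map_zsmul, hdB, smul_eq_mul]; linarith)
  have h2 : ∀ m : ℕ, ∃ z ∈ C.L ((m : ℤ) • ind B) (C.g - m * s), z ≠ 0 := fun m =>
    C.exists_ne (by rw [map_zsmul, hdB, smul_eq_mul]; linarith)
  choose h hh h0 using h1
  choose z' hz' z0' using h2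
  let W : (U →₀ ℤ) → ℕ → Submodule k E := fun D m =>
    (C.L ((m : ℤ) • ind B + D) (C.g - m * s)).map (LinearMap.mulLeft k (h m))
  have hW : ∀ D m, W D m ≤ C.L D (2 * C.g) := by
    rintro D m _ ⟨y, hy, rfl⟩
    exact C.cast (C.mul (hh m) hy) (by abel) (by ring)
  let u := hyperfilter ℕ
  have hu : (u : Filter ℕ) ≤ atTop := Nat.hyperfilter_le_atTop
  obtain ⟨c, q, q0, c0, hq⟩ := Wk.exists_lim (C.L 0 (2 * C.g)) u (z := fun m => h m * z' m)
    (Eventually.of_forall fun m => ⟨hW 0 m ⟨z' m, by simpa using hz' m, rfl⟩,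
      mul_ne_zero (h0 m) (z0' m)⟩)
  let z : ℕ → E := fun m => c m • z' m
  have hz : ∀ m : ℕ, z m ∈ C.L ((m : ℤ) • ind B) (C.g - m * s) := fun m =>
    Submodule.smul_mem _ _ (hz' m)
  have z0 : ∀ m, z m ≠ 0 := fun m => smul_ne_zero (c0 m) (z0' m)
  have hzW : ∀ m, h m * z m ∈ W 0 m := fun m => ⟨z m, by simpa using hz m, rfl⟩
  replace hq : Wk.Lim k (u : Filter ℕ) (fun m => h m * z m) q :=
    hq.congr (Eventually.of_forall fun m => (mul_smul_comm _ _ _).symm)
  have hqL : q ∈ C.L 0 (2 * C.g) := hq.mem (Eventually.of_forall fun m => hW 0 m (hzW m))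
  have hB1 : (B.filter fun a => 0 < C.ord a q).card ≤ 2 * C.g * C.r := by
    have h3 : q ∈ C.L (-ind (B.filter fun a => 0 < C.ord a q)) (2 * C.g) := by
      refine C.of_ord hqL fun a => ?_
      rw [Finsupp.neg_apply, neg_neg]
      by_cases ha : a ∈ B.filter fun a => 0 < C.ord a q
      · rw [ind_of_mem ha]; exact (Finset.mem_filter.1 ha).2
      · rw [ind_of_notMem ha]; simpa using C.le_ord hqL q0 a
    have h4 := C.deg_nonneg h3 q0
    rw [map_neg, deg_ind] at h4
    have : ((B.filter fun a => 0 < C.ord a q).card : ℤ) ≤ 2 * C.g * C.r := by linarith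
    exact_mod_cast this
  have hB0 : C.c ≤ (B.filter fun a => ¬ 0 < C.ord a q).card := by
    have h3 := Finset.card_filter_add_card_filter_not (s := B) fun a => 0 < C.ord a q
    have h4 : C.c ≤ C.c * C.r := Nat.le_mul_of_pos_right _ C.r_pos
    rw [hB, hs] at h3
    nlinarith
  obtain ⟨A, hA, hAg, hAc⟩ := C.nonspecial (B.filter fun a => ¬ 0 < C.ord a q) (by
    rw [C.R2 _ _ (by rw [deg_ind]; omega), deg_ind]; ring)
  have hAB : A ⊆ B := hA.trans (Finset.filter_subset _ _)
  have hAq : ∀ a ∈ A, C.ord a q = 0 := fun a ha => by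
    have h3 := (Finset.mem_filter.1 (hA ha)).2
    have h4 := C.le_ord hqL q0 a
    simp only [Finsupp.coe_zero, Pi.zero_apply, neg_zero] at h4
    omega
  obtain ⟨v, hv1, hv2, hv⟩ := exists_pairs u hu
  have h3 : ∀ i : ℕ × ℕ, ∃ H ∈ C.L (ind A - ((i.1 : ℤ) - i.2) • ind B) (((i.1 : ℤ) - i.2) * s),
      H ≠ 0 := fun i => C.exists_ne (by
    rw [map_sub, map_zsmul, hdB, deg_ind, smul_eq_mul]
    have : (C.g : ℤ) ≤ A.card := by exact_mod_cast hAg
    linarith)
  choose H' hH' H0' using h3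
  have hmap : ∀ (i : ℕ × ℕ) (D : U →₀ ℤ) (H y : E),
      H ∈ C.L (ind A - ((i.1 : ℤ) - i.2) • ind B) (((i.1 : ℤ) - i.2) * s) →
      y ∈ C.L ((i.1 : ℤ) • ind B + D) (C.g - i.1 * s) → h i.2 * (H * y) ∈ W (D + ind A) i.2 :=
    fun i D H y hH hy => ⟨H * y, C.cast (C.mul hH hy) (by module) (by ring), rfl⟩
  obtain ⟨c', p, p0, c0', hp⟩ := Wk.exists_lim (C.L (0 + ind A) (2 * C.g)) v
    (z := fun i => h i.2 * (H' i * z i.1)) (Eventually.of_forall fun i =>
      ⟨hW _ _ (hmap i 0 _ _ (hH' i) (by simpa using hz i.1)),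
        mul_ne_zero (h0 _) (mul_ne_zero (H0' i) (z0 _))⟩)
  let H : ℕ × ℕ → E := fun i => c' i • H' i
  have hH : ∀ i : ℕ × ℕ, H i ∈ C.L (ind A - ((i.1 : ℤ) - i.2) • ind B) (((i.1 : ℤ) - i.2) * s) :=
    fun i => Submodule.smul_mem _ _ (hH' i)
  have H0 : ∀ i, H i ≠ 0 := fun i => smul_ne_zero (c0' i) (H0' i)
  replace hp : Wk.Lim k (v : Filter (ℕ × ℕ)) (fun i => h i.2 * (H i * z i.1)) p :=
    hp.congr (Eventually.of_forall fun i => by simp only [H, smul_mul_assoc, mul_smul_comm])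
  have hpL : ∀ i : ℕ × ℕ, h i.2 * (H i * z i.1) ∈ C.L (ind A) (2 * C.g) := fun i =>
    C.cast (hW _ _ (hmap i 0 _ _ (hH i) (by simpa using hz i.1))) (zero_add _) rfl
  have hφ : ∀ D, ∀ w ∈ Wk.lim u (W D), p / q * w ∈ Wk.lim u (W (D + ind A)) := by
    rintro D w ⟨w', hw', hw⟩
    choose y hy hy' using hw'
    have e1 := Wk.Lim.mul (C.L (ind A) (2 * C.g)) (Eventually.of_forall hpL)
      (hp.mem (Eventually.of_forall hpL)) hp (hw.comp hv1)
    have e2 := Wk.Lim.div (C.L 0 (2 * C.g)) (C.L (D + ind A) (2 * C.g)) v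
      (y := fun i => h i.2 * (H i * y i.1)) (Eventually.of_forall fun i => hW 0 _ (hzW i.1))
      (Eventually.of_forall fun i => hW _ _ (hmap i D _ _ (hH i) (hy i.1))) (hq.comp hv1) q0
      (e1.congr (Eventually.of_forall fun i => by
        simp only [← hy', LinearMap.mulLeft_apply]; ring))
    rw [div_mul_eq_mul_div]
    exact Wk.mem_lim (C.L (D + ind A) (2 * C.g)) u hu (hW _) hv2
      (Eventually.of_forall fun i => hmap i D _ _ (hH i) (hy i.1)) e2
  have hn : ∀ n : ℕ, (p / q) ^ n * q ∈ Wk.lim u (W (n • ind A)) := by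
    intro n
    induction n with
    | zero => exact ⟨_, by simpa using hzW, by simpa using hq⟩
    | succ n ih => rw [pow_succ', mul_assoc, succ_nsmul]; exact hφ _ _ ih
  obtain ⟨l, hl⟩ := hAc _ (C.ai q0 fun n => by
    obtain ⟨w, hw, hw'⟩ := hn n
    exact hw'.mem (Eventually.of_forall fun m => hW _ m (hw m)))
  have hpq : p = l • q := by rw [Algebra.smul_def, ← hl, div_mul_cancel₀ _ q0]
  have l0 : l ≠ 0 := fun e => p0 (by rw [hpq, e, zero_smul])
  have hS : ∀ a ∈ A, ∃ S ∈ 𝓝 (a : k), ∀ᶠ m in u, ∀ ξ ∈ S, C.ev ξ (h m * z m) ≠ 0 := fun a ha =>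
    Wk.ev_ne (C.L 0 (2 * C.g)) C.ev
      (fun w hw => (C.ev_diff a hw).elim fun _ hd => hd.1.hasDerivAt.continuousAt)
      (Eventually.of_forall fun m => hW 0 m (hzW m)) hqL hq fun e => by
        have := (C.ev_zero a hqL q0).1 e
        rw [hAq a ha] at this
        exact lt_irrefl _ this
  choose! S hS hS' using hS
  have hS'' := (A.eventually_all).2 hS'
  obtain ⟨i, ⟨hi0, X, hX, hXS, hXL⟩, hi1, hi2, hi⟩ := ((C.move A (Eventually.of_forall hpL) hp p0
    (fun a ha => by rw [hpq, C.ord_smul a l0 q0, hAq a ha]) S hS).and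
    ((hv1.eventually hS'').and ((hv2.eventually hS'').and hv))).exists
  obtain ⟨J, hJ⟩ := Nat.exists_eq_add_of_le hi
  have hJ' : (i.1 : ℤ) - i.2 = (J + 2 : ℕ) := by rw [hJ]; push_cast; ring
  have hle : ∀ a, ind A a ≤ ind B a := fun a => by
    by_cases ha : a ∈ A
    · rw [ind_of_mem ha, ind_of_mem (hAB ha)]
    · rw [ind_of_notMem ha]; exact ind_nonneg _ _
  refine ⟨(J + 2) * s, by positivity, ((J + 2 : ℕ) : ℤ) • ind B - ind A + ind X, H i,
    fun a => ?_, ?_, ?_, H0 i, C.of_ord (C.cast (hH i) rfl (by rw [hJ']; push_cast; ring))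
    fun a => ?_⟩
  · have := hle a
    have := ind_nonneg B a
    have := ind_nonneg X a
    simp only [Finsupp.coe_zero, Pi.zero_apply, Finsupp.add_apply, Finsupp.sub_apply,
      Finsupp.smul_apply, smul_eq_mul]
    push_cast
    nlinarith
  · rw [map_add, map_sub, map_zsmul, hdB, deg_ind, deg_ind, hX, smul_eq_mul]
    push_cast
    ring
  · refine le_trans ?_ (Finset.card_le_card (s := B) fun a ha => ?_)
    · rw [hB]
      exact le_trans (by omega) (Nat.le_mul_of_pos_right _ C.r_pos)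
    · have := ind_le_one A a
      have := ind_nonneg X a
      simp only [Finsupp.mem_support_iff, Finsupp.add_apply, Finsupp.sub_apply,
        Finsupp.smul_apply, smul_eq_mul, ind_of_mem ha]
      push_cast
      omega
  · have e0 := C.le_ord (hH i) (H0 i) a
    rw [hJ'] at e0
    simp only [Finsupp.neg_apply, neg_neg, Finsupp.add_apply, Finsupp.sub_apply,
      Finsupp.smul_apply, smul_eq_mul] at e0 ⊢
    by_cases ha : a ∈ X
    · obtain ⟨b, hb, hab⟩ := hXS a ha
      have e1 : ∀ m, (∀ ξ ∈ S b, C.ev ξ (h m * z m) ≠ 0) →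
          C.ord a (h m) + C.ord a (z m) ≤ 0 := fun m hm => by
        rw [← C.ord_mul a (h0 m) (z0 m)]
        exact not_lt.1 fun e => hm a hab
          ((C.ev_zero a (hW 0 m (hzW m)) (mul_ne_zero (h0 m) (z0 m))).2 e)
      have e2 := e1 _ (hi1 b hb)
      have e3 := e1 _ (hi2 b hb)
      have e4 := C.le_ord (hh i.1) (h0 _) a
      have e5 := C.le_ord (hz i.2) (z0 _) a
      have e6 := C.le_ord hXL hi0 a
      rw [C.ord_mul a (h0 _) (mul_ne_zero (H0 i) (z0 _)), C.ord_mul a (H0 i) (z0 _)] at e6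
      simp only [Finsupp.neg_apply, neg_neg, Finsupp.sub_apply, Finsupp.smul_apply,
        smul_eq_mul] at e4 e5 e6
      rw [← hJ']
      linarith
    · rw [ind_of_notMem ha]
      linarith

/-- multiple points are split -/
theorem split [CompleteSpace k] {M : ℤ} {Y : U →₀ ℤ} {H : E} (hY : 0 ≤ Y)
    (hd : Y.degree = M * C.r) (hc : C.c + 1 ≤ Y.support.card) (H0 : H ≠ 0) (hH : H ∈ C.L (-Y) M) :
    ∃ (Z : Finset U) (H' : E), (Z.card : ℤ) = M * C.r ∧ H' ≠ 0 ∧ H' ∈ C.L (-ind Z) M := by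
  classical
  have hcard : ∀ Y : U →₀ ℤ, 0 ≤ Y → (Y.support.card : ℤ) ≤ Y.degree := fun Y hY => by
    rw [Finsupp.degree_apply, Finset.card_eq_sum_ones, Nat.cast_sum]
    exact Finset.sum_le_sum fun a ha => by
      have h1 := hY a
      have h2 := Finsupp.mem_support_iff.1 ha
      simp only [Finsupp.coe_zero, Pi.zero_apply] at h1
      omega
  obtain ⟨n, hn⟩ := Int.le.dest (hcard Y hY)
  induction n using Nat.strong_induction_on generalizing Y H with
  | _ n ih =>
    by_cases h1 : ∀ a, Y a ≤ 1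
    · have e : Y = ind Y.support := Finsupp.ext fun a => by
        by_cases ha : a ∈ Y.support
        · have h2 := hY a
          have h3 := Finsupp.mem_support_iff.1 ha
          have h4 := h1 a
          simp only [Finsupp.coe_zero, Pi.zero_apply] at h2
          rw [ind_of_mem ha]
          omega
        · rw [ind_of_notMem ha, Finsupp.notMem_support_iff.1 ha]
      exact ⟨Y.support, H, by rw [← deg_ind, ← e, hd], H0, e ▸ hH⟩
    push Not at h1
    obtain ⟨a, ha⟩ := h1
    set Z := Y.support with hZ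
    have haZ : a ∈ Z := Finsupp.mem_support_iff.2 (by omega)
    have h2 : ¬ C.L (ind Z) 0 ≤ C.L (ind Z - Finsupp.single a 1) 0 := fun e => by
      have h3 := Submodule.finrank_mono e
      have h4 := C.R1 (ind Z) 0
      have h5 := C.R2 (ind Z - Finsupp.single a 1) 0 (by
        rw [map_sub, deg_ind, Finsupp.degree_single]; omega)
      rw [map_sub, Finsupp.degree_single] at h5
      omega
    obtain ⟨φ, hφ, hφ'⟩ := SetLike.not_le_iff_exists.1 h2
    have h3 : (0 : U →₀ ℤ) ≤ ind Z - Finsupp.single a 1 := fun b => by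
      simp only [Finsupp.coe_zero, Pi.zero_apply, Finsupp.sub_apply, Finsupp.single_apply]
      split_ifs with e
      · rw [← e, ind_of_mem haZ]; norm_num
      · simpa using ind_nonneg Z b
    have h4 : Wk.Lim k (𝓝[≠] (0 : k)) (fun e : k => (1 : E) + e • φ) 1 := by
      simpa using (Wk.Lim.const _ (1 : E)).add
        (Wk.Lim.smul (tendsto_id.mono_left nhdsWithin_le_nhds) (Wk.Lim.const (𝓝[≠] (0 : k)) φ))
    obtain ⟨e, ⟨e0, X, hX, -, hXL⟩, he⟩ := ((C.move Z (Eventually.of_forall fun e : k =>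
      add_mem (C.mono (fun b => ind_nonneg Z b) 0 C.one) (Submodule.smul_mem _ e hφ)) h4
      one_ne_zero (fun b _ => C.ord_one b) (fun _ => Set.univ) fun _ _ => univ_mem).and
      self_mem_nhdsWithin).exists
    have haX : a ∉ X := fun hx => by
      have h5 := C.mono (D' := ind Z - Finsupp.single a 1) (fun b => by
        simp only [Finsupp.sub_apply, Finsupp.single_apply]
        split_ifs with e
        · rw [← e, ind_of_mem hx]
        · simpa using ind_nonneg X b) 0 hXL
      have h6 := Submodule.smul_mem _ e⁻¹ (sub_mem h5 (C.mono h3 0 C.one))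
      rw [add_sub_cancel_left, smul_smul, inv_mul_cancel₀ he, one_smul] at h6
      exact hφ' h6
    have h7 : ∀ b, ind Z b ≤ Y b := fun b => by
      by_cases hb : b ∈ Z
      · have h8 := hY b
        have h9 := Finsupp.mem_support_iff.1 hb
        simp only [Finsupp.coe_zero, Pi.zero_apply] at h8
        rw [ind_of_mem hb]
        omega
      · rw [ind_of_notMem hb]; exact hY b
    have hY' : 0 ≤ Y - ind Z + ind X := fun b => by
      have := h7 b
      have := ind_nonneg X b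
      simp only [Finsupp.coe_zero, Pi.zero_apply, Finsupp.add_apply, Finsupp.sub_apply]
      omega
    have hd' : (Y - ind Z + ind X).degree = M * C.r := by
      rw [map_add, map_sub, deg_ind, deg_ind, hX, hd, sub_add_cancel]
    have hs : Z.card + 1 ≤ (Y - ind Z + ind X).support.card := by
      rw [← hX, ← Finset.card_insert_of_notMem haX]
      refine Finset.card_le_card fun b hb => Finsupp.mem_support_iff.2 ?_
      have := h7 b
      have := ind_le_one Z b
      have := ind_nonneg X b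
      simp only [Finsupp.add_apply, Finsupp.sub_apply]
      rcases Finset.mem_insert.1 hb with rfl | hb
      · omega
      · rw [ind_of_mem hb]; omega
    obtain ⟨n', hn'⟩ := Int.le.dest (hcard _ hY')
    exact ih n' (by omega) hY' hd' (by omega) (mul_ne_zero H0 e0)
      (C.cast (C.mul hH hXL) (by abel) (add_zero _)) hn'

theorem loc [ProperSpace k] : ∃ M : ℕ, 0 < M ∧ ∀ n : ℕ, 0 < n → ∃ (Z : Finset U) (H : E),
    Z.card = n * M * C.r ∧ H ≠ 0 ∧ H ∈ C.L 0 (n * M : ℕ) ∧ ∀ a ∈ Z, C.ord a H = 1 := by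
  obtain ⟨M, hM, Y, H, hY, hd, hc, H0, hH⟩ := C.key
  refine ⟨M, hM, fun n hn => ?_⟩
  have h1 : ∀ n : ℕ, H ^ n ∈ C.L (-(n • Y)) (n * M : ℕ) := fun n => by
    induction n with
    | zero => simpa using C.one
    | succ n ih =>
      rw [pow_succ]
      exact C.cast (C.mul ih hH) (by rw [succ_nsmul]; abel) (by push_cast; ring)
  obtain ⟨Z, H', h2, h3, h4⟩ := C.split (Y := n • Y) (nsmul_nonneg hY n)
    (by rw [map_nsmul, hd]; push_cast; ring)
    (by rw [Finsupp.support_smul_eq hn.ne']; exact hc) (pow_ne_zero n H0) (h1 n)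
  refine ⟨Z, H', by exact_mod_cast h2, h3, C.mono (fun a => ?_) _ h4, fun a ha => ?_⟩
  · simpa using ind_nonneg Z a
  · have h5 := C.le_ord h4 h3 a
    rw [Finsupp.neg_apply, neg_neg, ind_of_mem ha] at h5
    by_contra hne
    have h6 : H' ∈ C.L (-ind Z - Finsupp.single a 1) (n * M : ℕ) := by
      refine C.of_ord h4 fun b => ?_
      have h7 := C.le_ord h4 h3 b
      by_cases e : a = b
      · subst e
        simp only [Finsupp.sub_apply, Finsupp.neg_apply, ind_of_mem ha, Finsupp.single_eq_same]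
        omega
      · simpa [Finsupp.single_eq_of_ne' e] using h7
    have h8 := C.deg_nonneg h6 h3
    rw [map_sub, map_neg, deg_ind, Finsupp.degree_single, h2] at h8
    omega

end Vale.Agent.P022K.MB.Cv
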