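import Vale.Agent.P022K.MB.RR1
import Vale.Agent.P022K.MB.Key

/-!
# P022K / MB / Loc: the local theorem LOC
-/

open Polynomial Module IsDedekindDomain WithZero Filter Topology
open scoped IntermediateField

namespace Vale.Agent.P022K.MB.RR

section Val

variable {E : Type*} [Field E] (v : Valuation E ℤᵐ⁰)

theorem val_almost {φ q : E} (hq : q ≠ 0) {m : ℤ} (h : ∀ n : ℕ, v (φ ^ n * q) ≤ exp (n * m))
    (hv : v q ≠ 0) : v φ ≤ exp m := by
  by_cases h0 : v φ = 0
  · rw [h0]; exact zero_le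
  refine le_exp_of_log_le (not_lt.1 fun hlt => ?_)
  have h1 := h ((-log (v q)).toNat + 1)
  rw [map_mul, map_pow, ← log_le_iff_le_exp (mul_ne_zero (pow_ne_zero _ h0) hv),
    log_mul (pow_ne_zero _ h0) hv, log_pow, nsmul_eq_mul] at h1
  have h2 := Int.self_le_toNat (-log (v q))
  push_cast at h1
  have h3 : (0 : ℤ) ≤ (-log (v q)).toNat := by positivity
  nlinarith

theorem le_exp_of_lt {a : ℤᵐ⁰} {n : ℤ} (h : a < exp (n + 1)) : a ≤ exp n := by
  by_cases h0 : a = 0
  · rw [h0]; exact zero_le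
  · exact le_exp_of_log_le (Int.lt_add_one_iff.1 ((log_lt_iff_lt_exp h0).2 h))

end Val

section Alg

variable {k E : Type*} [Field k] [Field E] [Algebra k E] {x : E}

theorem dedekind [CharZero k] (hx : Transcendental k x) [FiniteDimensional k⟮x⟯ E] :
    IsDedekindDomain (OO k x) ∧ IsFractionRing (OO k x) E := by
  open scoped IntermediateField.algebraAdjoinAdjoin in
  have : IsPrincipalIdealRing (Algebra.adjoin k {x}) :=
    IsPrincipalIdealRing.of_surjective _ (algEquivOfTranscendental k x hx).surjective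
  have : CharZero k⟮x⟯ := algebraRat.charZero _
  exact ⟨integralClosure.isDedekindDomain (Algebra.adjoin k {x}) k⟮x⟯ E,
    integralClosure.isFractionRing_of_finite_extension k⟮x⟯ E⟩

variable (x) in
/-- the function `x - c` -/
def lin (c : k) : OO k x := ⟨x, self_mem_OO k x⟩ - algebraMap k _ c

theorem coe_lin (c : k) : (lin x c : E) = x - algebraMap k E c := rfl

theorem lin_ne (hx : Transcendental k x) (c : k) : x - algebraMap k E c ≠ 0 := fun h =>
  hx (sub_eq_zero.1 h ▸ isAlgebraic_algebraMap c)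

/-- the place of a rational point -/
noncomputable def pt (hx : Transcendental k x) (e : OO k x →ₐ[k] k) :
    HeightOneSpectrum (OO k x) where
  asIdeal := RingHom.ker e
  isPrime := RingHom.ker_isPrime e
  ne_bot := fun h => by
    have h1 : lin x (e ⟨x, self_mem_OO k x⟩) ∈ RingHom.ker e := by simp [lin]
    rw [h, Ideal.mem_bot] at h1
    exact lin_ne hx _ (congrArg Subtype.val h1)

variable [IsDedekindDomain (OO k x)] [IsFractionRing (OO k x) E]

theorem val_le (Q : HeightOneSpectrum (OO k x)) {z : E} (hz : z ∈ OO k x) : Q.valuation E z ≤ 1 :=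
  Q.valuation_le_one (K := E) ⟨z, hz⟩

theorem val_lt (hx : Transcendental k x) (e : OO k x →ₐ[k] k) (h : OO k x) :
    (pt hx e).valuation E (h : E) < 1 ↔ e h = 0 :=
  (pt hx e).valuation_lt_one_iff_mem (K := E) h

theorem val_eq (hx : Transcendental k x) (e : OO k x →ₐ[k] k) (h : OO k x) :
    (pt hx e).valuation E (h : E) = 1 ↔ e h ≠ 0 :=
  (pt hx e).valuation_eq_one_iff_notMem (K := E) (r := h)

theorem exists_frac (hx : Transcendental k x) (e : OO k x →ₐ[k] k) {z : E}
    (hz : (pt hx e).valuation E z ≤ 1) : ∃ n d : OO k x, e d ≠ 0 ∧ z * d = n := by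
  obtain ⟨n, d, h⟩ := (pt hx e).exists_primeCompl_mul_eq_of_integer z hz
  exact ⟨n, d, d.2, h⟩

theorem exists_res (hx : Transcendental k x) (e : OO k x →ₐ[k] k) {z : E}
    (hz : (pt hx e).valuation E z ≤ 1) : ∃ c : k, (pt hx e).valuation E (z - algebraMap k E c) < 1 := by
  obtain ⟨n, d, hd, h⟩ := exists_frac hx e hz
  refine ⟨e n / e d, ?_⟩
  have h1 := (val_lt hx e (n - algebraMap k _ (e n / e d) * d)).2 (by simp [div_mul_cancel₀ _ hd])
  have h2 : ((n - algebraMap k _ (e n / e d) * d : OO k x) : E) =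
      (z - algebraMap k E (e n / e d)) * d := by
    rw [sub_mul, h]; rfl
  rwa [h2, map_mul, (val_eq hx e d).2 hd, mul_one] at h1

theorem exists_pole (Q : HeightOneSpectrum (OO k x)) : ∃ w : E, Q.valuation E w = exp 1 ∧
    ∀ Q' : HeightOneSpectrum (OO k x), Q' ≠ Q → Q'.valuation E w ≤ 1 := by
  obtain ⟨w, hw, hw'⟩ := FractionalIdeal.exists_notMem_one_of_ne_bot (K := E) Q.ne_bot
    Q.isPrime.ne_top
  rw [FractionalIdeal.mem_inv_iff (FractionalIdeal.coeIdeal_ne_zero.2 Q.ne_bot)] at hw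
  have h1 : ∀ m ∈ Q.asIdeal, ∀ Q' : HeightOneSpectrum (OO k x),
      Q'.valuation E w * Q'.valuation E (algebraMap _ E m) ≤ 1 := fun m hm Q' => by
    obtain ⟨y, hy⟩ := (FractionalIdeal.mem_one_iff _).1
      (hw _ (FractionalIdeal.mem_coeIdeal_of_mem _ hm))
    rw [← map_mul, ← hy]
    exact Q'.valuation_le_one y
  have h2 : ∀ Q' : HeightOneSpectrum (OO k x), Q' ≠ Q → Q'.valuation E w ≤ 1 := fun Q' hQ => by
    obtain ⟨m, hm, hm'⟩ := SetLike.not_le_iff_exists.1 fun h : Q.asIdeal ≤ Q'.asIdeal =>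
      hQ (HeightOneSpectrum.ext (Q.isMaximal.eq_of_le Q'.isPrime.ne_top h).symm)
    have := h1 m hm Q'
    rwa [(Q'.valuation_eq_one_iff_notMem (K := E)).2 hm', mul_one] at this
  refine ⟨w, le_antisymm ?_ (not_lt.1 fun h => hw' ?_), h2⟩
  · obtain ⟨m, hm⟩ := Q.valuation_exists_uniformizer' E
    have h3 := h1 m ((Q.valuation_lt_one_iff_mem (K := E) m).1
      (by rw [hm, ← exp_zero, exp_lt_exp]; norm_num)) Q
    have hm' : Q.valuation E (algebraMap _ E m) = exp (-1) := hm
    rwa [hm', exp_neg, mul_inv_le_iff₀ exp_pos, one_mul] at h3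
  · refine (FractionalIdeal.mem_one_iff _).2
      (HeightOneSpectrum.mem_integers_of_valuation_le_one E w fun Q' => ?_)
    by_cases e : Q' = Q
    · rw [e]
      exact le_exp_of_lt (n := 0) (by simpa using h)
    · exact h2 Q' e

variable {ι : Type*}

/-- functions with poles at most `D` in the affine part -/
def N (P : ι → HeightOneSpectrum (OO k x)) (D : ι →₀ ℤ) : Submodule k E where
  carrier := {z | (∀ a, (P a).valuation E z ≤ exp (D a)) ∧
    ∀ Q : HeightOneSpectrum (OO k x), (∀ a, Q ≠ P a) → Q.valuation E z ≤ 1}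
  add_mem' := fun ha hb => ⟨fun a => Valuation.map_add_le _ (ha.1 a) (hb.1 a),
    fun Q hQ => Valuation.map_add_le _ (ha.2 Q hQ) (hb.2 Q hQ)⟩
  zero_mem' := ⟨fun _ => by rw [map_zero]; exact zero_le, fun _ _ => by rw [map_zero]; exact zero_le⟩
  smul_mem' := fun c z hz => by
    have h : ∀ Q : HeightOneSpectrum (OO k x), Q.valuation E (c • z) ≤ Q.valuation E z := fun Q => by
      rw [Algebra.smul_def, map_mul]
      exact mul_le_of_le_one_left' (val_le Q (Subalgebra.algebraMap_mem _ c))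
    exact ⟨fun a => (h _).trans (hz.1 a), fun Q hQ => (h _).trans (hz.2 Q hQ)⟩

theorem N_mul {P : ι → HeightOneSpectrum (OO k x)} {D D' : ι →₀ ℤ} {z w : E} (hz : z ∈ N P D)
    (hw : w ∈ N P D') : z * w ∈ N P (D + D') :=
  ⟨fun a => by
    rw [map_mul, Finsupp.add_apply, exp_add]
    exact mul_le_mul' (hz.1 a) (hw.1 a), fun Q hQ => by
    rw [map_mul]
    exact mul_le_one' (hz.2 Q hQ) (hw.2 Q hQ)⟩

theorem N_zero (P : ι → HeightOneSpectrum (OO k x)) : N P 0 = (OO k x).toSubmodule := by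
  ext z
  refine ⟨fun h => ?_, fun h => ⟨fun a => val_le _ h, fun Q _ => val_le _ h⟩⟩
  obtain ⟨y, rfl⟩ := HeightOneSpectrum.mem_integers_of_valuation_le_one (R := OO k x) E z fun Q => by
    by_cases hQ : ∀ a, Q ≠ P a
    · exact h.2 Q hQ
    · push Not at hQ
      obtain ⟨a, rfl⟩ := hQ
      exact h.1 a
  exact y.2

theorem fam (hx : Transcendental k x) (ξ : ι → k) (e : ι → (OO k x →ₐ[k] k))
    (hv : ∀ a b, (pt hx (e a)).valuation E (x - algebraMap k E (ξ b)) =
      exp (-Finsupp.single b (1 : ℤ) a)) : Fam k x (N fun a => pt hx (e a)) := by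
  classical
  have hinj : ∀ a b, pt hx (e a) = pt hx (e b) → a = b := fun a b h => by
    by_contra hn
    have h1 := hv a b
    rw [h, hv b b, exp_inj, Finsupp.single_eq_same, Finsupp.single_eq_of_ne hn] at h1
    omega
  refine ⟨N_zero _, fun hz hw => ?_, fun D a z hz => ⟨fun b => (hz.1 b).trans ?_, hz.2⟩,
    fun {D a z w} hz hz' hw => ?_, fun D a => ?_⟩
  · simpa using N_mul hz ((N_zero _).ge hw)
  · rw [exp_le_exp, Finsupp.add_apply, Finsupp.single_apply]
    split_ifs <;> omega
  · have hb : ∀ {y}, y ∈ N (fun a => pt hx (e a)) (D + Finsupp.single a 1) →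
        (pt hx (e a)).valuation E y ≤ exp (D a) → y ∈ N (fun a => pt hx (e a)) D :=
      fun {y} hy hy' => ⟨fun b => by
        by_cases hab : b = a
        · rwa [hab]
        · simpa [Finsupp.single_eq_of_ne hab] using hy.1 b, hy.2⟩
    have h1 : (pt hx (e a)).valuation E z = exp (D a + 1) :=
      le_antisymm (by simpa using hz.1 a) (not_lt.1 fun h => hz' (hb hz (le_exp_of_lt h)))
    have z0 : z ≠ 0 := fun h => hz' (h ▸ zero_mem _)
    obtain ⟨c, hc⟩ := exists_res hx (e a) (z := w / z) (by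
      rw [map_div₀, h1, div_le_one₀ exp_pos]
      simpa using hw.1 a)
    refine ⟨c, hb (sub_mem hw (Submodule.smul_mem _ c hz)) (le_exp_of_lt ?_)⟩
    have h2 : w - c • z = (w / z - algebraMap k E c) * z := by
      rw [sub_mul, div_mul_cancel₀ _ z0, Algebra.smul_def]
    rw [h2, map_mul, h1]
    exact mul_lt_of_lt_one_left exp_pos hc
  · obtain ⟨w, hw, hw'⟩ := exists_pole (pt hx (e a))
    have h1 : ∀ n : ℤ, ∃ u : E, (pt hx (e a)).valuation E u = exp n ∧
        ∀ Q : HeightOneSpectrum (OO k x), Q ≠ pt hx (e a) → Q.valuation E u ≤ 1 := fun n => by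
      obtain ⟨m, rfl | rfl⟩ := Int.eq_nat_or_neg n
      · exact ⟨w ^ m, by rw [map_pow, hw, ← exp_nsmul]; simp, fun Q hQ => by
          rw [map_pow]; exact pow_le_one' (hw' Q hQ) m⟩
      · exact ⟨(x - algebraMap k E (ξ a)) ^ m, by rw [map_pow, hv, ← exp_nsmul]; simp,
          fun Q _ => by rw [map_pow]; exact pow_le_one' (val_le Q (lin x (ξ a)).2) m⟩
    obtain ⟨u, hu, hu'⟩ := h1 (D a + 1)
    let t : E := ∏ b ∈ D.support.erase a, (x - algebraMap k E (ξ b)) ^ (D b).natAbs
    have ht : ∀ b, (pt hx (e b)).valuation E t =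
        exp (if b ∈ D.support.erase a then -((D b).natAbs : ℤ) else 0) := fun b => by
      simp only [t, map_prod, map_pow, hv, ← exp_nsmul]
      split_ifs with h
      · rw [Finset.prod_eq_single_of_mem b h fun c _ hc => by
          simp [Finsupp.single_eq_of_ne hc.symm]]
        simp
      · exact Finset.prod_eq_one fun c hc => by
          simp [Finsupp.single_eq_of_ne (show b ≠ c from fun e => h (e ▸ hc))]
    have h2 : (pt hx (e a)).valuation E (u * t) = exp (D a + 1) := by
      rw [map_mul, hu, ht, if_neg (Finset.notMem_erase a _), exp_zero, mul_one]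
    refine ⟨u * t, ⟨fun b => ?_, fun Q hQ => ?_⟩, fun h => ?_⟩
    · by_cases hab : b = a
      · rw [hab, h2]; simp
      · rw [map_mul, ht, Finsupp.add_apply, Finsupp.single_eq_of_ne hab, add_zero]
        refine (mul_le_of_le_one_left' (hu' _ fun h => hab (hinj _ _ h))).trans (exp_le_exp.2 ?_)
        split_ifs with h
        · omega
        · rw [Finsupp.notMem_support_iff.1 fun h' => h (Finset.mem_erase.2 ⟨hab, h'⟩)]
    · rw [map_mul]
      exact mul_le_one' (hu' Q (hQ a))
        (val_le Q (prod_mem fun b _ => pow_mem (lin x (ξ b)).2 _))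
    · have := h.1 a
      rw [h2, exp_le_exp] at this
      omega

end Alg

section An

variable {k E : Type*} [NontriviallyNormedField k] [CompleteSpace k] [Field E] [Algebra k E] {x : E}
  {U : Set k} (hU : IsOpen U) {ev : k → (OO k x →ₐ[k] k)}
  (h1 : ∀ ξ ∈ U, ev ξ ⟨x, self_mem_OO k x⟩ = ξ)
  (h2 : ∀ (h : OO k x), ∀ ξ ∈ U, AnalyticAt k (fun t => ev t h) ξ)
include hU h1 h2

theorem deriv_rel {a : k} (ha : a ∈ U) {h d n : OO k x} (e : h * d = lin x a * n)
    (h0 : ev a h = 0) : deriv (fun t => ev t h) a * ev a d = ev a n := by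
  have e1 := (h2 h a ha).differentiableAt.hasDerivAt.mul (h2 d a ha).differentiableAt.hasDerivAt
  have e2 := ((hasDerivAt_id a).sub_const a).mul (h2 n a ha).differentiableAt.hasDerivAt
  have e3 := e1.unique (e2.congr_of_eventuallyEq ((hU.eventually_mem ha).mono fun t ht => by
    simp only [Pi.mul_apply, ← map_mul, e]
    simp [lin, h1 t ht]))
  simpa [h0] using e3

variable [IsDedekindDomain (OO k x)] [IsFractionRing (OO k x) E]

theorem val_lin (hx : Transcendental k x) (a b : U) :
    (pt hx (ev a)).valuation E (x - algebraMap k E b) = exp (-Finsupp.single b (1 : ℤ) a) := by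
  by_cases hab : a = b
  · subst hab
    rw [Finsupp.single_eq_same]
    have h3 := (val_lt hx (ev a) (lin x (a : k))).2 (by simp [lin, h1 a a.2])
    refine le_antisymm (le_exp_of_lt (by simpa [coe_lin] using h3)) (not_lt.1 fun h => ?_)
    obtain ⟨m, hm⟩ := (pt hx (ev a)).valuation_exists_uniformizer' E
    have hm' : (pt hx (ev a)).valuation E (m : E) = exp (-1) := hm
    have m0 : (m : E) ≠ 0 := fun e => by simp [e] at hm'; exact exp_ne_zero hm'.symm
    have hm0 := (val_lt hx (ev a) m).1 (by rw [hm', ← exp_zero, exp_lt_exp]; norm_num)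
    obtain ⟨n, d, hd, e⟩ := exists_frac hx (ev a) (z := (x - algebraMap k E a) / (m * m)) (by
      rw [map_div₀, map_mul, hm', ← exp_add, div_le_one₀ exp_pos]
      exact le_exp_of_lt (by simpa using h))
    have e' : m * (m * n) = lin x (a : k) * d := Subtype.ext (by
      simp only [MulMemClass.coe_mul, coe_lin, ← e]
      field_simp)
    have := deriv_rel hU h1 h2 a.2 e' hm0
    rw [map_mul, hm0, zero_mul, mul_zero] at this
    exact hd this.symm
  · rw [Finsupp.single_eq_of_ne hab, neg_zero, exp_zero]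
    exact (val_eq hx (ev a) (lin x (b : k))).2 (by
      simpa [lin, h1 a a.2, sub_eq_zero] using fun e => hab (Subtype.ext e))

theorem deriv_ne (hx : Transcendental k x) (a : U) {h : OO k x}
    (hv : (pt hx (ev a)).valuation E (h : E) = exp (-1)) : deriv (fun t => ev t h) a ≠ 0 := by
  have h3 := val_lin hU h1 h2 hx a a
  rw [Finsupp.single_eq_same] at h3
  have h4 : (pt hx (ev a)).valuation E (h / (x - algebraMap k E a)) = 1 := by
    rw [map_div₀, hv, h3, div_self exp_ne_zero]
  obtain ⟨n, d, hd, e⟩ := exists_frac hx (ev a) h4.le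
  have hn : ev a n ≠ 0 := (val_eq hx (ev a) n).1 (by
    rw [← e, map_mul, h4, one_mul, (val_eq hx (ev a) d).2 hd])
  have e' : h * d = lin x (a : k) * n := Subtype.ext (by
    have := lin_ne hx (a : k)
    simp only [MulMemClass.coe_mul, coe_lin, ← e]
    field_simp)
  have := deriv_rel hU h1 h2 a.2 e'
    ((val_lt hx (ev a) h).1 (by rw [hv, ← exp_zero, exp_lt_exp]; norm_num))
  exact fun e0 => hn (by rw [← this, e0, zero_mul])

end An

theorem loc : LOC := by
  intro k _ _ _ E _ _ x hx _ hc U hU hU' ev h1 h2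
  obtain ⟨_, _⟩ := dedekind hx
  have hv := val_lin hU h1 h2 hx
  have F := fam hx (fun a : U => (a : k)) (fun a => ev a) hv
  obtain ⟨g, c, R1, R2⟩ := F.riemann hx hc
  obtain ⟨p, hp⟩ := (OO k x).toSubmodule.subtype.exists_leftInverse_of_injective
    (Submodule.ker_subtype _)
  have hp' : ∀ z (hz : z ∈ OO k x), p z = ⟨z, hz⟩ := fun z hz => LinearMap.congr_fun hp ⟨z, hz⟩
  have v0 : ∀ (a : U) {z : E}, z ≠ 0 → (pt hx (ev a)).valuation E z ≠ 0 := fun a _ hz =>
    (Valuation.ne_zero_iff _).2 hz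
  let C : Cv k E U :=
    { r := finrank k⟮x⟯ E
      g := g
      c := c
      x := x
      L := fun D j => N (fun a : U => pt hx (ev a)) D ⊓ T k x j
      ord := fun a z => -log ((pt hx (ev a)).valuation E z)
      ev := fun ξ => (ev ξ).toLinearMap.comp p
      isOpen := hU
      nonempty := hU'
      r_pos := finrank_pos
      fin := F.fin hx
      one := ⟨F.zero.ge (OO k x).one_mem, by simpa using zpow_mem_T (k := k) x 0⟩
      mul := fun hz hw => ⟨N_mul hz.1 hw.1, T_mul hz.2 hw.2⟩
      lin := fun a => ⟨⟨fun b => (hv b a).le, fun Q _ => val_le Q (lin x (a : k)).2⟩,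
        sub_mem (by simpa using zpow_mem_T (k := k) x 1) (T_mono zero_le_one fun R _ => by
          simpa using R.2 a)⟩
      lin_ne := lin_ne hx
      le_ord := fun hz z0 a => neg_le_neg ((log_le_iff_le_exp (v0 a z0)).2 (hz.1.1 a))
      ord_mul := fun a _ _ hz hw => by rw [map_mul, log_mul (v0 a hz) (v0 a hw), neg_add]
      ord_lin := fun a b => by rw [hv, log_exp, neg_neg]
      of_ord := fun hz h => ⟨⟨fun a => le_exp_of_log_le (neg_le_neg_iff.1 (h a)), hz.1.2⟩, hz.2⟩
      R1 := R1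
      R2 := R2
      const := fun z hz => (hc z (OT_zero (F.zero.le hz.1) hz.2).isAlgebraic).imp
        fun _ => Eq.symm
      ai := fun {φ q A j} hq h => ⟨⟨fun a => val_almost _ hq
          (fun n => by simpa using (h n).1.1 a) (v0 a hq),
        fun Q hQ => val_almost (m := 0) _ hq (fun n => by simpa using (h n).1.2 Q hQ)
          ((Valuation.ne_zero_iff _).2 hq)⟩, fun R hR => by
        simpa using R.almost hx (mul_ne_zero hq (zpow_ne_zero (-j) (ne_zero_of hx)))
          fun n => mul_assoc (φ ^ n) q _ ▸ (h n).2 R hR⟩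
      ev_zero := fun {j z} a hz z0 => by
        have hz' : z ∈ OO k x := F.zero.le hz.1
        rw [LinearMap.comp_apply, hp' z hz', neg_pos, log_lt_iff_lt_exp (v0 a z0)]
        exact (val_lt hx (ev a) ⟨z, hz'⟩).symm
      ev_diff := fun {j z} a hz => by
        have hz' : z ∈ OO k x := F.zero.le hz.1
        simp only [LinearMap.comp_apply, hp' z hz']
        refine ⟨_, (h2 ⟨z, hz'⟩ a a.2).hasStrictDerivAt, fun z0 ho =>
          deriv_ne hU h1 h2 hx a (h := ⟨z, hz'⟩) ?_⟩
        rw [← exp_log (v0 a z0), ← ho, neg_neg] }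
  obtain ⟨M, hM, h⟩ := C.loc
  refine ⟨M, hM, fun n hn => ?_⟩
  obtain ⟨Z, H, hZ, H0, hH, ho⟩ := h n hn
  have hH' : H ∈ OO k x := F.zero.le hH.1
  refine ⟨⟨H, hH'⟩, Z.map (Function.Embedding.subtype _), mem_V_iff.2 ⟨hH', hH.2⟩,
    by rw [Finset.card_map, hZ], fun ξ hξ => ?_⟩
  obtain ⟨a, ha, rfl⟩ := Finset.mem_map.1 hξ
  have h3 : (pt hx (ev a)).valuation E H = exp (-1) := by
    rw [← exp_log (v0 a H0), ← ho a ha]
    exact congrArg exp (neg_neg _).symm
  exact ⟨a.2, (val_lt hx (ev a) ⟨H, hH'⟩).1 (by rw [h3, ← exp_zero, exp_lt_exp]; norm_num),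
    deriv_ne hU h1 h2 hx a (h := ⟨H, hH'⟩) h3⟩

end Vale.Agent.P022K.MB.RR
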