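import Vale.Agent.P022K.MB.Glob
import Vale.Agent.P022K.MB.Loc

/-!
# P022K / MB: Moret-Bailly's theorem for plane curves and for hypersurfaces
-/

namespace Vale.Agent.P022K.MB

theorem core : CORE := core_of_loc RR.loc

theorem mbd : MBD := mbd_of_core core

end Vale.Agent.P022K.MB
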