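import Vale.Agent.P022K.MB.MBQ
import Vale.Agent.P022K.MB.Main
import Vale.Agent.P022K.MB.Alg
import Vale.Agent.P022K.CH.Fld

/-!
# P022K / MB: Moret-Bailly over `ℚ` in the language of decomposition groups
-/

namespace Vale.Agent.P022K.MB

open Polynomial NumberField Filter Topology Vale.Agent.P022 Vale.Agent.P022D.Loc2
open Vale.Agent.P022D.W (dec)
open Vale.Agent.P022E.GW (Ov)
open scoped Pointwise

theorem mbq : MBQ := mbq_of_core core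

theorem mbr : MBR := mbr_of_core core

section gen

variable {k Ω : Type} [Field k] [Field Ω] [Algebra k Ω] [Algebra ℚ Ω]

theorem exists_eq_comp (j j' : Qb →ₐ[ℚ] Ω) : ∃ s : GQ, ∀ x, j' x = j (s x) := by
  let _ : Algebra Qb Ω := j.toRingHom.toAlgebra
  have : IsScalarTower ℚ Qb Ω := IsScalarTower.of_algebraMap_eq fun x => (j.commutes x).symm
  exact ⟨j'.restrictNormal' Qb, fun x => (j'.restrictNormal_commutes Qb x).symm⟩

theorem exists_res (j : Qb →ₐ[ℚ] Ω) (γ : Ω ≃ₐ[k] Ω) : ∃ d : GQ, ∀ x, j (d x) = γ (j x) := by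
  obtain ⟨s, hs⟩ := exists_eq_comp j ((γ : Ω →+* Ω).toRatAlgHom.comp j)
  exact ⟨s, fun x => (hs x).symm⟩

variable (k) in
/-- the local Galois elements that restrict into `N` -/
def loc (j : Qb →ₐ[ℚ] Ω) (N : Subgroup GQ) : Subgroup (Ω ≃ₐ[k] Ω) where
  carrier := {γ | ∃ n ∈ N, ∀ x, j (n x) = γ (j x)}
  mul_mem' := by
    rintro γ γ' ⟨n, hn, e⟩ ⟨n', hn', e'⟩
    exact ⟨n * n', N.mul_mem hn hn', fun x => by
      rw [AlgEquiv.mul_apply, AlgEquiv.mul_apply, e, e']⟩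
  one_mem' := ⟨1, N.one_mem, fun _ => rfl⟩
  inv_mem' := by
    rintro γ ⟨n, hn, e⟩
    refine ⟨n⁻¹, N.inv_mem hn, fun x => γ.injective ?_⟩
    rw [← e, ← AlgEquiv.mul_apply, ← AlgEquiv.mul_apply, mul_inv_cancel, mul_inv_cancel]
    rfl

variable (k) in
/-- the local field cut out by `V` -/
noncomputable abbrev Lf (j : Qb →ₐ[ℚ] Ω) (V : Subgroup GQ) : IntermediateField k Ω :=
  IntermediateField.fixedField (loc k j V)

variable {j : Qb →ₐ[ℚ] Ω} {G D : Subgroup GQ}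
  (hG : ∀ d, d ∈ G ↔ ∃ γ : Ω ≃ₐ[k] Ω, ∀ x, j (d x) = γ (j x))
include hG

theorem loc_open [IsGalois k Ω] {N : Subgroup GQ} (hN : IsOpen (N : Set GQ)) (h : N ⊓ G ≤ D) :
    IsOpen (loc k j D : Set (Ω ≃ₐ[k] Ω)) := by
  obtain ⟨θ, hθ⟩ := exists_stab_le N hN
  refine Subgroup.isOpen_mono (H₁ := MulAction.stabilizer _ (j θ)) (fun γ hγ => ?_)
    (stabilizer_isOpen_of_isIntegral _)
  obtain ⟨d, hd⟩ := exists_res j γ
  exact ⟨d, h ⟨hθ d (j.toRingHom.injective ((hd θ).trans hγ)), (hG d).2 ⟨γ, hd⟩⟩, hd⟩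

theorem loc_normal (hn : ∀ g ∈ G, ∀ d ∈ D, g * d * g⁻¹ ∈ D) : (loc k j D).Normal := by
  refine ⟨?_⟩
  rintro γ ⟨n, hnV, e⟩ β
  obtain ⟨d, hd⟩ := exists_res j β
  refine ⟨d * n * d⁻¹, hn d ((hG d).2 ⟨β, hd⟩) n hnV, fun x => ?_⟩
  rw [AlgEquiv.mul_apply, AlgEquiv.mul_apply, AlgEquiv.mul_apply, AlgEquiv.mul_apply, hd, e]
  congr 2
  apply β.injective
  rw [← hd, ← AlgEquiv.mul_apply, ← AlgEquiv.mul_apply, mul_inv_cancel, mul_inv_cancel]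
  rfl

theorem Lf_fix [IsGalois k Ω] {N : Subgroup GQ} (hN : IsOpen (N : Set GQ)) (h : N ⊓ G ≤ D) :
    (Lf k j D).fixingSubgroup = loc k j D :=
  InfiniteGalois.fixingSubgroup_fixedField
    ⟨loc k j D, (loc k j D).isClosed_of_isOpen (loc_open hG hN h)⟩

theorem Lf_fin [IsGalois k Ω] {N : Subgroup GQ} (hN : IsOpen (N : Set GQ)) (h : N ⊓ G ≤ D) :
    FiniteDimensional k (Lf k j D) :=
  (InfiniteGalois.isOpen_iff_finite _).1 (by rw [Lf_fix hG hN h]; exact loc_open hG hN h)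

theorem Lf_gal [IsGalois k Ω] {N : Subgroup GQ} (hN : IsOpen (N : Set GQ)) (h : N ⊓ G ≤ D)
    (hn : ∀ g ∈ G, ∀ d ∈ D, g * d * g⁻¹ ∈ D) : IsGalois k (Lf k j D) :=
  (InfiniteGalois.normal_iff_isGalois _).1 (by rw [Lf_fix hG hN h]; exact loc_normal hG hn)

theorem mem_Lf (hD : D ≤ G) {x : Qb} : j x ∈ Lf k j D ↔ ∀ n ∈ D, n x = x := by
  constructor
  · intro hx n hn
    obtain ⟨γ, hγ⟩ := (hG n).1 (hD hn)
    exact j.toRingHom.injective ((hγ x).trans (hx ⟨γ, n, hn, hγ⟩))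
  · rintro hx ⟨γ, n, hn, e⟩
    exact (e x).symm.trans (congrArg j (hx n hn))

/-- an automorphism of the local field is induced by the decomposition group -/
theorem exists_dec [IsGalois k Ω] (L : IntermediateField k Ω) (τ : L ≃ₐ[k] L) :
    ∃ d ∈ G, ∀ (x : Qb) (q : L), j x = τ q → j (d x) = q := by
  obtain ⟨d, hd⟩ := exists_res j (τ.symm.liftNormal Ω)
  refine ⟨d, (hG d).2 ⟨_, hd⟩, fun x q e => ?_⟩
  rw [hd, e]
  exact (τ.symm.liftNormal_commutes Ω (τ q)).trans (congrArg Subtype.val (τ.symm_apply_apply q))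

end gen

section emb

variable {l : ℕ} [hl : Fact l.Prime] {P : Ideal (𝓞 Qb)} {j : Qb →ₐ[ℚ] PadicAlgCl l}

/-- the embedding `j` induces the prime `P` -/
def Emb (P : Ideal (𝓞 Qb)) (j : Qb →ₐ[ℚ] PadicAlgCl l) : Prop :=
  ∀ x : 𝓞 Qb, x ∈ P ↔ ‖j x‖ < 1

theorem exists_emb (h : Ov l P) : ∃ j : Qb →ₐ[ℚ] PadicAlgCl l, Emb P j := by
  obtain ⟨s, rfl⟩ := CH.Fld.ov_conj ⟨h.1, PP_prime l, p_mem_PP l⟩ h
  exact ⟨(io l).comp ((s⁻¹ : GQ) : Qb →ₐ[ℚ] Qb), fun x =>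
    Ideal.mem_pointwise_smul_iff_inv_smul_mem.trans (mem_PP l)⟩

theorem exists_emb' (j : Qb →ₐ[ℚ] PadicAlgCl l) : ∃ P, Emb P j := by
  obtain ⟨s, hs⟩ := exists_eq_comp (io l) j
  refine ⟨s⁻¹ • PP l, fun x => ?_⟩
  rw [hs, Ideal.mem_pointwise_smul_iff_inv_smul_mem, inv_inv]
  rfl

theorem Emb.eq (h : Emb P j) : ∃ s : GQ, (∀ x, j x = io l (s⁻¹ x)) ∧ P = s • PP l := by
  obtain ⟨s, hs⟩ := exists_eq_comp (io l) j
  refine ⟨s⁻¹, hs, Ideal.ext fun x => ?_⟩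
  rw [h x, hs, Ideal.mem_pointwise_smul_iff_inv_smul_mem, inv_inv]
  rfl

theorem Emb.ov (h : Emb P j) : Ov l P := by
  obtain ⟨s, -, rfl⟩ := h.eq
  exact CH.Fld.ov_smul ⟨hl.out, PP_prime l, p_mem_PP l⟩ s

theorem Emb.mem_dec (h : Emb P j) (d : GQ) :
    d ∈ dec P ↔ ∃ γ : Gal(PadicAlgCl l / ℚ_[l]), ∀ x, j (d x) = γ (j x) := by
  obtain ⟨s, hs, rfl⟩ := h.eq
  rw [CH.Fld.mem_dec_smul]
  refine (range_jj l _).trans (exists_congr fun γ => ⟨fun e x => ?_, fun e => ?_⟩)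
  · rw [hs, hs, ← io_jj, e, ← AlgEquiv.mul_apply, ← AlgEquiv.mul_apply, mul_inv_cancel_right]
  · refine AlgEquiv.ext fun x => io_inj l ?_
    have := e (s x)
    rw [hs, hs, ← AlgEquiv.mul_apply s⁻¹ s, inv_mul_cancel, AlgEquiv.one_apply] at this
    rw [io_jj, ← this]
    rfl

theorem Emb.norm_dec (h : Emb P j) {d : GQ} (hd : d ∈ dec P) (x : Qb) : ‖j (d x)‖ = ‖j x‖ := by
  obtain ⟨γ, hγ⟩ := (h.mem_dec d).1 hd
  rw [hγ]
  exact (spectralNorm_eq_of_equiv γ _).symm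

theorem norm_int' (j : Qb →ₐ[ℚ] PadicAlgCl l) (x : 𝓞 Qb) : ‖j x‖ ≤ 1 := by
  obtain ⟨s, hs⟩ := exists_eq_comp (io l) j
  rw [hs]
  exact norm_int l (s • x)

theorem Emb.norm_eq_one (h : Emb P j) {x : 𝓞 Qb} (hx : x ∉ P) : ‖j x‖ = 1 :=
  le_antisymm (norm_int' j x) (not_lt.1 fun e => hx ((h x).2 e))

/-- the maximal ideal of the valuation ring of `j` is the localisation of `P` -/
theorem Emb.norm_lt_one_iff (h : Emb P j) (x : Qb) :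
    ‖j x‖ < 1 ↔ ∃ n d : 𝓞 Qb, n ∈ P ∧ d ∉ P ∧ x * d = n := by
  constructor
  · obtain ⟨s, hs, rfl⟩ := h.eq
    intro hx
    obtain ⟨n, d, hn, hd, e⟩ := frac l (s⁻¹ x) (by rwa [← hs])
    refine ⟨s • n, s • d, Ideal.smul_mem_pointwise_smul_iff.2 hn,
      fun e => hd (Ideal.smul_mem_pointwise_smul_iff.1 e), ?_⟩
    have := congrArg s e
    rw [map_mul, ← AlgEquiv.mul_apply, mul_inv_cancel, AlgEquiv.one_apply] at this
    exact this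
  · rintro ⟨n, d, hn, hd, e⟩
    have := (h n).1 hn
    rwa [← e, map_mul, norm_mul, h.norm_eq_one hd, mul_one] at this

end emb

/-- **MBG**: Moret-Bailly for a hypersurface, local points given as algebraic points fixed by
`V i ⊓ dec (P i)`, resp. real for `j₀`. -/
theorem mbg {ι : Type} [Finite ι] (l : ι → ℕ) [∀ i, Fact (l i).Prime] (hl : Function.Injective l)
    (P : ι → Ideal (𝓞 Qb)) (j : ∀ i, Qb →ₐ[ℚ] PadicAlgCl (l i)) (hj : ∀ i, Emb (P i) (j i))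
    (V : ι → Subgroup GQ) (hV : ∀ i, IsOpen (V i : Set GQ))
    (hn : ∀ i, ∀ d ∈ dec (P i), ∀ n ∈ V i ⊓ dec (P i), d * n * d⁻¹ ∈ V i) (j₀ : Qb →ₐ[ℚ] ℂ)
    {σ : Type} [Finite σ] (f : (MvPolynomial σ ℚ)[X]) (hm : f.Monic)
    (hirr : Irreducible (f.map (MvPolynomial.map (algebraMap ℚ Qb))))
    (a₀ : σ → Qb) (b₀ : Qb) (ha₀ : ∀ n, (j₀ (a₀ n)).im = 0) (hb₀ : (j₀ b₀).im = 0)
    (h00 : evl ℚ a₀ b₀ f = 0) (h01 : evl ℚ a₀ b₀ (derivative f) ≠ 0) (W₀ : Set ((σ → ℂ) × ℂ))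
    (hW₀ : W₀ ∈ 𝓝 (fun n => j₀ (a₀ n), j₀ b₀)) (a : ι → σ → Qb) (b : ι → Qb)
    (hab : ∀ i, ∀ d ∈ V i ⊓ dec (P i), (∀ n, d (a i n) = a i n) ∧ d (b i) = b i)
    (h0 : ∀ i, evl ℚ (a i) (b i) f = 0) (h1 : ∀ i, evl ℚ (a i) (b i) (derivative f) ≠ 0)
    (W : ∀ i, Set ((σ → PadicAlgCl (l i)) × PadicAlgCl (l i)))
    (hW : ∀ i, W i ∈ 𝓝 (fun n => j i (a i n), j i (b i))) (δ : MvPolynomial σ ℚ) (hδ : δ ≠ 0)
    (U : Subgroup GQ) (hU : IsOpen (U : Set GQ)) :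
    ∃ (t : σ → Qb) (y : Qb), evl ℚ t y f = 0 ∧ MvPolynomial.aeval t δ ≠ 0 ∧
      (∀ c : GQ, IsConj c → c ∈ fixAll t y) ∧ (∀ i, V i ⊓ dec (P i) ≤ fixAll t y) ∧
      Glue.Dsj (fixAll t y) U ∧ (∀ g : GQ, (fun n => j₀ (g (t n)), j₀ (g y)) ∈ W₀) ∧
      ∀ i (g : GQ), ∃ d ∈ dec (P i), (fun n => j i (d (g (t n))), j i (d (g y))) ∈ W i := by
  let D : ι → Subgroup GQ := fun i => V i ⊓ dec (P i)
  have := fun i => Lf_fin (D := D i) (hj i).mem_dec (hV i) le_rfl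
  have := fun i => Lf_gal (D := D i) (hj i).mem_dec (hV i) le_rfl fun g hg d hd =>
    ⟨hn i g hg d hd, (dec (P i)).mul_mem ((dec (P i)).mul_mem hg hd.2) ((dec (P i)).inv_mem hg)⟩
  have hL := fun i (x : Qb) => mem_Lf (D := D i) (hj i).mem_dec inf_le_right (x := x)
  let e : ∀ i, Lf ℚ_[l i] (j i) (D i) →ₐ[ℚ] PadicAlgCl (l i) := fun i =>
    (Lf ℚ_[l i] (j i) (D i)).val.toRingHom.toRatAlgHom
  let e₀ : ℝ →ₐ[ℚ] ℂ := IsScalarTower.toAlgHom ℚ ℝ ℂ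
  let a' : ∀ i, σ → Lf ℚ_[l i] (j i) (D i) := fun i n =>
    ⟨j i (a i n), (hL i _).2 fun d hd => (hab i d hd).1 n⟩
  let b' : ∀ i, Lf ℚ_[l i] (j i) (D i) := fun i =>
    ⟨j i (b i), (hL i _).2 fun d hd => (hab i d hd).2⟩
  have hr : ∀ x : Qb, (j₀ x).im = 0 → e₀ (j₀ x).re = j₀ x := fun x hx =>
    Complex.ext (Complex.ofReal_re _) ((Complex.ofReal_im _).trans hx.symm)
  have k₀ : ∀ p, e₀ (evl ℚ (fun n => (j₀ (a₀ n)).re) (j₀ b₀).re p) = j₀ (evl ℚ a₀ b₀ p) := by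
    intro p
    rw [map_evl, map_evl, hr _ hb₀, funext fun n => hr _ (ha₀ n)]
  have k₁ : ∀ i p, e i (evl ℚ (a' i) (b' i) p) = j i (evl ℚ (a i) (b i) p) := by
    intro i p
    rw [map_evl, map_evl]
    rfl
  obtain ⟨t, y, h2, h3, h4, h5, h6, h7⟩ := mbr ι l hl (fun i => Lf ℚ_[l i] (j i) (D i)) σ f hm hirr
    (fun n => (j₀ (a₀ n)).re) (j₀ b₀).re
    (e₀.toRingHom.injective (((k₀ f).trans (by rw [h00, map_zero])).trans (map_zero e₀).symm))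
    (fun h => h01 (j₀.toRingHom.injective (((k₀ _).symm.trans (by
      rw [evl_apply, h, map_zero])).trans (map_zero j₀).symm)))
    ((fun q : (σ → ℝ) × ℝ => (fun n => (q.1 n : ℂ), (q.2 : ℂ))) ⁻¹' W₀)
    (ContinuousAt.preimage_mem_nhds (Continuous.continuousAt (by fun_prop)) (by
      have h8 : (fun n => (((j₀ (a₀ n)).re : ℝ) : ℂ)) = fun n => j₀ (a₀ n) :=
        funext fun n => hr _ (ha₀ n)
      have h9 : (((j₀ b₀).re : ℝ) : ℂ) = j₀ b₀ := hr _ hb₀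
      simp only [h8, h9]
      exact hW₀)) a' b'
    (fun i => (e i).toRingHom.injective
      (((k₁ i f).trans (by rw [h0, map_zero])).trans (map_zero (e i)).symm))
    (fun i h => h1 i ((j i).toRingHom.injective (((k₁ i _).symm.trans (by
      rw [evl_apply, h, map_zero])).trans (map_zero (j i)).symm)))
    (fun i => (fun q : (σ → Lf ℚ_[l i] (j i) (D i)) × Lf ℚ_[l i] (j i) (D i) =>
      (fun n => (q.1 n : PadicAlgCl (l i)), (q.2 : PadicAlgCl (l i)))) ⁻¹' W i)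
    (fun i => ContinuousAt.preimage_mem_nhds (Continuous.continuousAt (by fun_prop)) (hW i))
    δ hδ U hU
  refine ⟨t, y, h2, h3, h6, fun i n hn' g => ?_, h7, fun g => ?_, fun i g => ?_⟩
  · obtain ⟨q, -, τ, h8, h9⟩ := h5 i _ (e i) ((j i).comp (g : Qb →ₐ[ℚ] Qb))
    exact ⟨fun m => (hL i _).1 ((h8 m).symm ▸ (τ (q.1 m)).2) n hn',
      (hL i _).1 (h9.symm ▸ (τ q.2).2) n hn'⟩
  · obtain ⟨q, hq, h8, h9⟩ := h4 (j₀.comp (g : Qb →ₐ[ℚ] Qb))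
    rw [show (fun n => j₀ (g (t n))) = _ from funext h8, show j₀ (g y) = _ from h9]
    exact hq
  · obtain ⟨q, hq, τ, h8, h9⟩ := h5 i _ (e i) ((j i).comp (g : Qb →ₐ[ℚ] Qb))
    obtain ⟨d, hd, h10⟩ := exists_dec (hj i).mem_dec _ τ
    refine ⟨d, hd, ?_⟩
    rw [funext fun n => h10 (g (t n)) _ (h8 n), h10 (g y) _ h9]
    exact hq

end Vale.Agent.P022K.MB
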