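import Vale.Agent.P022K.MB.Pts

/-!
# P022K / MB: Moret-Bailly over `ℚ`, with weak approximation proved and linear disjointness
-/

namespace Vale.Agent.P022K.MB

open Polynomial NumberField Vale.Agent.P022

/-- Weak approximation for `ℚ`; `π i` is the residue characteristic of `k i` (zero for `ℝ`). -/
theorem weak_approx {ι : Type*} [Finite ι] (k : ι → Type*) [∀ i, NontriviallyNormedField (k i)]
    [∀ i, Algebra ℚ (k i)] (π : ι → ℕ) (hπ : Function.Injective π)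
    (hd : ∀ i, DenseRange (algebraMap ℚ (k i))) (hp : ∀ i, π i = 0 ∨ (π i).Prime)
    (hn : ∀ i (q : ℕ), q.Prime → (‖(q : k i)‖ < 1 ↔ q = π i)) :
    DenseRange fun a : ℚ => fun i => algebraMap ℚ (k i) a := by
  let v : ι → AbsoluteValue ℚ ℝ := fun i =>
    (NormedField.toAbsoluteValue (k i)).comp (algebraMap ℚ (k i)).injective
  have hv : ∀ i a, v i a = ‖algebraMap ℚ (k i) a‖ := fun _ _ => rfl
  have h1 : ∀ i, (v i).IsNontrivial := by
    intro i
    obtain ⟨x, hx⟩ := NormedField.exists_one_lt_norm (k i)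
    obtain ⟨a, ha⟩ := (hd i).exists_mem_open (isOpen_lt continuous_const continuous_norm) ⟨x, hx⟩
    have ha' : 1 < v i a := ha
    exact ⟨a, fun h => by rw [h, map_zero] at ha'; exact absurd ha' (by norm_num), ha'.ne'⟩
  have h2 : ∀ i j, i ≠ j → (π i).Prime → ¬ (v i).IsEquiv (v j) := by
    intro i j hij hi h
    have := h.lt_one_iff (x := (π i : ℚ))
    rw [hv, hv, map_natCast, map_natCast, hn i _ hi, hn j _ hi] at this
    exact hij (hπ (this.1 rfl))
  have h3 := AbsoluteValue.denseRange_algebraMap_pi h1 fun i j hij h => by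
    rcases hp i with hi | hi
    · rcases hp j with hj | hj
      · exact hij (hπ (hi.trans hj.symm))
      · exact h2 j i hij.symm hj h.symm
    · exact h2 i j hij hi h
  let e : ∀ i, WithAbs (v i) → k i := fun i a => algebraMap ℚ (k i) (WithAbs.equiv (v i) a)
  have he : ∀ i, Continuous (e i) := fun i =>
    (AddMonoidHomClass.isometry_of_norm ((algebraMap ℚ (k i)).comp
      (WithAbs.equiv (v i)).toRingHom) fun _ => rfl).continuous
  have he' : ∀ i, DenseRange (e i) := fun i =>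
    Dense.mono (by rintro _ ⟨a, rfl⟩; exact ⟨(WithAbs.equiv (v i)).symm a, rfl⟩) (hd i)
  exact (DenseRange.piMap he').comp h3 (.piMap he)

theorem exists_inj_choice {κ : Type*} [Finite κ] (R : κ → ℕ → Prop)
    (h : ∀ c (S : Finset ℕ), ∃ ℓ, ℓ ∉ S ∧ R c ℓ) (S : Finset ℕ) :
    ∃ ℓ : κ → ℕ, Function.Injective ℓ ∧ ∀ c, ℓ c ∉ S ∧ R c (ℓ c) := by
  classical
  have := Fintype.ofFinite κ
  have key : ∀ T : Finset κ, ∃ ℓ : κ → ℕ, Set.InjOn ℓ T ∧ ∀ c ∈ T, ℓ c ∉ S ∧ R c (ℓ c) := by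
    intro T
    induction T using Finset.induction_on with
    | empty => exact ⟨fun _ => 0, by simp, by simp⟩
    | insert c T hc ih =>
      obtain ⟨ℓ, h1, h2⟩ := ih
      obtain ⟨q, hq, hR⟩ := h c (S ∪ T.image ℓ)
      have h3 : ∀ x ∈ T, Function.update ℓ c q x = ℓ x := fun x hx =>
        Function.update_of_ne (ne_of_mem_of_not_mem hx hc) _ _
      have h4 : ∀ x ∈ T, ℓ x ≠ q := fun x hx e =>
        hq (Finset.mem_union_right _ (Finset.mem_image.2 ⟨x, hx, e⟩))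
      refine ⟨Function.update ℓ c q, fun x hx y hy e => ?_, fun x hx => ?_⟩
      · rcases Finset.mem_insert.1 hx with rfl | hx' <;>
          rcases Finset.mem_insert.1 hy with rfl | hy'
        · rfl
        · rw [Function.update_self, h3 y hy'] at e
          exact absurd e.symm (h4 y hy')
        · rw [Function.update_self, h3 x hx'] at e
          exact absurd e (h4 x hx')
        · rw [h3 x hx', h3 y hy'] at e
          exact h1 hx' hy' e
      · rcases Finset.mem_insert.1 hx with rfl | hx'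
        · rw [Function.update_self]
          exact ⟨fun e => hq (Finset.mem_union_left _ e), hR⟩
        · rw [h3 x hx']
          exact h2 x hx'
  obtain ⟨ℓ, h1, h2⟩ := key Finset.univ
  exact ⟨ℓ, fun x y e => h1 (by simp) (by simp) e, fun c => h2 c (Finset.mem_univ c)⟩

/-- A local field `k` over `ℚ` with a finite Galois extension `l`. -/
structure LocF where
  k : Type
  l : Type
  [nk : NontriviallyNormedField k]
  [nl : NontriviallyNormedField l]
  [na : NormedAlgebra k l]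
  [pr : ProperSpace l]
  [ck : CompleteSpace k]
  [fd : FiniteDimensional k l]
  [ga : IsGalois k l]
  [qk : Algebra ℚ k]
  [ql : Algebra ℚ l]
  [st : IsScalarTower ℚ k l]

attribute [instance] LocF.nk LocF.nl LocF.na LocF.pr LocF.ck LocF.fd LocF.ga LocF.qk LocF.ql
  LocF.st

/-- the pointwise stabiliser of all conjugates of the point `(t, y)`: the group `G_F` of the
Galois closure `F` of the field of definition of the point -/
def fixAll {σ : Type} (t : σ → Qb) (y : Qb) : Subgroup GQ where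
  carrier := {h | ∀ τ : GQ, (∀ n, h (τ (t n)) = τ (t n)) ∧ h (τ y) = τ y}
  mul_mem' {g h} hg hh τ := ⟨fun n => by rw [AlgEquiv.mul_apply, (hh τ).1, (hg τ).1],
    by rw [AlgEquiv.mul_apply, (hh τ).2, (hg τ).2]⟩
  one_mem' _ := ⟨fun _ => rfl, rfl⟩
  inv_mem' {g} hg τ := ⟨fun n => g.injective ((g.apply_symm_apply _).trans ((hg τ).1 n).symm),
    g.injective ((g.apply_symm_apply _).trans (hg τ).2.symm)⟩

theorem fixAll_normal {σ : Type} (t : σ → Qb) (y : Qb) : (fixAll t y).Normal :=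
  ⟨fun _ hh g τ => ⟨fun n => (congrArg g ((hh (g⁻¹ * τ)).1 n)).trans (g.apply_symm_apply _),
    (congrArg g (hh (g⁻¹ * τ)).2).trans (g.apply_symm_apply _)⟩⟩

theorem finite_conj (x : Qb) : (Set.range fun τ : GQ => τ x).Finite := by
  have hx : IsIntegral ℚ x := Algebra.IsIntegral.isIntegral x
  refine ((minpoly ℚ x).rootSet_finite Qb).subset ?_
  rintro _ ⟨τ, rfl⟩
  rw [mem_rootSet_of_ne (minpoly.ne_zero hx), aeval_algHom_apply τ, minpoly.aeval, map_zero]

theorem fixAll_open {σ : Type} [Finite σ] (t : σ → Qb) (y : Qb) :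
    IsOpen (fixAll t y : Set GQ) := by
  have h : ∀ x : Qb, IsOpen {h : GQ | ∀ τ : GQ, h (τ x) = τ x} := fun x => by
    have : {h : GQ | ∀ τ : GQ, h (τ x) = τ x} =
        ⋂ z ∈ Set.range fun τ : GQ => τ x, (MulAction.stabilizer GQ z : Set GQ) := by
      ext h
      simp
    rw [this]
    exact (finite_conj x).isOpen_biInter fun z _ => stabilizer_isOpen_of_isIntegral z
  have : (fixAll t y : Set GQ) = (⋂ n, {h : GQ | ∀ τ : GQ, h (τ (t n)) = τ (t n)}) ∩
      {h : GQ | ∀ τ : GQ, h (τ y) = τ y} := by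
    ext h
    simp only [Set.mem_inter_iff, Set.mem_iInter]
    exact ⟨fun H => ⟨fun n τ => (H τ).1 n, fun τ => (H τ).2⟩, fun H τ => ⟨fun n => H.1 n τ, H.2 τ⟩⟩
  rw [this]
  exact (isOpen_iInter_of_finite fun n => h (t n)).inter (h y)

/-- MBQ: Moret-Bailly over `ℚ`. `π i` is the residue characteristic of `k i` (zero for `ℝ`); the
Galois closure of the field of the point is linearly disjoint from the field of `U`. -/
def MBQ : Prop :=
  ∀ (ι : Type) [Finite ι] (k l : ι → Type)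
    [∀ i, NontriviallyNormedField (k i)] [∀ i, NontriviallyNormedField (l i)]
    [∀ i, NormedAlgebra (k i) (l i)] [∀ i, ProperSpace (l i)] [∀ i, CompleteSpace (k i)]
    [∀ i, FiniteDimensional (k i) (l i)] [∀ i, IsGalois (k i) (l i)]
    [∀ i, Algebra ℚ (k i)] [∀ i, Algebra ℚ (l i)] [∀ i, IsScalarTower ℚ (k i) (l i)]
    (π : ι → ℕ), Function.Injective π → (∀ i, DenseRange (algebraMap ℚ (k i))) →
    (∀ i, π i = 0 ∨ (π i).Prime) → (∀ i (q : ℕ), q.Prime → (‖(q : k i)‖ < 1 ↔ q = π i)) →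
    ∀ (σ : Type) [Finite σ] (f : (MvPolynomial σ ℚ)[X]), f.Monic →
    Irreducible (f.map (MvPolynomial.map (algebraMap ℚ Qb))) →
    ∀ (a : ∀ i, σ → l i) (b : ∀ i, l i),
    (∀ i, f.eval₂ (MvPolynomial.aeval (a i)).toRingHom (b i) = 0) →
    (∀ i, (derivative f).eval₂ (MvPolynomial.aeval (a i)).toRingHom (b i) ≠ 0) →
    ∀ W : ∀ i, Set ((σ → l i) × l i), (∀ i, W i ∈ nhds (a i, b i)) →
    ∀ δ : MvPolynomial σ ℚ, δ ≠ 0 → ∀ U : Subgroup GQ, IsOpen (U : Set GQ) →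
    ∃ (t : σ → Qb) (y : Qb),
      f.eval₂ (MvPolynomial.aeval t).toRingHom y = 0 ∧ MvPolynomial.aeval t δ ≠ 0 ∧
      (∀ (i : ι) (Ω : Type) [Field Ω] [Algebra ℚ Ω] (e : l i →ₐ[ℚ] Ω) (j : Qb →ₐ[ℚ] Ω),
        ∃ p ∈ W i, ∃ τ : l i ≃ₐ[k i] l i, (∀ n, j (t n) = e (τ (p.1 n))) ∧ j y = e (τ p.2)) ∧
      ∀ g : GQ, ∃ h ∈ fixAll t y, g⁻¹ * h ∈ U

theorem padic_dense (p : ℕ) [Fact p.Prime] : DenseRange (algebraMap ℚ ℚ_[p]) :=
  Padic.denseRange_ratCast p

theorem padic_norm (p : ℕ) [hp : Fact p.Prime] (q : ℕ) (hq : q.Prime) :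
    ‖(q : ℚ_[p])‖ < 1 ↔ q = p := by
  rw [← Int.cast_natCast, Padic.norm_intCast_lt_one_iff, Int.natCast_dvd_natCast,
    Nat.prime_dvd_prime_iff_eq hp.out hq, eq_comm]

theorem mbq_of_mbd (hmbd : MBD) : MBQ := by
  intro ι _ k l _ _ _ _ _ _ _ _ _ _ π hπ hd hp hn σ _ f hm hirr a b h0 h1 W hW δ hδ U hU
  classical
  have := Fintype.ofFinite ι
  have : Finite (GQ ⧸ U) := U.quotient_finite_of_isOpen hU
  obtain ⟨ℓ, hℓ, hR⟩ := exists_inj_choice (fun (c : GQ ⧸ U) (ℓ : ℕ) =>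
    ∃ (_ : Fact ℓ.Prime) (φ : GQ), IsFrob ℓ φ ∧ c.out⁻¹ * φ ∈ U ∧
      ∃ (a : σ → ℚ_[ℓ]) (b : ℚ_[ℓ]), f.eval₂ (MvPolynomial.aeval a).toRingHom b = 0 ∧
        (derivative f).eval₂ (MvPolynomial.aeval a).toRingHom b ≠ 0)
    (fun c S => by
      obtain ⟨ℓ, hℓ, φ, h2, h3⟩ := pts f hm hirr U hU c.out S
      exact ⟨ℓ, h2, hℓ, φ, h3⟩) (Finset.univ.image π)
  choose hS hF φ hφ hφU a' b' h0' h1' using hR
  let D : ι ⊕ (GQ ⧸ U) → LocF :=
    Sum.elim (fun i => ⟨k i, l i⟩) fun c => ⟨ℚ_[ℓ c], ℚ_[ℓ c]⟩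
  obtain ⟨t, y, h2, h3, h4⟩ := hmbd ℚ (ι ⊕ (GQ ⧸ U)) (fun i => (D i).k) (fun i => (D i).l)
    (weak_approx _ (Sum.elim π ℓ)
      (hπ.sumElim hℓ fun i c e => hS c (Finset.mem_image.2 ⟨i, Finset.mem_univ i, e⟩))
      (fun i => match i with
        | .inl i => hd i
        | .inr c => padic_dense (ℓ c))
      (fun i => match i with
        | .inl i => hp i
        | .inr c => Or.inr (hF c).out)
      (fun i => match i with
        | .inl i => hn i
        | .inr c => padic_norm (ℓ c)))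
    σ f hm hirr
    (fun i => match i with
      | .inl i => a i
      | .inr c => a' c)
    (fun i => match i with
      | .inl i => b i
      | .inr c => b' c)
    (fun i => match i with
      | .inl i => h0 i
      | .inr c => h0' c)
    (fun i => match i with
      | .inl i => h1 i
      | .inr c => h1' c)
    (fun i => match i with
      | .inl i => W i
      | .inr _ => Set.univ)
    (fun i => match i with
      | .inl i => hW i
      | .inr _ => Filter.univ_mem) δ hδ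
  refine ⟨t, y, h2, h3, fun i => h4 (.inl i), fun g => ⟨φ (g : GQ ⧸ U), fun τ => ?_, ?_⟩⟩
  · generalize (g : GQ ⧸ U) = c
    obtain ⟨P, hP, hℓP, hdec⟩ := IsFrob.exists_dec (hF c).out (hφ c)
    have h5 := fun j : Qb →ₐ[ℚ] PadicAlgCl (ℓ c) => h4 (.inr c) (PadicAlgCl (ℓ c))
      (IsScalarTower.toAlgHom ℚ ℚ_[ℓ c] (PadicAlgCl (ℓ c))) (j.comp (τ : Qb →ₐ[ℚ] Qb))
    refine ⟨fun n => fix_dec (ℓ c) _ (fun j => ?_) hP hℓP hdec,
      fix_dec (ℓ c) _ (fun j => ?_) hP hℓP hdec⟩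
    · obtain ⟨p, -, ρ, h6, -⟩ := h5 j
      exact ⟨_, (h6 n).symm⟩
    · obtain ⟨p, -, ρ, -, h6⟩ := h5 j
      exact ⟨_, h6.symm⟩
  · have h5 : g⁻¹ * (g : GQ ⧸ U).out ∈ U := QuotientGroup.eq.1 (QuotientGroup.out_eq' _).symm
    have := U.mul_mem h5 (hφU (g : GQ ⧸ U))
    rwa [mul_assoc, mul_inv_cancel_left] at this

theorem mbq_of_core (h : CORE) : MBQ := mbq_of_mbd (mbd_of_core h)

/-- a prime `p` at which all conjugates of the point are `ℚ_p`-rational splits completely -/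
theorem mem_fixAll_of_split {σ : Type} {t : σ → Qb} {y : Qb} (p : ℕ) [Fact p.Prime]
    (h : ∀ j : Qb →ₐ[ℚ] PadicAlgCl p,
      (∀ n, ∃ a : ℚ_[p], algebraMap ℚ_[p] (PadicAlgCl p) a = j (t n)) ∧
        ∃ a : ℚ_[p], algebraMap ℚ_[p] (PadicAlgCl p) a = j y)
    {P : Ideal (𝓞 Qb)} (hP : P.IsPrime) (hpP : (p : 𝓞 Qb) ∈ P) {g : GQ}
    (hg : ∀ z : 𝓞 Qb, g • z ∈ P ↔ z ∈ P) : g ∈ fixAll t y := fun τ =>
  ⟨fun n => fix_dec p _ (fun j => (h (j.comp (τ : Qb →ₐ[ℚ] Qb))).1 n) hP hpP hg,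
    fix_dec p _ (fun j => (h (j.comp (τ : Qb →ₐ[ℚ] Qb))).2) hP hpP hg⟩

/-- MBR: Moret-Bailly over `ℚ` with the real place and finitely many primes `p i`, points over
finite Galois extensions `l i` of `ℚ_(p i)`. -/
def MBR : Prop :=
  ∀ (ι : Type) [Finite ι] (p : ι → ℕ) [∀ i, Fact (p i).Prime], Function.Injective p →
    ∀ (l : ι → Type) [∀ i, NontriviallyNormedField (l i)] [∀ i, NormedAlgebra ℚ_[p i] (l i)]
    [∀ i, FiniteDimensional ℚ_[p i] (l i)] [∀ i, IsGalois ℚ_[p i] (l i)] [∀ i, Algebra ℚ (l i)]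
    (σ : Type) [Finite σ] (f : (MvPolynomial σ ℚ)[X]), f.Monic →
    Irreducible (f.map (MvPolynomial.map (algebraMap ℚ Qb))) →
    ∀ (a₀ : σ → ℝ) (b₀ : ℝ), f.eval₂ (MvPolynomial.aeval a₀).toRingHom b₀ = 0 →
    (derivative f).eval₂ (MvPolynomial.aeval a₀).toRingHom b₀ ≠ 0 →
    ∀ W₀ : Set ((σ → ℝ) × ℝ), W₀ ∈ nhds (a₀, b₀) →
    ∀ (a : ∀ i, σ → l i) (b : ∀ i, l i),
    (∀ i, f.eval₂ (MvPolynomial.aeval (a i)).toRingHom (b i) = 0) →
    (∀ i, (derivative f).eval₂ (MvPolynomial.aeval (a i)).toRingHom (b i) ≠ 0) →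
    ∀ W : ∀ i, Set ((σ → l i) × l i), (∀ i, W i ∈ nhds (a i, b i)) →
    ∀ δ : MvPolynomial σ ℚ, δ ≠ 0 → ∀ U : Subgroup GQ, IsOpen (U : Set GQ) →
    ∃ (t : σ → Qb) (y : Qb),
      f.eval₂ (MvPolynomial.aeval t).toRingHom y = 0 ∧ MvPolynomial.aeval t δ ≠ 0 ∧
      (∀ j : Qb →ₐ[ℚ] ℂ, ∃ q ∈ W₀, (∀ n, j (t n) = (q.1 n : ℂ)) ∧ j y = (q.2 : ℂ)) ∧
      (∀ (i : ι) (Ω : Type) [Field Ω] [Algebra ℚ Ω] (e : l i →ₐ[ℚ] Ω) (j : Qb →ₐ[ℚ] Ω),
        ∃ q ∈ W i, ∃ τ : l i ≃ₐ[ℚ_[p i]] l i,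
          (∀ n, j (t n) = e (τ (q.1 n))) ∧ j y = e (τ q.2)) ∧
      (∀ c : GQ, IsConj c → c ∈ fixAll t y) ∧ ∀ g : GQ, ∃ h ∈ fixAll t y, g⁻¹ * h ∈ U

theorem mbr_of_mbq (hmbq : MBQ) : MBR := by
  intro ι _ p _ hp l _ _ _ _ _ σ _ f hm hirr a₀ b₀ h00 h01 W₀ hW₀ a b h0 h1 W hW δ hδ U hU
  have : ∀ i, ProperSpace (l i) := fun i => FiniteDimensional.proper ℚ_[p i] (l i)
  let D : Option ι → LocF := fun i => match i with
    | none => ⟨ℝ, ℝ⟩
    | some i => ⟨ℚ_[p i], l i⟩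
  have hp0 : ∀ i, p i ≠ 0 := fun i => (Fact.out : (p i).Prime).ne_zero
  obtain ⟨t, y, h2, h3, h4, h5⟩ := hmbq (Option ι) (fun i => (D i).k) (fun i => (D i).l)
    (fun i => i.elim 0 p)
    (fun i j e => match i, j, e with
      | none, none, _ => rfl
      | none, some j, e => absurd e.symm (hp0 j)
      | some i, none, e => absurd e (hp0 i)
      | some _, some _, e => congrArg some (hp e))
    (fun i => match i with
      | none => Rat.denseRange_cast (𝕜 := ℝ)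
      | some i => padic_dense (p i))
    (fun i => match i with
      | none => Or.inl rfl
      | some i => Or.inr (Fact.out : (p i).Prime))
    (fun i => match i with
      | none => fun q hq => iff_of_false (by
          change ¬ ‖(q : ℝ)‖ < 1
          rw [Real.norm_natCast, not_lt]
          exact_mod_cast hq.one_le) hq.ne_zero
      | some i => padic_norm (p i))
    σ f hm hirr
    (fun i => match i with
      | none => a₀
      | some i => a i)
    (fun i => match i with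
      | none => b₀
      | some i => b i)
    (fun i => match i with
      | none => h00
      | some i => h0 i)
    (fun i => match i with
      | none => h01
      | some i => h1 i)
    (fun i => match i with
      | none => W₀
      | some i => W i)
    (fun i => match i with
      | none => hW₀
      | some i => hW i) δ hδ U hU
  have h6 : ∀ j : Qb →ₐ[ℚ] ℂ, ∃ q ∈ W₀, (∀ n, j (t n) = (q.1 n : ℂ)) ∧ j y = (q.2 : ℂ) := by
    intro j
    obtain ⟨q, hq, τ, h7, h8⟩ := h4 none ℂ (IsScalarTower.toAlgHom ℚ ℝ ℂ) j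
    have hτ : ∀ x : ℝ, τ x = x := fun x => τ.commutes x
    exact ⟨q, hq, fun n => (h7 n).trans (congrArg _ (hτ _)), h8.trans (congrArg _ (hτ _))⟩
  refine ⟨t, y, h2, h3, h6, fun i => h4 (some i), fun c hc τ =>
    ⟨fun n => fix_conj _ (fun j => ?_) hc, fix_conj _ (fun j => ?_) hc⟩, h5⟩
  · obtain ⟨q, -, h7, -⟩ := h6 (j.comp (τ : Qb →ₐ[ℚ] Qb))
    exact ⟨_, (h7 n).symm⟩
  · obtain ⟨q, -, -, h7⟩ := h6 (j.comp (τ : Qb →ₐ[ℚ] Qb))
    exact ⟨_, h7.symm⟩

theorem mbr_of_core (h : CORE) : MBR := mbr_of_mbq (mbq_of_core h)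

end Vale.Agent.P022K.MB
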