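import Vale.Agent.P022K.MB.MBG

/-!
# P022K / MB: Moret-Bailly over `ℚ` for affine varieties, places as absolute values of `ℚ̄`
-/

namespace Vale.Agent.P022K.MB

open Polynomial NumberField Filter Topology Vale.Agent.P022
open Vale.Agent.P022D.W (dec)
open Vale.Agent.P022E.GW (Ov)

/-- the decomposition group of an absolute value -/
def stab (v : AbsoluteValue Qb ℝ) : Subgroup GQ where
  carrier := {g | ∀ x, v (g x) = v x}
  mul_mem' {g h} hg hh x := by rw [AlgEquiv.mul_apply, hg, hh]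
  one_mem' _ := rfl
  inv_mem' {g} hg x := by rw [← hg, ← AlgEquiv.mul_apply, mul_inv_cancel, AlgEquiv.one_apply]

theorem mem_stab {v : AbsoluteValue Qb ℝ} {g : GQ} : g ∈ stab v ↔ ∀ x, v (g x) = v x := Iff.rfl

/-- `v` is a place of `ℚ̄` above `p` (above infinity if `p = 0`) -/
def IsPl (p : ℕ) (v : AbsoluteValue Qb ℝ) : Prop :=
  (p = 0 ∧ ∃ φ : Qb →+* ℂ, ∀ x, v x = ‖φ x‖) ∨
    ∃ _ : Fact p.Prime, ∃ j : Qb →+* PadicAlgCl p, ∀ x, v x = ‖j x‖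

/-- `D` is an open normal subgroup of the decomposition group of `v` -/
def Dec (v : AbsoluteValue Qb ℝ) (D : Subgroup GQ) : Prop :=
  D ≤ stab v ∧ (∀ g ∈ stab v, ∀ d ∈ D, g * d * g⁻¹ ∈ D) ∧
    ∃ N : Subgroup GQ, IsOpen (N : Set GQ) ∧ N ⊓ stab v ≤ D

theorem dec_stab (v : AbsoluteValue Qb ℝ) : Dec v (stab v) :=
  ⟨le_rfl, fun _ hg _ hd => mul_mem (mul_mem hg hd) (inv_mem hg), ⊤, isOpen_univ, inf_le_right⟩

/-- the pointwise stabiliser of all conjugates of a point -/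
def fixP {R : Type*} [CommRing R] [Algebra ℚ R] (P : R →ₐ[ℚ] Qb) : Subgroup GQ where
  carrier := {h | ∀ (τ : GQ) (r : R), h (τ (P r)) = τ (P r)}
  mul_mem' {g h} hg hh τ r := by rw [AlgEquiv.mul_apply, hh, hg]
  one_mem' _ _ := rfl
  inv_mem' {g} hg τ r := g.injective ((g.apply_symm_apply _).trans (hg τ r).symm)

theorem mem_fixP {R : Type*} [CommRing R] [Algebra ℚ R] {P : R →ₐ[ℚ] Qb} {h : GQ} :
    h ∈ fixP P ↔ ∀ (τ : GQ) (r : R), h (τ (P r)) = τ (P r) := Iff.rfl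

theorem fixP_normal {R : Type*} [CommRing R] [Algebra ℚ R] (P : R →ₐ[ℚ] Qb) : (fixP P).Normal :=
  ⟨fun _ hh g τ r => (congrArg g (hh (g⁻¹ * τ) r)).trans (g.apply_symm_apply _)⟩

theorem fixP_open {R : Type*} [CommRing R] [Algebra ℚ R] [h : Algebra.FiniteType ℚ R]
    (P : R →ₐ[ℚ] Qb) : IsOpen (fixP P : Set GQ) := by
  obtain ⟨s, hs⟩ := h.1
  let e := s.equivFin.symm
  refine Subgroup.isOpen_mono (fun g hg τ r => ?_) (fixAll_open (fun n => P (e n)) 0)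
  have := AlgHom.ext_of_adjoin_eq_top hs (φ₁ := ((g * τ : GQ) : Qb →ₐ[ℚ] Qb).comp P)
    (φ₂ := (τ : Qb →ₐ[ℚ] Qb).comp P) fun x hx => by
      obtain ⟨n, hn⟩ := e.surjective ⟨x, hx⟩
      have := (hg τ).1 n
      simp only [hn] at this
      exact this
  exact congrArg (fun φ => φ r) this

theorem stab_padic {l : ℕ} [Fact l.Prime] {P : Ideal (𝓞 Qb)} {j : Qb →ₐ[ℚ] PadicAlgCl l}
    (h : Emb P j) {v : AbsoluteValue Qb ℝ} (hv : ∀ x, v x = ‖j x‖) : stab v = dec P := by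
  ext g
  refine ⟨fun hg x => ?_, fun hg x => by rw [hv, hv, h.norm_dec hg]⟩
  rw [h, h, ← hv, ← hv, ← hg x]
  rfl

theorem stab_complex {φ : Qb →+* ℂ} {v : AbsoluteValue Qb ℝ} (hv : ∀ x, v x = ‖φ x‖) (g : GQ) :
    g ∈ stab v ↔ (∀ x, φ (g x) = φ x) ∨ ∀ x, φ (g x) = starRingEnd ℂ (φ x) := by
  constructor
  · intro hg
    have : InfinitePlace.mk φ = InfinitePlace.mk (φ.comp (g : Qb →+* Qb)) :=
      DFunLike.ext _ _ fun x => ((hv x).symm.trans (hg x).symm).trans (hv _)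
    exact (InfinitePlace.mk_eq_iff.1 this).imp (fun h x => (RingHom.congr_fun h x).symm)
      fun h x => (RingHom.congr_fun h x).symm
  · rintro (h | h) x <;> rw [hv, hv, h]
    exact Complex.norm_conj _

/-- dictionary: a prime of `𝓞 ℚ̄` as a place -/
theorem exists_pl {l : ℕ} {P : Ideal (𝓞 Qb)} (h : Ov l P) : ∃ v, IsPl l v ∧ stab v = dec P ∧
    ∀ z : 𝓞 Qb, v z < 1 ↔ z ∈ P := by
  have : Fact l.Prime := ⟨h.1⟩
  obtain ⟨j, hj⟩ := exists_emb h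
  refine ⟨(NormedField.toAbsoluteValue (PadicAlgCl l)).comp j.toRingHom.injective,
    Or.inr ⟨this, j.toRingHom, fun _ => rfl⟩, stab_padic hj fun _ => rfl, fun z => (hj z).symm⟩

/-- dictionary: a complex conjugation as a place -/
theorem exists_pl_conj {c : GQ} (h : IsConj c) : ∃ v, IsPl 0 v ∧ ∀ g, g ∈ stab v ↔ g = 1 ∨ g = c := by
  obtain ⟨φ, hφ⟩ := h
  refine ⟨(NormedField.toAbsoluteValue ℂ).comp φ.injective, Or.inl ⟨rfl, φ, fun _ => rfl⟩,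
    fun g => (stab_complex (φ := φ) (fun _ => rfl) g).trans (or_congr ?_ ?_)⟩
  · exact ⟨fun h => AlgEquiv.ext fun x => φ.injective (h x), fun h x => by rw [h]; rfl⟩
  · exact ⟨fun h => AlgEquiv.ext fun x => φ.injective ((h x).trans (hφ x).symm),
      fun h x => by rw [h, hφ]⟩

/-- a place of a prime: the prime ideal -/
theorem IsPl.exists_prime {l : ℕ} (hl : l ≠ 0) {v : AbsoluteValue Qb ℝ} (h : IsPl l v) :
    ∃ P, Ov l P ∧ stab v = dec P ∧ ∀ z : 𝓞 Qb, v z < 1 ↔ z ∈ P := by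
  rcases h with ⟨h, -⟩ | ⟨_, j, hj⟩
  · exact absurd h hl
  obtain ⟨P, hP⟩ := exists_emb' j.toRatAlgHom
  exact ⟨P, hP.ov, stab_padic hP hj, fun z => by rw [hj, hP z]; rfl⟩

/-- local data attached to a place and an open normal subgroup of its decomposition group -/
structure LocG extends LocF where
  Ω : Type
  [fΩ : NormedField Ω]
  [qΩ : Algebra ℚ Ω]
  e : l →ₐ[ℚ] Ω
  j : Qb →ₐ[ℚ] Ω

attribute [instance] LocG.fΩ LocG.qΩ

structure LocG.Ok (L : LocG) (p : ℕ) (v : AbsoluteValue Qb ℝ) (D : Subgroup GQ) : Prop where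
  dn : DenseRange (algebraMap ℚ L.k)
  pr : p = 0 ∨ p.Prime
  nm : ∀ q : ℕ, q.Prime → (‖(q : L.k)‖ < 1 ↔ q = p)
  nj : ∀ x, v x = ‖L.j x‖
  ne : ∀ z, ‖L.e z‖ = ‖z‖
  fx : ∀ x, (∃ z, L.e z = L.j x) ↔ ∀ d ∈ D, d x = x
  ga : ∀ τ : L.l ≃ₐ[L.k] L.l, ∃ d ∈ stab v, ∀ x z, L.j x = L.e (τ z) → L.j (d x) = L.e z

theorem exists_locG_of {k Ω : Type} [NontriviallyNormedField k] [NontriviallyNormedField Ω]
    [NormedAlgebra k Ω] [IsGalois k Ω] [LocallyCompactSpace k] [CompleteSpace k] [CharZero k]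
    [CharZero Ω] {p : ℕ} {v : AbsoluteValue Qb ℝ} {D : Subgroup GQ} (hD : Dec v D)
    (j : Qb →ₐ[ℚ] Ω) (hv : ∀ x, v x = ‖j x‖)
    (hG : ∀ d, d ∈ stab v ↔ ∃ γ : Ω ≃ₐ[k] Ω, ∀ x, j (d x) = γ (j x))
    (dn : DenseRange (algebraMap ℚ k)) (pr : p = 0 ∨ p.Prime)
    (nm : ∀ q : ℕ, q.Prime → (‖(q : k)‖ < 1 ↔ q = p)) : ∃ L : LocG, L.Ok p v D := by
  obtain ⟨h1, h2, N, hN, h3⟩ := hD
  have := Lf_fin hG hN h3
  have := Lf_gal hG hN h3 h2
  have := FiniteDimensional.proper k (Lf k j D)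
  refine ⟨⟨⟨k, Lf k j D⟩, Ω, (Lf k j D).val.toRingHom.toRatAlgHom, j⟩, dn, pr, nm, hv,
    fun _ => rfl, fun x => Iff.trans ⟨?_, fun h => ⟨⟨_, h⟩, rfl⟩⟩ (mem_Lf hG h1),
    fun τ => exists_dec hG _ τ⟩
  rintro ⟨z, hz⟩
  have hz' : (z : Ω) = j x := hz
  change j x ∈ Lf k j D
  exact hz' ▸ z.2

theorem exists_locG {p : ℕ} {v : AbsoluteValue Qb ℝ} {D : Subgroup GQ} (h : IsPl p v)
    (hD : Dec v D) : ∃ L : LocG, L.Ok p v D := by
  rcases h with ⟨rfl, φ, hφ⟩ | ⟨hp, j, hj⟩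
  · have : IsAlgClosure ℝ ℂ := ⟨inferInstance, inferInstance⟩
    have := IsAlgClosure.isGalois ℝ ℂ
    refine exists_locG_of (k := ℝ) hD φ.toRatAlgHom hφ (fun d => (stab_complex hφ d).trans ?_)
      Rat.denseRange_cast (Or.inl rfl) fun q hq => iff_of_false (by
        rw [Real.norm_natCast, not_lt]
        exact_mod_cast hq.one_le) hq.ne_zero
    constructor
    · rintro (h | h)
      · exact ⟨1, h⟩
      · exact ⟨Complex.conjAe, h⟩
    · rintro ⟨γ, h⟩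
      exact (Complex.real_algHom_eq_id_or_conj γ).imp
        (fun e x => (h x).trans (AlgHom.congr_fun e _)) fun e x => (h x).trans (AlgHom.congr_fun e _)
  · obtain ⟨P, hP⟩ := exists_emb' j.toRatAlgHom
    exact exists_locG_of (k := ℚ_[p]) hD j.toRatAlgHom hj
      (fun d => by rw [stab_padic hP hj]; exact hP.mem_dec d) (padic_dense p) (Or.inr hp.out)
      (padic_norm p)

/-- MBV: Moret-Bailly for a geometrically integral affine variety over `ℚ`. -/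
def MBV : Prop :=
  ∀ (ι : Type) [Finite ι] (p : ι → ℕ), Function.Injective p →
    ∀ v : ι → AbsoluteValue Qb ℝ, (∀ i, IsPl (p i) (v i)) →
    ∀ D : ι → Subgroup GQ, (∀ i, Dec (v i) (D i)) →
    ∀ (R : Type) [CommRing R] [IsDomain R] [Algebra ℚ R] [Algebra.FiniteType ℚ R],
    (∀ z : FractionRing R, IsAlgebraic ℚ z → ∃ c : ℚ, algebraMap ℚ (FractionRing R) c = z) →
    ∀ (J : Type) [Finite J] (g : J → R) (w : ι → J → Qb) (ε : ℝ),
    (∀ i (a : R), a ≠ 0 → ∃ Q : R →ₐ[ℚ] Qb, Q a ≠ 0 ∧ (∀ d ∈ D i, ∀ r, d (Q r) = Q r) ∧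
      ∀ n, v i (Q (g n) - w i n) < ε) →
    ∀ δ : R, δ ≠ 0 → ∀ U : Subgroup GQ, IsOpen (U : Set GQ) →
    ∃ P : R →ₐ[ℚ] Qb, P δ ≠ 0 ∧ Glue.Dsj (fixP P) U ∧ ∀ i (σ : GQ),
      (∀ d ∈ D i, ∀ r, d (σ (P r)) = σ (P r)) ∧
        ∃ d ∈ stab (v i), ∀ n, v i (d (σ (P (g n))) - w i n) < ε

theorem mbv : MBV := by
  intro ι _ p hp v hv D hD R _ _ _ _ reg J _ g w ε dens δ hδ U hU
  choose L hL using fun i => exists_locG (hv i) (hD i)
  obtain ⟨s, t, y, f, hm, hirr, hker, hD0, hmul, hdvd⟩ := exists_pres (A := R) reg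
  obtain ⟨Δ, hΔ, u, u', huv⟩ := exists_disc f hm (hm.irreducible_of_irreducible_map _ _ hirr)
  obtain ⟨δ', hδ', w', hw'⟩ := hdvd δ hδ
  choose Q hQ0 hQD hQW using fun i => dens i _ hD0
  choose r hr using hmul
  choose a ha using fun i n => ((hL i).fx (Q i (t n))).2 fun d hd => hQD i d hd _
  choose b hb using fun i => ((hL i).fx (Q i y)).2 fun d hd => hQD i d hd _
  have k₁ : ∀ i q, (L i).e (evl ℚ (a i) (b i) q) = (L i).j (Q i (evl ℚ t y q)) := by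
    intro i q
    rw [map_evl, map_evl, map_evl, funext (ha i), hb]
  have h1 : ∀ i, evl ℚ (a i) (b i) (derivative f) ≠ 0 := fun i h =>
    hQ0 i ((map_eq_zero (L i).j).1 (by rw [← k₁, h, map_zero]))
  let G : ∀ i, (Fin s → (L i).l) × (L i).l → J → (L i).Ω := fun i q n =>
    (L i).e (evl ℚ q.1 q.2 (r (g n)) / evl ℚ q.1 q.2 (derivative f))
  obtain ⟨t', y', h2, h3, h4, h5⟩ := mbq ι (fun i => (L i).k) (fun i => (L i).l) p hp
    (fun i => (hL i).dn) (fun i => (hL i).pr) (fun i => (hL i).nm) (Fin s) f hm hirr a b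
    (fun i => (map_eq_zero (L i).e).1 (by
      rw [← evl_apply, k₁, (hker f).2 dvd_rfl, map_zero, map_zero])) h1
    (fun i => {q | ∀ n, ‖G i q n - (L i).j (w i n)‖ < ε})
    (fun i => eventually_all.2 fun n => by
      have hc : ContinuousAt (fun q => G i q n) (a i, b i) :=
        (AddMonoidHomClass.isometry_of_norm (L i).e (hL i).ne).continuous.continuousAt.comp
          ((analyticAt_eval₂ _ _).continuousAt.div (analyticAt_eval₂ _ _).continuousAt (h1 i))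
      refine (hc.sub continuousAt_const).norm.eventually_lt continuousAt_const ?_
      have : G i (a i, b i) n = (L i).j (Q i (g n)) := by
        simp only [G]
        rw [map_div₀, k₁, k₁, ← hr, map_mul, map_mul,
          mul_div_cancel_left₀ _ ((_root_.map_ne_zero (L i).j).2 (hQ0 i))]
      change ‖G i (a i, b i) n - _‖ < ε
      rw [this, ← map_sub, ← (hL i).nj]
      exact hQW i n)
    (Δ * δ') (mul_ne_zero hΔ hδ') U hU
  rw [map_mul] at h3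
  rw [← evl_apply] at h2
  have h6 : evl ℚ t' y' (derivative f) ≠ 0 := fun h => left_ne_zero_of_mul h3 (by
    rw [← evl_C t' y', ← huv, map_add, map_mul, map_mul, h2, h, zero_mul, zero_mul, add_zero])
  obtain ⟨P, hP⟩ := exists_ext (evl ℚ t y) (evl ℚ t' y') (fun q hq => by
    obtain ⟨c, rfl⟩ := (hker q).1 hq
    rw [map_mul, h2, zero_mul]) _ h6 fun a => ⟨_, hr a⟩
  have hPz : ∀ z, P z = evl ℚ t' y' (r z) / evl ℚ t' y' (derivative f) := fun z => by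
    rw [eq_div_iff h6, ← hP, ← hP, ← hr, map_mul, mul_comm]
  have hfix : ∀ (σ h : GQ), (∀ n, h (σ (t' n)) = σ (t' n)) → h (σ y') = σ y' →
      ∀ z, h (σ (P z)) = σ (P z) := by
    intro σ h e1 e2 z
    have : ∀ q, h (σ (evl ℚ t' y' q)) = σ (evl ℚ t' y' q) := fun q => by
      have e3 := map_evl (σ : Qb →ₐ[ℚ] Qb) t' y' q
      have e4 := map_evl (h : Qb →ₐ[ℚ] Qb) (fun n => σ (t' n)) (σ y') q
      simp only [AlgEquiv.coe_toAlgHom, e1, e2] at e3 e4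
      rw [e3, e4]
    rw [hPz, map_div₀, map_div₀, this, this]
  refine ⟨P, fun h => right_ne_zero_of_mul h3 ?_, fun x => ?_, fun i σ => ?_⟩
  · rw [← evl_C t' y', ← hP, evl_C, hw', map_mul, h, zero_mul]
  · obtain ⟨h, h7, h8⟩ := h5 x
    exact ⟨h, fun τ => hfix τ h (h7 τ).1 (h7 τ).2, h8⟩
  obtain ⟨q, hq, τ, h7, h8⟩ := h4 i _ (L i).e ((L i).j.comp (σ : Qb →ₐ[ℚ] Qb))
  refine ⟨fun d hd => hfix σ d (fun n => ((hL i).fx _).1 ⟨_, (h7 n).symm⟩ d hd)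
    (((hL i).fx _).1 ⟨_, h8.symm⟩ d hd), ?_⟩
  obtain ⟨d, hd, h9⟩ := (hL i).ga τ
  refine ⟨d, hd, fun n => ?_⟩
  have h10 : ∀ c, (L i).j (d (σ (evl ℚ t' y' c))) = (L i).e (evl ℚ q.1 q.2 c) := fun c => by
    have e3 := map_evl ((L i).j.comp ((d * σ : GQ) : Qb →ₐ[ℚ] Qb)) t' y' c
    refine e3.trans ?_
    rw [map_evl]
    congr 1
    exact congrArg₂ (evl ℚ) (funext fun m => h9 (σ (t' m)) _ (h7 m)) (h9 (σ y') _ h8)
  rw [(hL i).nj, map_sub, hPz, map_div₀, map_div₀, map_div₀, h10, h10, ← map_div₀]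
  exact hq n

end Vale.Agent.P022K.MB
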