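import Vale.Agent.P022K.MB.BC

/-!
# P022K / MB: functions with coefficients in a Galois extension of the constants (helper22)
-/

namespace Vale.Agent.P022K.MB

open Polynomial TensorProduct
open scoped IntermediateField

theorem V_mul {k E : Type*} [Field k] [Field E] [Algebra k E] {x z w : E} {M N : ℕ}
    (hz : z ∈ V k x M) (hw : w ∈ V k x N) : z * w ∈ V k x (M + N) :=
  ⟨mul_mem hz.1 hw.1, by rw [pow_add, mul_mul_mul_comm]; exact mul_mem hz.2 hw.2⟩

theorem one_mem_V {k E : Type*} [Field k] [Field E] [Algebra k E] (x : E) (M : ℕ) :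
    (1 : E) ∈ V k x M :=
  ⟨one_mem _, by rw [one_mul]; exact pow_mem (self_mem_OO k _) _⟩

section
variable {K l : Type*} [Field K] [Field l] [Algebra K l]

/-- extension of scalars of a homomorphism -/
noncomputable def ext (l : Type*) [Field l] [Algebra K l] {A B : Type*} [CommRing A] [Algebra K A]
    [CommRing B] [Algebra l B] [Algebra K B] [IsScalarTower K l B] (P : A →ₐ[K] B) :
    l ⊗[K] A →ₐ[l] B :=
  Algebra.TensorProduct.lift (Algebra.ofId l B) P fun _ _ => Commute.all _ _

theorem ext_tmul {A B : Type*} [CommRing A] [Algebra K A] [CommRing B] [Algebra l B] [Algebra K B]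
    [IsScalarTower K l B] (P : A →ₐ[K] B) (c : l) (z : A) : ext l P (c ⊗ₜ[K] z) = c • P z := by
  simp [ext, Algebra.smul_def]

variable {E E' : Type*} [Field E] [Algebra K E] [Field E'] [Algebra l E'] [Algebra K E']
  [IsScalarTower K l E']

/-- restriction to the integral functions -/
def phiO (l : Type*) [Field l] [Algebra K l] [Algebra l E'] [IsScalarTower K l E']
    (φ : E →ₐ[K] E') (x : E) : OO K x →ₐ[K] OO l (φ x) where
  toFun z := ⟨φ z, map_mem_OO φ z.2⟩
  map_one' := Subtype.ext (map_one φ)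
  map_mul' a b := Subtype.ext (map_mul φ a.1 b.1)
  map_zero' := Subtype.ext (map_zero φ)
  map_add' a b := Subtype.ext (map_add φ a.1 b.1)
  commutes' c := Subtype.ext (φ.commutes c)

theorem coe_ext_phiO (φ : E →ₐ[K] E') (x : E) (u : l ⊗[K] OO K x) :
    (ext l (phiO l φ x) u : E') = Phi l φ ((OO K x).val.toLinearMap.lTensor l u) := by
  induction u using TensorProduct.induction_on with
  | zero => simp
  | tmul c n => rw [ext_tmul, LinearMap.lTensor_tmul, Phi_tmul]; rfl
  | add a b ha hb => simp only [map_add, Subalgebra.coe_add, ha, hb]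

theorem ext_phiO_bijective [CharZero K] {f : K[X][X]} {x y : E} (φ : E →ₐ[K] E') (hm : f.Monic)
    (h : IsFF K f x y) (h' : IsFF l (f.map (mapRingHom (algebraMap K l))) (φ x) (φ y)) :
    Function.Bijective (ext l (phiO l φ x)) := by
  have : CharZero l := charZero_of_injective_algebraMap (algebraMap K l).injective
  have hinj := Phi_injective φ hm h h'
  have := h.finiteDimensional hm
  constructor
  · rw [injective_iff_map_eq_zero]
    intro u hu
    have h1 := coe_ext_phiO φ x u
    rw [hu, Subalgebra.coe_zero, eq_comm, map_eq_zero_iff _ hinj] at h1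
    refine eq_zero_of_co u fun m => Subtype.ext ?_
    have h2 := co_lTensor m (OO K x).val.toLinearMap u
    rw [h1, map_zero] at h2
    exact h2.symm
  · rintro ⟨z, hz⟩
    obtain ⟨p, hp⟩ := h'.exists_mul_eq (hm.map _) hz
    obtain ⟨w0, hw0⟩ := exists_poly_tensor p φ x y
    rw [derivative_map, aevalAeval_map, ← algHom_aevalAeval, ← hw0] at hp
    have hD : φ (aevalAeval x y (derivative f)) ≠ 0 :=
      (_root_.map_ne_zero φ).2 (h.deriv_ne_zero hm)
    obtain ⟨w, rfl⟩ : ∃ w, Phi l φ w = z :=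
      ⟨w0 * (1 ⊗ₜ[K] (aevalAeval x y (derivative f))⁻¹), by
        rw [map_mul, Phi_tmul, one_smul, ← hp, map_inv₀, mul_comm, ← mul_assoc, inv_mul_cancel₀ hD,
          one_mul]⟩
    obtain ⟨u, hu⟩ := mem_range_of_co (OO K x).val.toLinearMap w fun m =>
      ⟨⟨_, co_mem_OO φ hinj x w hz m⟩, rfl⟩
    exact ⟨u, Subtype.ext (by rw [coe_ext_phiO, hu])⟩

/-- tensors with poles at most `M` times the pole divisor -/
noncomputable def TV (K l : Type*) [Field K] [Field l] [Algebra K l] [Algebra K E] (x : E)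
    (M : ℕ) : Submodule l (l ⊗[K] OO K x) :=
  Submodule.span l {u | ∃ z : OO K x, (z : E) ∈ V K x M ∧ (1 : l) ⊗ₜ[K] z = u}

theorem tmul_mem_TV {x : E} {M : ℕ} (c : l) {z : OO K x} (hz : (z : E) ∈ V K x M) :
    c ⊗ₜ[K] z ∈ TV K l x M := by
  have : c ⊗ₜ[K] z = c • ((1 : l) ⊗ₜ[K] z) := by rw [smul_tmul', smul_eq_mul, mul_one]
  rw [this]
  exact Submodule.smul_mem _ _ (Submodule.subset_span ⟨z, hz, rfl⟩)

theorem TV_induction {x : E} {M : ℕ} {p : l ⊗[K] OO K x → Prop} (h0 : p 0)
    (h1 : ∀ (c : l) (z : OO K x), (z : E) ∈ V K x M → p (c ⊗ₜ[K] z))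
    (h2 : ∀ u v, p u → p v → p (u + v)) {u : l ⊗[K] OO K x} (hu : u ∈ TV K l x M) : p u := by
  suffices h : ∀ c : l, p (c • u) by simpa using h 1
  induction hu using Submodule.span_induction with
  | mem u hu =>
    obtain ⟨z, hz, rfl⟩ := hu
    intro c
    rw [smul_tmul']
    exact h1 _ z hz
  | zero => intro c; rwa [smul_zero]
  | add u v _ _ hu hv => intro c; rw [smul_add]; exact h2 _ _ (hu c) (hv c)
  | smul a u _ hu => intro c; rw [smul_smul]; exact hu _

theorem TV_mul {x : E} {M N : ℕ} {u v : l ⊗[K] OO K x} (hu : u ∈ TV K l x M)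
    (hv : v ∈ TV K l x N) : u * v ∈ TV K l x (M + N) := by
  refine TV_induction (p := fun u => u * v ∈ TV K l x (M + N)) (by simp) (fun c z hz => ?_)
    (fun a b ha hb => by rw [add_mul]; exact add_mem ha hb) hu
  refine TV_induction (p := fun v => c ⊗ₜ[K] z * v ∈ TV K l x (M + N)) (by simp)
    (fun c' z' hz' => ?_) (fun a b ha hb => by rw [mul_add]; exact add_mem ha hb) hv
  rw [Algebra.TensorProduct.tmul_mul_tmul]
  exact tmul_mem_TV _ (V_mul hz hz')

theorem TV_prod {x : E} {M : ℕ} {ι : Type*} (s : Finset ι) {u : ι → l ⊗[K] OO K x}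
    (hu : ∀ i, u i ∈ TV K l x M) : ∏ i ∈ s, u i ∈ TV K l x (s.card * M) := by
  classical
  induction s using Finset.induction_on with
  | empty => rw [Finset.prod_empty]; exact tmul_mem_TV _ (one_mem_V x _)
  | insert a s ha ih =>
    rw [Finset.prod_insert ha, Finset.card_insert_of_notMem ha, Nat.succ_mul, add_comm]
    exact TV_mul (hu a) ih

theorem mem_TV_of [CharZero K] {f : K[X][X]} {x y : E} (φ : E →ₐ[K] E') (hm : f.Monic)
    (h : IsFF K f x y) (h' : IsFF l (f.map (mapRingHom (algebraMap K l))) (φ x) (φ y)) {M : ℕ}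
    {u : l ⊗[K] OO K x} (hu : (ext l (phiO l φ x) u : E') ∈ V l (φ x) M) : u ∈ TV K l x M := by
  have hinj := Phi_injective φ hm h h'
  have := h.finiteDimensional hm
  have : FiniteDimensional K⟮x⁻¹⟯ E := by rw [adjoin_inv_eq]; infer_instance
  obtain ⟨s, m, hs⟩ := exists_expand u
  rw [hs]
  refine Submodule.sum_mem _ fun c _ => tmul_mem_TV _ ⟨(co (m c) u).2, ?_⟩
  have h1 : ((co (m c) u : OO K x) : E) = co (m c) ((OO K x).val.toLinearMap.lTensor l u) :=
    (co_lTensor (m c) (OO K x).val.toLinearMap u).symm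
  rw [h1, ← co_mul]
  refine co_mem_OO φ hinj x⁻¹ _ ?_ _
  rw [map_mul, Phi_tmul, one_smul, map_pow, map_inv₀, ← coe_ext_phiO]
  exact hu.2

theorem exists_coord {x : E} {M : ℕ} {J : Type*} [Fintype J] (z : J → OO K x)
    (hz : V K x M ≤ Submodule.span K (Set.range fun j => (z j : E))) {u : l ⊗[K] OO K x}
    (hu : u ∈ TV K l x M) : ∃ d : J → l, u = ∑ j, d j ⊗ₜ[K] z j := by
  refine TV_induction (p := fun u => ∃ d : J → l, u = ∑ j, d j ⊗ₜ[K] z j) ⟨0, by simp⟩
    (fun c w hw => ?_) ?_ hu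
  · obtain ⟨a, ha⟩ := (Submodule.mem_span_range_iff_exists_fun K).1 (hz hw)
    have h1 : w = ∑ j, a j • z j := Subtype.ext (by rw [← ha]; simp)
    exact ⟨fun j => a j • c, by rw [h1, tmul_sum]; simp only [smul_tmul]⟩
  · rintro _ _ ⟨d, rfl⟩ ⟨d', rfl⟩
    exact ⟨d + d', by simp only [Pi.add_apply, add_tmul, Finset.sum_add_distrib]⟩

section galois
variable {k : Type*} [Field k] [Algebra K k] [Algebra k l] [IsScalarTower K k l]
variable {A : Type*} [CommRing A] [Algebra K A]

/-- action of the Galois group on the coefficients -/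
noncomputable def act (K A : Type*) [Field K] [Algebra K l] [Algebra K k] [IsScalarTower K k l]
    [CommRing A] [Algebra K A] (σ : l ≃ₐ[k] l) : l ⊗[K] A →ₐ[K] l ⊗[K] A :=
  Algebra.TensorProduct.map (σ.restrictScalars K).toAlgHom (AlgHom.id K A)

theorem act_tmul (σ : l ≃ₐ[k] l) (c : l) (z : A) : act K A σ (c ⊗ₜ[K] z) = σ c ⊗ₜ[K] z := rfl

theorem act_act (σ τ : l ≃ₐ[k] l) (u : l ⊗[K] A) :
    act K A σ (act K A τ u) = act K A (σ * τ) u := by
  induction u using TensorProduct.induction_on with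
  | zero => simp
  | tmul c n => rfl
  | add a b ha hb => simp only [map_add, ha, hb]

theorem act_one (u : l ⊗[K] A) : act K A (1 : l ≃ₐ[k] l) u = u := by
  induction u using TensorProduct.induction_on with
  | zero => simp
  | tmul c n => rfl
  | add a b ha hb => simp only [map_add, ha, hb]

theorem ext_act (σ : l ≃ₐ[k] l) (P : A →ₐ[K] l) (u : l ⊗[K] A) :
    ext l ((σ.restrictScalars K).toAlgHom.comp P) (act K A σ u) = σ (ext l P u) := by
  induction u using TensorProduct.induction_on with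
  | zero => simp
  | tmul c n => rw [act_tmul, ext_tmul, ext_tmul, smul_eq_mul, smul_eq_mul, map_mul]; rfl
  | add a b ha hb => simp only [map_add, ha, hb]

theorem act_mem_TV (σ : l ≃ₐ[k] l) {x : E} {M : ℕ} {u : l ⊗[K] OO K x} (hu : u ∈ TV K l x M) :
    act K (OO K x) σ u ∈ TV K l x M := by
  refine TV_induction (p := fun u => act K (OO K x) σ u ∈ TV K l x M) ?_ (fun c z hz => ?_)
    (fun a b ha hb => ?_) hu
  · rw [map_zero]; exact zero_mem _
  · rw [act_tmul]; exact tmul_mem_TV _ hz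
  · rw [map_add]; exact add_mem ha hb

/-- the norm has coefficients in the fixed field -/
theorem exists_coord_norm [CharZero k] [FiniteDimensional k l] [IsGalois k l] {x : E} {M : ℕ}
    {J : Type*} [Fintype J] (z : J → OO K x)
    (hz : V K x (Fintype.card (l ≃ₐ[k] l) * M) ≤
      Submodule.span K (Set.range fun j => (z j : E))) {u : l ⊗[K] OO K x}
    (hu : u ∈ TV K l x M) :
    ∃ d : J → k, ∏ σ : l ≃ₐ[k] l, act K _ σ u = ∑ j, algebraMap k l (d j) ⊗ₜ[K] z j := by
  have : CharZero l := charZero_of_injective_algebraMap (algebraMap k l).injective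
  obtain ⟨d, hd⟩ := exists_coord z hz (TV_prod Finset.univ fun σ : l ≃ₐ[k] l => act_mem_TV σ hu)
  set n := ∏ σ : l ≃ₐ[k] l, act K _ σ u with hn
  have h1 : ∀ τ : l ≃ₐ[k] l, act K _ τ n = n := fun τ => by
    rw [hn, map_prod]
    simp only [act_act]
    exact Fintype.prod_equiv (Equiv.mulLeft τ) _ _ fun _ => rfl
  have h2 : (Fintype.card (l ≃ₐ[k] l) : l) • n =
      ∑ j, algebraMap k l (Algebra.trace k l (d j)) ⊗ₜ[K] z j := by
    simp only [trace_eq_sum_automorphisms, sum_tmul]
    rw [Finset.sum_comm, Nat.cast_smul_eq_nsmul, ← Finset.card_univ, ← Finset.sum_const]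
    refine Finset.sum_congr rfl fun τ _ => ?_
    rw [← h1 τ, hd, map_sum]
    rfl
  have h3 : (Fintype.card (l ≃ₐ[k] l) : l) ≠ 0 := Nat.cast_ne_zero.2 Fintype.card_ne_zero
  refine ⟨fun j => (Fintype.card (l ≃ₐ[k] l) : k)⁻¹ * Algebra.trace k l (d j), ?_⟩
  rw [← inv_smul_smul₀ h3 n, h2, Finset.smul_sum]
  refine Finset.sum_congr rfl fun j _ => ?_
  rw [smul_tmul', map_mul, map_inv₀, map_natCast, smul_eq_mul]

end galois

end

end Vale.Agent.P022K.MB
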