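import Vale.Agent.P022K.MB.Hit
import Vale.Agent.P022K.MB.Red
import Vale.Agent.P022K.Cheb.Main
import Vale.Agent.P022D.Loc2.Dec

/-!
# P022K / MB: smooth `ℓ`-adic points at primes with prescribed Frobenius class
-/

namespace Vale.Agent.P022K.MB

open Polynomial NumberField Vale.Agent.P022

theorem eq_zero_of_comp_eq {R : Type*} [CommRing R] [IsDomain R] [CharZero R] {p : R[X]}
    (hp : p.natDegree ≠ 0) {a : R} (h : p.comp (X + C a) = p) : a = 0 := by
  by_contra ha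
  have h1 : ∀ n : ℕ, p.eval (n * a) = p.eval 0 := by
    intro n
    induction n with
    | zero => simp
    | succ n ih =>
      rw [← ih]
      conv_rhs => rw [← h]
      simp [eval_comp, add_mul]
  have h2 : p - C (p.eval 0) = 0 := by
    refine eq_zero_of_infinite_isRoot _ ((Set.infinite_range_of_injective
      (f := fun n : ℕ => (n : R) * a) fun m n h => Nat.cast_injective (mul_right_cancel₀ ha h)).mono ?_)
    rintro _ ⟨n, rfl⟩
    simp [h1]
  rw [sub_eq_zero] at h2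
  exact hp (by rw [h2, natDegree_C])

theorem exists_prim {L : Type*} [Field L] [Algebra ℚ L] (f : ℚ[X][X]) (hm : f.Monic)
    (hirr : Irreducible (f.map (mapRingHom (algebraMap ℚ L)))) {θ : L} (hθ : IsIntegral ℚ θ) :
    ∃ g : ℚ[X][X], g.Monic ∧ Irreducible g ∧ f.map (mapRingHom (algebraMap ℚ L)) ∣
      (g.map (mapRingHom (algebraMap ℚ L))).comp (X + C (C θ)) := by
  set m : ℚ[X] →+* L[X] := mapRingHom (algebraMap ℚ L) with hm'
  set fL := f.map m
  have := AdjoinRoot.isDomain_of_prime hirr.prime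
  let _ : Algebra ℚ[X] (AdjoinRoot fL) := ((AdjoinRoot.of fL).comp m).toAlgebra
  let z : AdjoinRoot fL := AdjoinRoot.root fL + AdjoinRoot.of fL (C θ)
  have halg : algebraMap ℚ[X] (AdjoinRoot fL) = (AdjoinRoot.of fL).comp m := rfl
  have hz : IsIntegral ℚ[X] z := by
    refine IsIntegral.add ⟨f, hm, ?_⟩ ⟨(minpoly ℚ θ).map C, (minpoly.monic hθ).map _, ?_⟩
    · rw [halg, ← eval₂_map]
      exact AdjoinRoot.eval₂_root fL
    · have h1 : (algebraMap ℚ[X] (AdjoinRoot fL)).comp C =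
          ((AdjoinRoot.of fL).comp C).comp (algebraMap ℚ L) := RingHom.ext_rat _ _
      rw [eval₂_map, h1]
      have := hom_eval₂ (minpoly ℚ θ) (algebraMap ℚ L) ((AdjoinRoot.of fL).comp C) θ
      rw [← aeval_def, minpoly.aeval, map_zero] at this
      exact this.symm
  refine ⟨minpoly ℚ[X] z, minpoly.monic hz, minpoly.irreducible hz, ?_⟩
  rw [← AdjoinRoot.mk_eq_zero, ← AdjoinRoot.aeval_eq, aeval_comp, map_add, aeval_X, aeval_C,
    aeval_def, eval₂_map]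
  exact minpoly.aeval ℚ[X] z

/-- A fibre of an absolutely irreducible curve on which the stabiliser of `θ` is transitive. -/
theorem exists_fibre_trans {L : Type*} [Field L] [Algebra ℚ L] [Normal ℚ L] (f : ℚ[X][X])
    (hm : f.Monic) (hirr : Irreducible (f.map (mapRingHom (algebraMap ℚ L)))) (θ : L) (δ : ℚ[X])
    (hδ : δ ≠ 0) : ∃ s : ℕ, δ.eval (s : ℚ) ≠ 0 ∧ ∀ y₀ y₁ : L,
      aeval y₀ (f.map (evalRingHom (s : ℚ))) = 0 → aeval y₁ (f.map (evalRingHom (s : ℚ))) = 0 →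
      ∃ σ : L ≃ₐ[ℚ] L, σ θ = θ ∧ σ y₀ = y₁ := by
  have : CharZero L := charZero_of_injective_algebraMap (algebraMap ℚ L).injective
  obtain ⟨g, hgm, hgi, h1⟩ := exists_prim f hm hirr (Normal.isIntegral inferInstance θ)
  set m : ℚ[X] →+* L[X] := mapRingHom (algebraMap ℚ L) with hm'
  set fL := f.map m
  have hfm : fL.Monic := hm.map m
  have h2 : ∀ σ : L ≃ₐ[ℚ] L, fL.comp (X - C (C (σ θ))) ∣ g.map m := by
    intro σ
    have h3 : (mapRingHom (σ : L →+* L)).comp m = m := by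
      apply Polynomial.ringHom_ext <;> simp [hm']
    have := Polynomial.map_dvd (mapRingHom (σ : L →+* L)) h1
    rw [map_comp, map_map, map_map, h3] at this
    rw [← dvd_comp_X_add_C_iff]
    simpa using this
  have hpr : ∀ t : L, Prime (fL.comp (X - C (C t))) := fun t => by
    rw [sub_eq_add_neg, ← C_neg, comp_eq_aeval, ← algEquivAevalXAddC_apply]
    exact (MulEquiv.prime_iff (algEquivAevalXAddC (-C t : L[X]))).2 hirr.prime
  have h2' := (dvd_comp_X_add_C_iff _ _ _).1 h1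
  obtain ⟨s, hs, hg⟩ := hilbert g hgm hgi δ hδ
  refine ⟨s, hs, fun y₀ y₁ hy₀ hy₁ => ?_⟩
  let e : L[X] →+* L := evalRingHom (s : L)
  have he : ∀ (p : ℚ[X][X]) (w : L), ((p.map m).map e).eval w =
      aeval w (p.map (evalRingHom (s : ℚ))) := by
    intro p w
    have : e.comp m = (algebraMap ℚ L).comp (evalRingHom (s : ℚ)) := by
      apply Polynomial.ringHom_ext <;> simp [e, hm']
    rw [map_map, this, ← map_map, eval_map, aeval_def]
  have hroot : ∀ y t : L, aeval y (f.map (evalRingHom (s : ℚ))) = 0 →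
      ((fL.comp (X - C (C t))).map e).eval (y + t) = 0 := by
    intro y t hy
    rw [map_comp, eval_comp, ← hy, ← he]
    simp [e, fL]
  have hgr : ∀ y : L, aeval y (f.map (evalRingHom (s : ℚ))) = 0 →
      aeval (y + θ) (g.map (evalRingHom (s : ℚ))) = 0 := by
    intro y hy
    rw [← he]
    exact eval_eq_zero_of_dvd_of_eval_eq_zero (Polynomial.map_dvd e h2') (hroot y θ hy)
  have hmin := minpoly.eq_of_irreducible_of_monic hg (hgr y₀ hy₀) (hgm.map _)
  obtain ⟨σ, hσ⟩ := minpoly.exists_algEquiv_of_root' (K := ℚ) (y := y₀ + θ) (x := y₁ + θ)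
    (Normal.isIntegral inferInstance _).isAlgebraic (by rw [← hmin]; exact hgr y₁ hy₁)
  by_cases hσθ : σ θ = θ
  · refine ⟨σ, hσθ, ?_⟩
    rwa [map_add, hσθ, add_left_inj] at hσ
  exfalso
  obtain ⟨h, hh⟩ := h2'
  have h4 : fL.comp (X - C (C (σ θ))) ∣ h := by
    refine ((hpr _).dvd_or_dvd ((h2 σ).trans hh.dvd)).resolve_left fun h5 => hσθ ?_
    have h6 := eq_of_monic_of_associated (hfm.comp_X_sub_C _) (hfm.comp_X_sub_C _)
      (((hpr _).irreducible.dvd_irreducible_iff_associated (hpr _).irreducible).1 h5)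
    have h7 := congrArg (fun p : L[X][X] => p.comp (X + C (C θ))) h6
    simp only [comp_assoc, sub_comp, X_comp, C_comp, add_sub_cancel_right, comp_X] at h7
    rw [add_sub_assoc, ← C_sub, ← C_sub] at h7
    have h8 := eq_zero_of_comp_eq (fun h0 => hirr.ne_one (hfm.natDegree_eq_zero.1 h0)) h7
    rw [C_eq_zero, sub_eq_zero] at h8
    exact h8.symm
  have hsep : ((g.map m).map e).Separable := by
    have : e.comp m = (algebraMap ℚ L).comp (evalRingHom (s : ℚ)) := by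
      apply Polynomial.ringHom_ext <;> simp [e, hm']
    rw [map_map, this, ← map_map]
    exact hg.separable.map
  have h5 := (hsep.of_dvd (Polynomial.map_dvd e ((mul_dvd_mul_left _ h4).trans hh.symm.dvd)))
  rw [Polynomial.map_mul] at h5
  rcases aeval_ne_zero_of_isCoprime h5.isCoprime (y₁ + θ) with h6 | h6 <;> apply h6 <;>
    rw [coe_aeval_eq_eval]
  · exact hroot y₁ θ hy₁
  · rw [← hσ, map_add]
    exact hroot _ _ (by rw [aeval_algHom_apply σ, hy₀, map_zero])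

/-- A root fixed by a Frobenius element at a large prime `ℓ` gives an `ℓ`-adic root. -/
theorem exists_padic_root (μ : ℚ[X]) (y : Qb) (hy : aeval y μ = 0) :
    ∃ S : Finset ℕ, ∀ (ℓ : ℕ) [Fact ℓ.Prime] (φ : GQ), ℓ ∉ S → IsFrob ℓ φ → φ y = y →
      ∃ b : ℚ_[ℓ], aeval b μ = 0 := by
  have hya : IsAlgebraic ℤ y := (IsFractionRing.isAlgebraic_iff ℤ ℚ Qb).2
    (Algebra.IsAlgebraic.isAlgebraic y)
  obtain ⟨d, hd, hint⟩ := hya.exists_integral_multiple
  let m := minpoly ℤ (d • y)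
  obtain ⟨Δ, hΔ, A, B, hAB⟩ := exists_disc m (minpoly.monic hint) (minpoly.irreducible hint)
  refine ⟨Finset.range (Δ.natAbs + 1), fun ℓ hℓ φ hS ⟨P, hP, hℓP, hφ⟩ hfix => ?_⟩
  let x : 𝓞 Qb := ⟨d • y, hint⟩
  have hx : φ • x = x := RingOfIntegers.ext (by
    change φ (d • y) = d • y
    rw [map_zsmul, hfix])
  let κ := FractionRing (𝓞 Qb ⧸ P)
  let π : 𝓞 Qb →+* κ := (algebraMap (𝓞 Qb ⧸ P) κ).comp (Ideal.Quotient.mk P)
  have hπ : ∀ w ∈ P, π w = 0 := fun w hw => by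
    rw [RingHom.comp_apply, Ideal.Quotient.eq_zero_iff_mem.2 hw, map_zero]
  have : CharP κ ℓ := (CharP.charP_iff_prime_eq_zero hℓ.out).2 (by
    rw [← map_natCast π]; exact hπ _ hℓP)
  have h1 : π x ^ ℓ = π x := by
    have := hπ _ (hφ x)
    rw [hx, map_sub, map_pow, sub_eq_zero] at this
    exact this.symm
  obtain ⟨a, ha⟩ := (mem_bot_iff_intCast ℓ κ).1
    ((Subfield.mem_bot_iff_pow_eq_self κ ℓ).2 h1)
  have h2 : (ℓ : ℤ) ∣ m.eval a := by
    rw [← CharP.intCast_eq_zero_iff κ ℓ]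
    have h3 : aeval x m = 0 := by
      apply RingOfIntegers.coe_injective
      rw [← aeval_algebraMap_apply, map_zero]
      exact minpoly.aeval ℤ (d • y)
    have h4 := congrArg π h3
    rw [aeval_def, hom_eval₂, ← ha, eval₂_at_intCast, map_zero, eq_intCast, Int.cast_id] at h4
    exact h4
  have h3 : ¬ (ℓ : ℤ) ∣ m.derivative.eval a := by
    intro h
    have h4 := congrArg (eval a) hAB
    rw [eval_add, eval_mul, eval_mul, eval_C] at h4
    have h5 : (ℓ : ℤ) ∣ Δ := h4 ▸ dvd_add (h2.mul_right _) (h.mul_right _)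
    exact hS (Finset.mem_range.2 (Nat.lt_succ_of_le (Nat.le_of_dvd (Int.natAbs_pos.2 hΔ)
      (Int.natCast_dvd.1 h5))))
  have h4 : ∀ p : ℤ[X], aeval (a : ℤ_[ℓ]) p = ((p.eval a : ℤ) : ℤ_[ℓ]) := fun p => by
    rw [← eq_intCast (algebraMap ℤ ℤ_[ℓ]), aeval_algebraMap_apply, coe_aeval_eq_eval, eq_intCast]
  obtain ⟨w, hw, -⟩ := hensels_lemma (F := m) (a := (a : ℤ_[ℓ])) (by
    rw [h4, h4, le_antisymm (PadicInt.norm_le_one _)
      (not_lt.1 fun h => h3 ((PadicInt.norm_int_lt_one_iff_dvd _).1 h)), one_pow]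
    exact (PadicInt.norm_int_lt_one_iff_dvd _).2 h2)
  have hd' : algebraMap ℚ ℚ_[ℓ] d ≠ 0 := by simpa using hd
  refine ⟨(w : ℚ_[ℓ]) / algebraMap ℚ ℚ_[ℓ] d, ?_⟩
  have h5 : m.map (algebraMap ℤ ℚ) ∣ μ.scaleRoots d := by
    rw [← minpoly.isIntegrallyClosed_eq_field_fractions' ℚ hint]
    apply minpoly.dvd
    have := scaleRoots_aeval_eq_zero (r := (d : ℚ)) hy
    rwa [map_intCast, ← zsmul_eq_mul] at this
  have h6 : aeval (w : ℚ_[ℓ]) (μ.scaleRoots d) = 0 := by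
    refine aeval_eq_zero_of_dvd_aeval_eq_zero h5 ?_
    rw [aeval_map_algebraMap]
    have := aeval_algHom_apply (algebraMap ℤ_[ℓ] ℚ_[ℓ]).toIntAlgHom w m
    rw [hw, map_zero] at this
    exact this
  have h7 := scaleRoots_eval₂_mul (p := μ) (algebraMap ℚ ℚ_[ℓ])
    ((w : ℚ_[ℓ]) / algebraMap ℚ ℚ_[ℓ] d) d
  rw [mul_div_cancel₀ _ hd', ← aeval_def, h6, eq_comm, mul_eq_zero] at h7
  exact h7.resolve_left (pow_ne_zero _ hd')

theorem exists_stab_le {K L : Type*} [Field K] [Field L] [Algebra K L] [Algebra.IsSeparable K L]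
    (U : Subgroup (L ≃ₐ[K] L)) (hU : IsOpen (U : Set (L ≃ₐ[K] L))) :
    ∃ θ : L, ∀ g : L ≃ₐ[K] L, g θ = θ → g ∈ U := by
  obtain ⟨E, hE, hEU⟩ := (krullTopology_mem_nhds_one_iff K L _).1 (hU.mem_nhds U.one_mem)
  obtain ⟨α, hα⟩ := Field.exists_primitive_element K E
  refine ⟨α, fun g hg => hEU ?_⟩
  have h1 : E = IntermediateField.adjoin K {(α : L)} := by
    rw [← IntermediateField.lift_adjoin_simple, hα, IntermediateField.lift_top]
  rw [SetLike.mem_coe, h1, IntermediateField.mem_fixingSubgroup_iff]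
  intro x hx
  have h2 : IntermediateField.adjoin K {(α : L)} ≤
      IntermediateField.fixedField (Subgroup.zpowers g) := by
    rw [IntermediateField.adjoin_simple_le_iff]
    rintro ⟨_, n, rfl⟩
    exact (MulAction.stabilizer (L ≃ₐ[K] L) (α : L)).zpow_mem hg n
  exact h2 hx ⟨g, Subgroup.mem_zpowers g⟩

/-- **PTS**: smooth `ℓ`-adic points of an absolutely irreducible hypersurface at primes `ℓ` with
a Frobenius element in a given coset of an open subgroup. -/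
theorem pts {σ : Type} [Finite σ] (f : (MvPolynomial σ ℚ)[X]) (hm : f.Monic)
    (hirr : Irreducible (f.map (MvPolynomial.map (algebraMap ℚ Qb)))) (U : Subgroup GQ)
    (hU : IsOpen (U : Set GQ)) (g : GQ) (S : Finset ℕ) :
    ∃ (ℓ : ℕ) (_ : Fact ℓ.Prime) (φ : GQ), ℓ ∉ S ∧ IsFrob ℓ φ ∧ g⁻¹ * φ ∈ U ∧
      ∃ (a : σ → ℚ_[ℓ]) (b : ℚ_[ℓ]), f.eval₂ (MvPolynomial.aeval a).toRingHom b = 0 ∧
        (derivative f).eval₂ (MvPolynomial.aeval a).toRingHom b ≠ 0 := by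
  classical
  obtain ⟨Δ, hΔ, A, B, hAB⟩ := exists_disc f hm (hm.irreducible_of_irreducible_map _ _ hirr)
  have hex : ∀ {L : Type} [Field L] [Algebra ℚ L] (h : MvPolynomial σ L), h ≠ 0 →
      ∃ κ : σ → ℚ, MvPolynomial.eval (fun n => algebraMap ℚ L (κ n)) h ≠ 0 := by
    intro L _ _ h h0
    obtain ⟨κ, hκ, -⟩ := exists_near (K := ℚ) (ι := Empty) (k := fun _ => ℝ)
      (fun x => subset_closure ⟨0, Subsingleton.elim _ _⟩) h h0 (fun _ _ => 0)
      (fun _ => Set.univ) fun _ => Filter.univ_mem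
    exact ⟨κ, hκ⟩
  obtain ⟨c, hc⟩ := hex Δ hΔ
  obtain ⟨h, hh0, hh⟩ := bertini f hm hirr (fun n => C (c n))
    (separable_of_disc hAB _ (by simpa using hc))
  obtain ⟨e, he⟩ := hex h hh0
  set c₁ : σ → ℚ[X] := fun n => C (c n) + X * C (e n)
  set f₁ := f.map (curve (RingHom.id ℚ) c₁)
  have hm₁ : f₁.Monic := hm.map _
  have hi₁ := hh e he Qb (algebraMap ℚ Qb)
  obtain ⟨Δ₁, hΔ₁, A₁, B₁, hAB₁⟩ := exists_disc f₁ hm₁
    (hm₁.irreducible_of_irreducible_map _ _ hi₁)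
  obtain ⟨θ, hθ⟩ := exists_stab_le U hU
  obtain ⟨s, hs, htr⟩ := exists_fibre_trans f₁ hm₁ hi₁ (g θ) Δ₁ hΔ₁
  set μ := f₁.map (evalRingHom (s : ℚ))
  have hsep : μ.Separable := separable_of_disc hAB₁ _ hs
  obtain ⟨y, hy⟩ := IsAlgClosed.exists_aeval_eq_zero Qb μ (by
    exact fun h0 => hi₁.ne_one ((hm₁.map _).natDegree_eq_zero.1 (by
      rw [hm₁.natDegree_map, ← hm₁.natDegree_map (evalRingHom (s : ℚ))]
      exact natDegree_eq_of_degree_eq_some h0)))
  obtain ⟨S', hS'⟩ := exists_padic_root μ y hy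
  obtain ⟨τ, hτ1, hτ2⟩ := htr (g y) y (by rw [aeval_algHom_apply g, hy, map_zero]) hy
  obtain ⟨ℓ, φ, hℓ, hℓS, hφ, hφ1, hφ2⟩ := Cheb.exists_fr
    (O := (MulAction.stabilizer GQ y : Set GQ) ∩ (fun x => g⁻¹ * x) ⁻¹' U)
    ((stabilizer_isOpen_of_isIntegral y).inter (hU.preimage (continuous_const_mul _)))
    (g := τ * g) ⟨hτ2, hθ _ (by
      rw [AlgEquiv.mul_apply, AlgEquiv.mul_apply, hτ1]
      exact g.symm_apply_apply θ)⟩ (S ∪ S')
  have := Fact.mk hℓ
  obtain ⟨b, hb⟩ := hS' ℓ φ (fun h => hℓS (Finset.mem_union_right _ h)) hφ hφ1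
  have key : ∀ p : (MvPolynomial σ ℚ)[X], p.eval₂ (MvPolynomial.aeval fun n =>
      aeval (s : ℚ_[ℓ]) (c₁ n)).toRingHom b =
      aeval b ((p.map (curve (RingHom.id ℚ) c₁)).map (evalRingHom (s : ℚ))) := by
    intro p
    have h1 : (algebraMap ℚ ℚ_[ℓ]).comp ((evalRingHom (s : ℚ)).comp (curve (RingHom.id ℚ) c₁)) =
        (MvPolynomial.aeval fun n => aeval (s : ℚ_[ℓ]) (c₁ n)).toRingHom := by
      apply MvPolynomial.ringHom_ext <;> simp [curve, c₁]
    rw [map_map, aeval_def, eval₂_map, h1]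
  refine ⟨ℓ, this, φ, fun h => hℓS (Finset.mem_union_left _ h), hφ, hφ2,
    fun n => aeval (s : ℚ_[ℓ]) (c₁ n), b, by rw [key]; exact hb, ?_⟩
  rw [key, ← derivative_map, ← derivative_map]
  exact hsep.aeval_derivative_ne_zero hb

/-- An algebraic number all of whose `p`-adic conjugates lie in `ℚ_p` is fixed by the
decomposition groups at `p`. -/
theorem fix_dec (p : ℕ) [hp : Fact p.Prime] (x : Qb)
    (hx : ∀ j : Qb →ₐ[ℚ] PadicAlgCl p, ∃ a : ℚ_[p], algebraMap ℚ_[p] (PadicAlgCl p) a = j x)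
    {P : Ideal (𝓞 Qb)} (hP : P.IsPrime) (hpP : (p : 𝓞 Qb) ∈ P) {g : GQ}
    (hg : ∀ z : 𝓞 Qb, g • z ∈ P ↔ z ∈ P) : g x = x := by
  have hb : ∀ {R : Ideal (𝓞 Qb)}, R.IsPrime → (p : 𝓞 Qb) ∈ R →
      below (algebraMap ℚ Qb) R = Ideal.span {(p : 𝓞 ℚ)} := by
    intro R hR hpR
    have h1 : (below (algebraMap ℚ Qb) R).IsPrime := Ideal.comap_isPrime _ _
    have h2 : Prime (p : 𝓞 ℚ) := by
      have h4 := (MulEquiv.prime_iff Rat.ringOfIntegersEquiv.symm.toMulEquiv).2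
        (Nat.prime_iff_prime_int.1 hp.out)
      have h5 : Rat.ringOfIntegersEquiv.symm.toMulEquiv (p : ℤ) = (p : 𝓞 ℚ) :=
        map_natCast Rat.ringOfIntegersEquiv.symm p
      rwa [h5] at h4
    have h6 : (Ideal.span {(p : 𝓞 ℚ)}).IsMaximal :=
      ((Ideal.span_singleton_prime h2.ne_zero).2 h2).isMaximal
        (by rw [Ne, Ideal.span_singleton_eq_bot]; exact h2.ne_zero)
    refine (h6.eq_of_le h1.1 ?_).symm
    rw [Ideal.span_singleton_le_iff_mem, below, Ideal.mem_comap, map_natCast]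
    exact hpR
  obtain ⟨⟨c, hc'⟩, hc⟩ := H916.exists_smul (algebraMap ℚ Qb) (P022D.Loc2.PP_prime p) hP
    ((hb (P022D.Loc2.PP_prime p) (P022D.Loc2.p_mem_PP p)).trans (hb hP hpP).symm)
  have h1 : ∀ z : 𝓞 Qb, z ∈ P022D.Loc2.PP p ↔ c • z ∈ P := fun z => by
    rw [hc, Ideal.smul_mem_pointwise_smul_iff]
  obtain ⟨a, ha⟩ := hx ((P022D.Loc2.io p).comp (c⁻¹ : GQ))
  have h2 := P022D.Loc2.fix p (c⁻¹ * g * c) (fun z => by
    rw [h1, h1, ← mul_smul, mul_assoc, mul_inv_cancel_left, mul_smul, hg]) (c⁻¹ x) a ha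
  rw [← AlgEquiv.mul_apply, mul_inv_cancel_right, AlgEquiv.mul_apply] at h2
  exact (c⁻¹ : GQ).injective h2

theorem IsFrob.exists_dec {ℓ : ℕ} (hℓ : ℓ.Prime) {φ : GQ} (h : IsFrob ℓ φ) :
    ∃ P : Ideal (𝓞 Qb), P.IsPrime ∧ (ℓ : 𝓞 Qb) ∈ P ∧ ∀ z : 𝓞 Qb, φ • z ∈ P ↔ z ∈ P := by
  obtain ⟨P, hP, hℓP, h⟩ := h
  refine ⟨P, hP, hℓP, fun z => ⟨fun hz => ?_, fun hz => ?_⟩⟩
  · have := P.sub_mem hz (h z)
    rw [sub_sub_cancel] at this
    exact hP.mem_of_pow_mem _ this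
  · simpa using P.add_mem (h z) (P.pow_mem_of_mem hz _ hℓ.pos)

/-- An algebraic number all of whose complex conjugates are real is fixed by the complex
conjugations. -/
theorem fix_conj (x : Qb) (hx : ∀ j : Qb →ₐ[ℚ] ℂ, ∃ a : ℝ, (a : ℂ) = j x) {c : GQ}
    (hc : IsConj c) : c x = x := by
  obtain ⟨φ, hφ⟩ := hc
  obtain ⟨a, ha⟩ := hx φ.toRatAlgHom
  apply φ.injective
  rw [hφ, show φ x = a from ha.symm, Complex.conj_ofReal]

end Vale.Agent.P022K.MB
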