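import Vale.Agent.P022K.MB.RR0

/-!
# P022K / MB / RR1: the theorem of Riemann for divisors supported on rational points and infinity
-/

open Polynomial Module
open scoped IntermediateField

namespace Vale.Agent.P022K.MB.RR

variable {k E : Type*} [Field k] [Field E] [Algebra k E]

theorem indep_pow_mul {x : E} (hx : Transcendental k x) {ι : Type*} {y : ι → E}
    (h : LinearIndependent k⟮x⟯ y) : LinearIndependent k (fun p : ℕ × ι => x ^ p.1 * y p.2) := by
  have h1 : LinearIndependent k (fun j : ℕ => (IntermediateField.AdjoinSimple.gen k x) ^ j) := by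
    refine LinearIndependent.of_comp (k⟮x⟯.val.toLinearMap) ?_
    have h2 := (Polynomial.basisMonomials k).linearIndependent.map' (aeval x).toLinearMap
      (LinearMap.ker_eq_bot.2 (transcendental_iff_injective.1 hx))
    have e : (aeval x).toLinearMap ∘ basisMonomials k = k⟮x⟯.val.toLinearMap ∘
        fun j : ℕ => (IntermediateField.AdjoinSimple.gen k x) ^ j := by
      funext j
      simp [coe_basisMonomials]
    exact e ▸ h2
  exact linearIndependent_smul h1 h

theorem exists_indep {x : E} [FiniteDimensional k⟮x⟯ E] :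
    ∃ y : Fin (finrank k⟮x⟯ E) → E, LinearIndependent k⟮x⟯ y ∧ ∀ l, y l ∈ OO k x := by
  let b := Module.finBasis k⟮x⟯ E
  choose d hd hd' using fun l => exists_mul_mem (k := k) (x := x) (b l)
  refine ⟨_, Fintype.linearIndependent_iff.2 fun g hg l => ?_, hd'⟩
  let u : Fin (finrank k⟮x⟯ E) → k⟮x⟯ := fun l => ⟨aeval x (d l),
    IntermediateField.algebra_adjoin_le_adjoin k _ (aeval_mem_adjoin_singleton k x)⟩
  have := Fintype.linearIndependent_iff.1 b.linearIndependent (fun l => g l * u l)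
    (by simp only [mul_smul]; exact hg) l
  exact (mul_eq_zero.1 this).resolve_right fun e => hd l (congrArg Subtype.val e)

theorem card_le_of_mem {ι : Type*} [Fintype ι] {v : ι → E} (h : LinearIndependent k v)
    (S : Submodule k E) [FiniteDimensional k S] (hv : ∀ i, v i ∈ S) :
    Fintype.card ι ≤ finrank k S :=
  (LinearIndependent.of_comp S.subtype (v := fun i => (⟨v i, hv i⟩ : S))
    h).fintype_card_le_finrank

theorem growth {x : E} (hx : Transcendental k x) [FiniteDimensional k⟮x⟯ E] :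
    ∃ j : ℕ, ∀ n : ℕ, (n + 1) * finrank k⟮x⟯ E ≤ finrank k (W k x (j + n)) := by
  obtain ⟨y, hy, hy'⟩ := exists_indep (k := k) (x := x)
  obtain ⟨j, hj⟩ := exists_forall_mem_T (k := k) (x := x) y
  refine ⟨j, fun n => ?_⟩
  have := fin_W hx (j + n)
  have h1 : LinearIndependent k fun p : Fin (n + 1) × Fin (finrank k⟮x⟯ E) =>
      x ^ (p.1 : ℕ) * y p.2 :=
    (indep_pow_mul hx hy).comp (fun p : Fin (n + 1) × Fin (finrank k⟮x⟯ E) => ((p.1 : ℕ), p.2))
      fun p q e => Prod.ext (Fin.ext (Prod.ext_iff.1 e).1) (Prod.ext_iff.1 e).2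
  have h4 := card_le_of_mem h1 (W k x (j + n)) fun p => by
    have h3 : x ^ (p.1 : ℕ) ∈ T k x (p.1 : ℕ) := by simpa using zpow_mem_T (k := k) x (p.1 : ℕ)
    exact ⟨(OO k x).mul_mem (pow_mem (self_mem_OO k x) _) (hy' _),
      T_mono (by have := p.1.2; omega) (T_mul h3 (hj p.2))⟩
  rwa [Fintype.card_prod, Fintype.card_fin, Fintype.card_fin] at h4

theorem finrank_Q_eq {x : E} (hx : Transcendental k x) [FiniteDimensional k⟮x⟯ E] :
    finrank k (Q k x) = finrank k⟮x⟯ E := by
  refine le_antisymm (finrank_Q (ne_zero_of hx)) (not_lt.1 fun h => ?_)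
  obtain ⟨j, hj⟩ := growth hx
  have := fin_W hx j
  have h1 := (step_le (ne_zero_of hx) (OO k x).toSubmodule j (finrank k (W k x j) + 1)).2
  have h2 := (hj (finrank k (W k x j) + 1)).trans h1
  change _ ≤ finrank k (W k x j) + _ at h2
  nlinarith

theorem step_full {x : E} (hx : Transcendental k x) [FiniteDimensional k⟮x⟯ E]
    (N : Submodule k E) (j : ℤ) [FiniteDimensional k ↥(N ⊓ T k x j)] (h : N ⊔ T k x j = ⊤)
    (n : ℕ) :
    finrank k ↥(N ⊓ T k x (j + n)) = finrank k ↥(N ⊓ T k x j) + n * finrank k⟮x⟯ E := by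
  have hx0 := ne_zero_of hx
  induction n with
  | zero => rw [Nat.cast_zero, add_zero]; simp
  | succ n ih =>
    have := (step_le hx0 N j n).1
    have h1 : (N ⊓ T k x (j + n + 1)).map (psi k x (j + n)) = Q k x := by
      refine le_antisymm (map_psi_le hx0 N _) ?_
      rw [← map_psi hx0 (j + n)]
      rintro _ ⟨e, he, rfl⟩
      obtain ⟨z, hz, t, ht, rfl⟩ := Submodule.mem_sup.1 (h ▸ Submodule.mem_top (x := e))
      have ht' : t ∈ T k x (j + n) := T_mono (by omega) ht
      refine ⟨z, ⟨hz, ?_⟩, by rw [map_add, (psi_eq_zero hx0).2 ht', add_zero]⟩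
      simpa using sub_mem he (T_mono (show j + n ≤ j + n + 1 by omega) ht')
    rw [Nat.cast_succ, ← add_assoc, (step hx0 N (j + n)).2, ih, h1, finrank_Q_eq hx]
    ring

/-- the genus, and strong approximation -/
theorem exists_genus {x : E} (hx : Transcendental k x) [FiniteDimensional k⟮x⟯ E]
    (hc : ∀ z : E, IsAlgebraic k z → ∃ c : k, algebraMap k E c = z) :
    ∃ g j₁ : ℕ, (OO k x).toSubmodule ⊔ T k x j₁ = ⊤ ∧
      (finrank k (W k x j₁) : ℤ) = j₁ * finrank k⟮x⟯ E + 1 - g := by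
  have hx0 := ne_zero_of hx
  have hf := fin_W hx
  set r := finrank k⟮x⟯ E with hr
  have hm : ∀ j n : ℕ, finrank k (W k x (j + n)) ≤ finrank k (W k x j) + n * r := fun j n => by
    have := (step_le hx0 (OO k x).toSubmodule j n).2
    rwa [finrank_Q_eq hx] at this
  obtain ⟨j₀, hj₀⟩ := growth hx
  obtain ⟨g, ⟨j₁, hj₁⟩, hg⟩ := Int.exists_greatest_of_bdd
    (P := fun g => ∃ j : ℕ, g = j * r + 1 - finrank k (W k x j)) ⟨j₀ * r + 1, by
      rintro _ ⟨j, rfl⟩
      have h1 := hj₀ j
      have h2 := hm j j₀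
      rw [add_comm] at h2
      have h3 : (j + 1) * r ≤ finrank k (W k x j) + j₀ * r := h1.trans h2
      have h4 : ((j + 1) * r : ℤ) ≤ finrank k (W k x j) + j₀ * r := by exact_mod_cast h3
      have h5 : (0 : ℤ) ≤ r := by positivity
      linarith⟩ ⟨_, 0, rfl⟩
  have h0 : finrank k (W k x (0 : ℕ)) ≤ 1 := by
    refine (Submodule.finrank_mono (t := Submodule.span k {(1 : E)}) fun z hz => ?_).trans
      (finrank_span_singleton one_ne_zero).le
    obtain ⟨c, rfl⟩ := hc z (OT_zero hz.1 hz.2).isAlgebraic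
    exact Submodule.mem_span_singleton.2 ⟨c, (Algebra.algebraMap_eq_smul_one c).symm⟩
  have hg0 := hg _ ⟨0, rfl⟩
  refine ⟨g.toNat, j₁, ?_, by omega⟩
  have h1 : ∀ n : ℕ, T k x (j₁ + n) ≤ (OO k x).toSubmodule ⊔ T k x j₁ := by
    intro n
    induction n with
    | zero => rw [Nat.cast_zero, add_zero]; exact le_sup_right
    | succ n ih =>
      have := fin_Q (k := k) hx0
      have h2 := (step hx0 (OO k x).toSubmodule (j₁ + n)).2
      have h3 := hg _ ⟨j₁ + n + 1, rfl⟩
      have h4 := hm j₁ n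
      have h5 : (W k x (j₁ + n + 1)).map (psi k x (j₁ + n)) = Q k x := by
        refine Submodule.eq_of_le_of_finrank_le (map_psi_le hx0 _ _) ?_
        rw [finrank_Q_eq hx]
        push_cast at h3
        zify at h2 h4 ⊢
        linarith
      intro e he
      rw [Nat.cast_succ, ← add_assoc] at he
      obtain ⟨z, hz, hz'⟩ : psi k x (j₁ + n) e ∈ (W k x (j₁ + n + 1)).map (psi k x (j₁ + n)) := by
        rw [h5, ← map_psi hx0 (j₁ + n)]
        exact ⟨e, he, rfl⟩
      rw [← add_sub_cancel z e]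
      exact add_mem (Submodule.mem_sup_left hz.1)
        (ih ((psi_eq_zero hx0).1 (by rw [map_sub, hz', sub_self])))
  refine eq_top_iff.2 fun z _ => ?_
  obtain ⟨j, hj⟩ := exists_mem_T (k := k) (x := x) z
  exact h1 j (T_mono (by omega) hj)

theorem dv_induct {ι : Type*} {P : (ι →₀ ℤ) → Prop} (h0 : P 0)
    (h : ∀ D a, P D ↔ P (D + Finsupp.single a 1)) (D : ι →₀ ℤ) : P D := by
  have key : ∀ D' D : ι →₀ ℤ, P D → P (D + D') := by
    intro D'
    induction D' using Finsupp.induction_linear with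
    | zero => simp
    | add f g hf hg => exact fun D hD => add_assoc D f g ▸ hg _ (hf _ hD)
    | single a n =>
      induction n using Int.induction_on with
      | zero => simp
      | succ n ih =>
        intro D hD
        rw [Finsupp.single_add, ← add_assoc]
        exact (h _ a).1 (ih D hD)
      | pred n ih =>
        intro D hD
        refine (h _ a).2 ?_
        rw [add_assoc, ← Finsupp.single_add, sub_add_cancel]
        exact ih D hD
  simpa using key D 0 h0

/-- the finite parts of the Riemann-Roch spaces -/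
structure Fam (k : Type*) {E : Type*} [Field k] [Field E] [Algebra k E] (x : E) {ι : Type*}
    (N : (ι →₀ ℤ) → Submodule k E) : Prop where
  zero : N 0 = (OO k x).toSubmodule
  mul : ∀ {D z w}, z ∈ N D → w ∈ OO k x → z * w ∈ N D
  mono : ∀ D a, N D ≤ N (D + Finsupp.single a 1)
  comb : ∀ {D a z w}, z ∈ N (D + Finsupp.single a 1) → z ∉ N D → w ∈ N (D + Finsupp.single a 1) →
    ∃ c : k, w - c • z ∈ N D
  strict : ∀ D a, ∃ w ∈ N (D + Finsupp.single a 1), w ∉ N D

namespace Fam

variable {x : E} {ι : Type*} {N : (ι →₀ ℤ) → Submodule k E} (F : Fam k x N)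
include F

theorem le_sup (D : ι →₀ ℤ) (a : ι) (S : Submodule k E) :
    ∃ z : E, N (D + Finsupp.single a 1) ⊓ S ≤ N D ⊓ S ⊔ Submodule.span k {z} := by
  by_cases h : N (D + Finsupp.single a 1) ⊓ S ≤ N D
  · exact ⟨0, le_sup_of_le_left (le_inf h inf_le_right)⟩
  · obtain ⟨z, hz, hz'⟩ := SetLike.not_le_iff_exists.1 h
    refine ⟨z, fun w hw => ?_⟩
    obtain ⟨c, hc⟩ := F.comb hz.1 hz' hw.1
    rw [← sub_add_cancel w (c • z)]
    exact add_mem (Submodule.mem_sup_left ⟨hc, sub_mem hw.2 (S.smul_mem c hz.2)⟩)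
      (Submodule.mem_sup_right (Submodule.mem_span_singleton.2 ⟨c, rfl⟩))

theorem fin (hx : Transcendental k x) [FiniteDimensional k⟮x⟯ E] (D : ι →₀ ℤ) (j : ℤ) :
    FiniteDimensional k ↥(N D ⊓ T k x j) := by
  refine dv_induct (P := fun D => FiniteDimensional k ↥(N D ⊓ T k x j)) ?_ (fun D a => ?_) D
  · rw [F.zero]; exact fin_W hx j
  · refine ⟨fun _ => ?_, fun _ =>
      Submodule.finiteDimensional_of_le (inf_le_inf_right _ (F.mono D a))⟩
    obtain ⟨z, hz⟩ := F.le_sup D a (T k x j)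
    exact Submodule.finiteDimensional_of_le hz

theorem large (hx : Transcendental k x) [FiniteDimensional k⟮x⟯ E] (D : ι →₀ ℤ) :
    ∃ j₀ : ℤ, ∀ j, j₀ ≤ j →
      (finrank k ↥(N D ⊓ T k x j) : ℤ) = finrank k (W k x j) + D.degree := by
  refine dv_induct (P := fun D => ∃ j₀ : ℤ, ∀ j, j₀ ≤ j →
      (finrank k ↥(N D ⊓ T k x j) : ℤ) = finrank k (W k x j) + D.degree) ?_ (fun D a => ?_) D
  · exact ⟨0, fun j _ => by rw [F.zero, map_zero, add_zero]⟩
  · obtain ⟨w, hw, hw'⟩ := F.strict D a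
    obtain ⟨i, hi⟩ := exists_mem_T (k := k) (x := x) w
    have key : ∀ j : ℤ, i ≤ j → finrank k ↥(N (D + Finsupp.single a 1) ⊓ T k x j) =
        finrank k ↥(N D ⊓ T k x j) + 1 := fun j hj => by
      have := F.fin hx D j
      have := F.fin hx (D + Finsupp.single a 1) j
      obtain ⟨z, hz⟩ := F.le_sup D a (T k x j)
      refine le_antisymm ((Submodule.finrank_mono hz).trans
        ((Submodule.finrank_add_le_finrank_add_finrank _ _).trans (Nat.add_le_add_left ?_ _)))
        (Submodule.finrank_lt_finrank_of_lt (lt_of_le_of_ne (inf_le_inf_right _ (F.mono D a))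
          fun e => hw' ?_))
      · simpa using finrank_span_le_card (R := k) ({z} : Set E)
      · exact (e.ge ⟨hw, T_mono hj hi⟩).1
    rw [map_add, Finsupp.degree_single]
    constructor <;> rintro ⟨j₀, h⟩ <;> refine ⟨max j₀ i, fun j hj => ?_⟩ <;>
      have h1 := h j ((le_max_left _ _).trans hj) <;>
      have h2 := key j ((le_max_right _ _).trans hj) <;> omega

theorem riemann (hx : Transcendental k x) [FiniteDimensional k⟮x⟯ E]
    (hc : ∀ z : E, IsAlgebraic k z → ∃ c : k, algebraMap k E c = z) : ∃ g c : ℕ,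
    (∀ D j, D.degree + j * finrank k⟮x⟯ E + 1 - g ≤ (finrank k ↥(N D ⊓ T k x j) : ℤ)) ∧
    ∀ D j, (c : ℤ) ≤ D.degree + j * finrank k⟮x⟯ E →
      (finrank k ↥(N D ⊓ T k x j) : ℤ) = D.degree + j * finrank k⟮x⟯ E + 1 - g := by
  obtain ⟨g, j₁, hs, hg⟩ := exists_genus hx hc
  have key : ∀ D j, ∃ n : ℕ, (finrank k ↥(N D ⊓ T k x (j + n)) : ℤ) =
      D.degree + (j + n) * finrank k⟮x⟯ E + 1 - g := fun D j => by
    obtain ⟨j₀, h⟩ := F.large hx D
    obtain ⟨n, hn⟩ := Int.le.dest (le_max_left j (max j₀ j₁))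
    obtain ⟨m, hm⟩ := Int.le.dest ((le_max_right j₀ j₁).trans (le_max_right j (max j₀ j₁)))
    have := fin_W hx j₁
    have h1 := step_full hx _ j₁ hs m
    refine ⟨n, ?_⟩
    rw [h _ (by omega), hn, ← hm, h1]
    push_cast
    rw [hg]
    ring
  have R1 : ∀ D j, D.degree + j * finrank k⟮x⟯ E + 1 - g ≤ (finrank k ↥(N D ⊓ T k x j) : ℤ) :=
    fun D j => by
      obtain ⟨n, hn⟩ := key D j
      have := F.fin hx D j
      have h1 := (step_le (ne_zero_of hx) (N D) j n).2
      rw [finrank_Q_eq hx] at h1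
      zify at h1
      linarith
  refine ⟨g, g + j₁ * finrank k⟮x⟯ E, R1, fun D j hj => ?_⟩
  have h1 := R1 D (j - j₁)
  have h2 : N D ⊓ T k x (j - j₁) ≠ ⊥ := fun e => by
    rw [e, finrank_bot] at h1
    push_cast at hj h1
    linarith
  obtain ⟨h, hh, h0⟩ := (Submodule.ne_bot_iff _).1 h2
  have h3 : N D ⊔ T k x j = ⊤ := eq_top_iff.2 fun z _ => by
    obtain ⟨w, hw, t, ht, e⟩ := Submodule.mem_sup.1 (hs ▸ Submodule.mem_top (x := z / h))
    rw [← mul_div_cancel₀ z h0, ← e, mul_add]
    exact add_mem (Submodule.mem_sup_left (F.mul hh.1 hw))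
      (Submodule.mem_sup_right (by simpa using T_mul hh.2 ht))
  obtain ⟨n, hn⟩ := key D j
  have := F.fin hx D j
  rw [step_full hx _ j h3 n] at hn
  push_cast at hn
  linarith

end Fam

end Vale.Agent.P022K.MB.RR
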