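import Mathlib

/-!
# P022K / MB: Moret-Bailly's theorem, statements (helper22)

`x` is a transcendental element of a function field `E / k`.  `OO k x` is the ring of functions
integral over `k[x]`, `V k x M` is the Riemann-Roch space of `M` times the pole divisor of `x`.
-/

namespace Vale.Agent.P022K.MB

open Polynomial
open scoped IntermediateField

section defs
variable (k : Type*) {E : Type*} [Field k] [Field E] [Algebra k E]

/-- the functions integral over `k[x]` -/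
def OO (x : E) : Subalgebra k E :=
  (integralClosure (Algebra.adjoin k {x}) E).restrictScalars k

theorem mem_OO {x z : E} : z ∈ OO k x ↔ IsIntegral (Algebra.adjoin k {x}) z := Iff.rfl

theorem self_mem_OO (x : E) : x ∈ OO k x :=
  (mem_OO k).2 (isIntegral_algebraMap
    (x := (⟨x, Algebra.self_mem_adjoin_singleton k x⟩ : Algebra.adjoin k {x})))

/-- functions with poles at most `M` times the pole divisor of `x` -/
def V (x : E) (M : ℕ) : Submodule k E where
  carrier := {z | z ∈ OO k x ∧ z * x⁻¹ ^ M ∈ OO k x⁻¹}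
  add_mem' := fun {a b} ha hb => ⟨add_mem ha.1 hb.1, by
    rw [add_mul]; exact add_mem ha.2 hb.2⟩
  zero_mem' := ⟨zero_mem _, by rw [zero_mul]; exact zero_mem _⟩
  smul_mem' := fun c a ha => ⟨Subalgebra.smul_mem _ ha.1 c, by
    rw [smul_mul_assoc]; exact Subalgebra.smul_mem _ ha.2 c⟩

theorem mem_V {x z : E} {M : ℕ} : z ∈ V k x M ↔ z ∈ OO k x ∧ z * x⁻¹ ^ M ∈ OO k x⁻¹ := Iff.rfl

/-- `E = k(x, y)` is the function field of the plane curve `f = 0` -/
structure IsFF (f : k[X][X]) (x y : E) : Prop where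
  ker : ∀ p : k[X][X], aevalAeval x y p = 0 ↔ f ∣ p
  gen : ∀ z : E, ∃ p q : k[X][X], aevalAeval x y q ≠ 0 ∧ z * aevalAeval x y q = aevalAeval x y p

end defs

/-- COUNT: a non zero function of `V M` has at most `M r` zeros. -/
def COUNT : Prop :=
  ∀ (k E : Type) [Field k] [Field E] [Algebra k E] (x : E), Transcendental k x →
    ∀ [FiniteDimensional k⟮x⟯ E] [Algebra.IsSeparable k⟮x⟯ E] (M : ℕ) (H : OO k x),
      (H : E) ∈ V k x M → H ≠ 0 →
      ∀ (Ω : Type) [Field Ω] [Algebra k Ω] (S : Finset (OO k x →ₐ[k] Ω)), (∀ P ∈ S, P H = 0) →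
        S.card ≤ M * Module.finrank k⟮x⟯ E

/-- LOC: over a local field, a multiple of the pole divisor of `x` is linearly equivalent to a
sum of distinct rational points of a given analytic arc; every multiple of `M0` works. -/
def LOC : Prop :=
  ∀ (k : Type) [NontriviallyNormedField k] [ProperSpace k] [CharZero k]
    (E : Type) [Field E] [Algebra k E] (x : E), Transcendental k x →
    ∀ [FiniteDimensional k⟮x⟯ E], (∀ z : E, IsAlgebraic k z → ∃ c : k, algebraMap k E c = z) →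
    ∀ (U : Set k), IsOpen U → U.Nonempty → ∀ ev : k → (OO k x →ₐ[k] k),
      (∀ ξ ∈ U, ev ξ ⟨x, self_mem_OO k x⟩ = ξ) →
      (∀ (h : OO k x), ∀ ξ ∈ U, AnalyticAt k (fun t => ev t h) ξ) →
      ∃ M0 : ℕ, 0 < M0 ∧ ∀ n : ℕ, 0 < n → ∃ (H : OO k x) (Z : Finset k),
        (H : E) ∈ V k x (n * M0) ∧ Z.card = n * M0 * Module.finrank k⟮x⟯ E ∧
        ∀ ξ ∈ Z, ξ ∈ U ∧ ev ξ H = 0 ∧ deriv (fun t => ev t H) ξ ≠ 0

/-- BC: Riemann-Roch spaces commute with extension of the constant field. -/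
def BC : Prop :=
  ∀ (K k E E' : Type) [Field K] [CharZero K] [Field k] [Algebra K k] [Field E] [Algebra K E]
    [Field E'] [Algebra k E'] [Algebra K E'] [IsScalarTower K k E']
    (f : K[X][X]) (x y : E) (φ : E →ₐ[K] E'), f.Monic → IsFF K f x y →
    IsFF k (f.map (mapRingHom (algebraMap K k))) (φ x) (φ y) →
    ∀ M : ℕ, V k (φ x) M ≤ Submodule.span k (φ '' (V K x M : Set E))

/-- CORE: Moret-Bailly for a plane curve, with points over finite Galois extensions `l i` of the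
local fields `k i` (take `l i = k i` for split places). -/
def CORE : Prop :=
  ∀ (K : Type) [Field K] [CharZero K] (ι : Type) [Finite ι] (k l : ι → Type)
    [∀ i, NontriviallyNormedField (k i)] [∀ i, NontriviallyNormedField (l i)]
    [∀ i, NormedAlgebra (k i) (l i)] [∀ i, ProperSpace (l i)] [∀ i, CompleteSpace (k i)]
    [∀ i, FiniteDimensional (k i) (l i)] [∀ i, IsGalois (k i) (l i)]
    [∀ i, Algebra K (k i)] [∀ i, Algebra K (l i)] [∀ i, IsScalarTower K (k i) (l i)],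
    DenseRange (fun a : K => fun i => algebraMap K (k i) a) →
    ∀ f : K[X][X], f.Monic →
    (∀ (Ω : Type) [Field Ω] (φ : K →+* Ω), Irreducible (f.map (mapRingHom φ))) →
    ∀ (a b : ∀ i, l i), (∀ i, aevalAeval (a i) (b i) f = 0) →
    (∀ i, aevalAeval (a i) (b i) (derivative f) ≠ 0) →
    ∀ W : ∀ i, Set (l i × l i), (∀ i, W i ∈ nhds (a i, b i)) →
    ∀ δ : K[X], δ ≠ 0 →
    ∃ s y : AlgebraicClosure K, aevalAeval s y f = 0 ∧ aeval s δ ≠ 0 ∧
      ∀ (i : ι) (Ω : Type) [Field Ω] [Algebra K Ω] (e : l i →ₐ[K] Ω)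
        (j : AlgebraicClosure K →ₐ[K] Ω),
        ∃ p ∈ W i, ∃ σ : l i ≃ₐ[k i] l i, j s = e (σ p.1) ∧ j y = e (σ p.2)

/-- MBD: the same for a hypersurface `f(t, y) = 0`. -/
def MBD : Prop :=
  ∀ (K : Type) [Field K] [CharZero K] (ι : Type) [Finite ι] (k l : ι → Type)
    [∀ i, NontriviallyNormedField (k i)] [∀ i, NontriviallyNormedField (l i)]
    [∀ i, NormedAlgebra (k i) (l i)] [∀ i, ProperSpace (l i)] [∀ i, CompleteSpace (k i)]
    [∀ i, FiniteDimensional (k i) (l i)] [∀ i, IsGalois (k i) (l i)]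
    [∀ i, Algebra K (k i)] [∀ i, Algebra K (l i)] [∀ i, IsScalarTower K (k i) (l i)],
    DenseRange (fun a : K => fun i => algebraMap K (k i) a) →
    ∀ (σ : Type) [Finite σ] (f : (MvPolynomial σ K)[X]), f.Monic →
    Irreducible (f.map (MvPolynomial.map (algebraMap K (AlgebraicClosure K)))) →
    ∀ (a : ∀ i, σ → l i) (b : ∀ i, l i),
    (∀ i, f.eval₂ (MvPolynomial.aeval (a i)).toRingHom (b i) = 0) →
    (∀ i, (derivative f).eval₂ (MvPolynomial.aeval (a i)).toRingHom (b i) ≠ 0) →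
    ∀ W : ∀ i, Set ((σ → l i) × l i), (∀ i, W i ∈ nhds (a i, b i)) →
    ∀ δ : MvPolynomial σ K, δ ≠ 0 →
    ∃ (t : σ → AlgebraicClosure K) (y : AlgebraicClosure K),
      f.eval₂ (MvPolynomial.aeval t).toRingHom y = 0 ∧ MvPolynomial.aeval t δ ≠ 0 ∧
      ∀ (i : ι) (Ω : Type) [Field Ω] [Algebra K Ω] (e : l i →ₐ[K] Ω)
        (j : AlgebraicClosure K →ₐ[K] Ω),
        ∃ p ∈ W i, ∃ τ : l i ≃ₐ[k i] l i, (∀ n, j (t n) = e (τ (p.1 n))) ∧ j y = e (τ p.2)

end Vale.Agent.P022K.MB
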