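import Mathlib.Analysis.Normed.Module.FiniteDimension
import Mathlib.Analysis.Calculus.InverseFunctionTheorem.FDeriv
import Mathlib.Analysis.Calculus.Deriv.Mul
import Mathlib.Analysis.Calculus.FDeriv.Prod
import Mathlib.Analysis.Calculus.Deriv.Add
import Mathlib.Order.Filter.Ultrafilter.Basic
import Mathlib.LinearAlgebra.Dual.Lemmas

/-!
# P022K / MB / Wk: limits in finite dimensional subspaces of an algebra over a local field

`Lim F z z₀`: every linear functional of `z i` tends to its value at `z₀`.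
-/

open Filter Topology Module

namespace Vale.Agent.P022K.MB.Wk

variable {k E ι : Type*} [NontriviallyNormedField k]

section Lin

variable [AddCommGroup E] [Module k E]

/-- weak convergence -/
def Lim (k : Type*) [NontriviallyNormedField k] [Module k E] (F : Filter ι) (z : ι → E) (z₀ : E) :
    Prop :=
  ∀ l : E →ₗ[k] k, Tendsto (fun i => l (z i)) F (𝓝 (l z₀))

theorem Lim.const (F : Filter ι) (z : E) : Lim k F (fun _ => z) z := fun _ => tendsto_const_nhds

theorem Lim.congr {F : Filter ι} {z w : ι → E} {z₀ : E} (h : Lim k F z z₀) (e : z =ᶠ[F] w) :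
    Lim k F w z₀ := fun l => (h l).congr' (e.mono fun _ hi => congrArg l hi)

theorem Lim.comp {κ : Type*} {F : Filter ι} {G : Filter κ} {z : ι → E} {z₀ : E}
    (h : Lim k F z z₀) {a : κ → ι} (ha : Tendsto a G F) : Lim k G (fun i => z (a i)) z₀ :=
  fun l => (h l).comp ha

theorem Lim.add {F : Filter ι} {z w : ι → E} {z₀ w₀ : E} (h : Lim k F z z₀) (h' : Lim k F w w₀) :
    Lim k F (fun i => z i + w i) (z₀ + w₀) := fun l => by
  simpa only [map_add] using (h l).add (h' l)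

theorem Lim.smul {F : Filter ι} {c : ι → k} {c₀ : k} {z : ι → E} {z₀ : E}
    (hc : Tendsto c F (𝓝 c₀)) (h : Lim k F z z₀) : Lim k F (fun i => c i • z i) (c₀ • z₀) :=
  fun l => by simpa only [map_smul, smul_eq_mul] using hc.mul (h l)

theorem Lim.map {E' : Type*} [AddCommGroup E'] [Module k E'] {F : Filter ι} {z : ι → E} {z₀ : E}
    (h : Lim k F z z₀) (f : E →ₗ[k] E') : Lim k F (fun i => f (z i)) (f z₀) :=
  fun l => h (l.comp f)

theorem Lim.mem {F : Filter ι} [F.NeBot] {z : ι → E} {z₀ : E} (h : Lim k F z z₀)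
    {N : Submodule k E} (hz : ∀ᶠ i in F, z i ∈ N) : z₀ ∈ N := by
  by_contra hn
  obtain ⟨l, h1, h2⟩ := Submodule.exists_le_ker_of_notMem hn
  have h3 : Tendsto (fun i => l (z i)) F (𝓝 0) :=
    tendsto_const_nhds.congr' (hz.mono fun i hi => (h2 hi).symm)
  exact h1 (tendsto_nhds_unique (h l) h3)

theorem Lim.unique {F : Filter ι} [F.NeBot] {z : ι → E} {z₀ z₁ : E} (h : Lim k F z z₀)
    (h' : Lim k F z z₁) : z₀ = z₁ := by
  by_contra hn
  obtain ⟨l, hl⟩ := Module.Projective.exists_dual_ne_zero k (sub_ne_zero.2 hn)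
  exact hl (by rw [map_sub, tendsto_nhds_unique (h l) (h' l), sub_self])

/-- coordinates on a finite dimensional subspace -/
theorem exists_chart (N : Submodule k E) [FiniteDimensional k N] :
    ∃ (n : ℕ) (π : E →ₗ[k] (Fin n → k)) (σ : (Fin n → k) →ₗ[k] E),
      (∀ z ∈ N, σ (π z) = z) ∧ (∀ c, σ c ∈ N) ∧ ∀ c, π (σ c) = c := by
  let b := (Module.finBasis k N).equivFun
  obtain ⟨p, hp⟩ := N.subtype.exists_leftInverse_of_injective N.ker_subtype
  have hp' : ∀ z : N, p z = z := fun z => LinearMap.congr_fun hp z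
  refine ⟨_, b.toLinearMap.comp p, N.subtype.comp b.symm.toLinearMap, fun z hz => ?_,
    fun c => (b.symm c).2, fun c => ?_⟩
  · have := hp' ⟨z, hz⟩
    simp only [LinearMap.comp_apply, LinearEquiv.coe_coe, LinearEquiv.symm_apply_apply,
      Submodule.subtype_apply]
    exact congrArg Subtype.val this
  · simp only [LinearMap.comp_apply, LinearEquiv.coe_coe, Submodule.subtype_apply, hp',
      LinearEquiv.apply_symm_apply]

theorem Lim.pi {F : Filter ι} {z : ι → E} {z₀ : E} (h : Lim k F z z₀) {n : ℕ}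
    (π : E →ₗ[k] (Fin n → k)) : Tendsto (fun i => π (z i)) F (𝓝 (π z₀)) :=
  tendsto_pi_nhds.2 fun a => h ((LinearMap.proj a).comp π)

theorem Lim.of_pi [CompleteSpace k] {F : Filter ι} {n : ℕ} {c : ι → Fin n → k} {c₀ : Fin n → k}
    (h : Tendsto c F (𝓝 c₀)) (σ : (Fin n → k) →ₗ[k] E) : Lim k F (fun i => σ (c i)) (σ c₀) :=
  fun l => ((l.comp σ).continuous_of_finiteDimensional.tendsto c₀).comp h

/-- compactness of the projective space -/
theorem exists_lim [ProperSpace k] (N : Submodule k E) [FiniteDimensional k N] (u : Ultrafilter ι)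
    {z : ι → E} (hz : ∀ᶠ i in u, z i ∈ N ∧ z i ≠ 0) :
    ∃ (c : ι → k) (z₀ : E), z₀ ≠ 0 ∧ (∀ i, c i ≠ 0) ∧ Lim k u (fun i => c i • z i) z₀ := by
  classical
  obtain ⟨n, π, σ, h1, h2, h3⟩ := exists_chart N
  obtain ⟨a, ha⟩ := NormedField.exists_one_lt_norm k
  have hc : ∀ i, ∃ c : k, c ≠ 0 ∧ (π (z i) ≠ 0 → 1 / ‖a‖ ≤ ‖c • π (z i)‖ ∧ ‖c • π (z i)‖ < 1) := by
    intro i
    by_cases h : π (z i) = 0
    · exact ⟨1, one_ne_zero, fun h' => absurd h h'⟩
    · obtain ⟨c, c0, c1, c2, -⟩ := rescale_to_shell ha one_pos h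
      exact ⟨c, c0, fun _ => ⟨c2, c1⟩⟩
  choose c c0 hc using hc
  have hne : ∀ᶠ i in u, π (z i) ≠ 0 := hz.mono fun i hi h => hi.2 (by rw [← h1 _ hi.1, h, map_zero])
  have hK : IsCompact (Metric.closedBall (0 : Fin n → k) 1) := isCompact_closedBall _ _
  obtain ⟨w, -, hw⟩ := hK.ultrafilter_le_nhds (u.map fun i => c i • π (z i))
    (le_principal_iff.2 (Ultrafilter.mem_map.2 (hne.mono fun i hi => by
      simpa using (hc i hi).2.le)))
  have hw' : Tendsto (fun i => c i • π (z i)) u (𝓝 w) := hw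
  have hw0 : 1 / ‖a‖ ≤ ‖w‖ := ge_of_tendsto hw'.norm (hne.mono fun i hi => (hc i hi).1)
  refine ⟨c, σ w, fun h => ?_, c0, (Lim.of_pi hw' σ).congr (hz.mono fun i hi => ?_)⟩
  · have : w = 0 := by rw [← h3 w, h, map_zero]
    rw [this, norm_zero] at hw0
    exact absurd hw0 (not_le.2 (by positivity))
  · simp only [map_smul, h1 _ hi.1]

/-- the limit of a family of subspaces -/
def lim (F : Filter ι) (W : ι → Submodule k E) : Set E :=
  {z₀ | ∃ w : ι → E, (∀ i, w i ∈ W i) ∧ Lim k F w z₀}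

theorem mem_lim [CompleteSpace k] {κ : Type*} (N : Submodule k E) [FiniteDimensional k N]
    (u : Ultrafilter ℕ) (hu : (u : Filter ℕ) ≤ atTop) {W : ℕ → Submodule k E} (hW : ∀ m, W m ≤ N)
    {v : Filter κ} [v.NeBot] {b : κ → ℕ} (hb : Tendsto b v u) {z : κ → E}
    (hz : ∀ᶠ i in v, z i ∈ W (b i)) {z₀ : E} (h : Lim k v z z₀) : z₀ ∈ lim u W := by
  obtain ⟨n, π, σ, h1, h2, h3⟩ := exists_chart N
  have hz₀ : z₀ ∈ N := h.mem (hz.mono fun i hi => hW _ hi)
  have hA : ∀ ε > 0, ∀ᶠ m in u, ∃ w ∈ W m, dist (π w) (π z₀) < ε := by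
    intro ε hε
    by_contra hn
    have h4 := hb.eventually (Ultrafilter.eventually_not.2 hn)
    obtain ⟨i, hi, hi', hi''⟩ :=
      (h4.and (hz.and (Metric.tendsto_nhds.1 (h.pi π) ε hε))).exists
    exact hi ⟨_, hi', hi''⟩
  have hB : ∀ m : ℕ, ∃ w ∈ W m, ∀ w' ∈ W m,
      dist (π w) (π z₀) < dist (π w') (π z₀) + 1 / (m + 1 : ℝ) := by
    intro m
    have hne : ((fun w => dist (π w) (π z₀)) '' (W m : Set E)).Nonempty :=
      ⟨_, 0, (W m).zero_mem, rfl⟩
    have hbd : BddBelow ((fun w => dist (π w) (π z₀)) '' (W m : Set E)) :=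
      ⟨0, by rintro _ ⟨w, -, rfl⟩; exact dist_nonneg⟩
    obtain ⟨_, ⟨w, hw, rfl⟩, hlt⟩ := exists_lt_of_csInf_lt hne
      (lt_add_of_pos_right _ (show (0 : ℝ) < 1 / (m + 1 : ℝ) by positivity))
    refine ⟨w, hw, fun w' hw' => hlt.trans_le ?_⟩
    have := csInf_le hbd ⟨w', hw', rfl⟩
    linarith
  choose w hw hB using hB
  refine ⟨w, hw, ?_⟩
  have hT : Tendsto (fun m => π (w m)) u (𝓝 (π z₀)) := by
    refine Metric.tendsto_nhds.2 fun ε hε => ?_
    have h5 : ∀ᶠ m : ℕ in u, 1 / (m + 1 : ℝ) < ε / 2 :=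
      hu (tendsto_one_div_add_atTop_nhds_zero_nat.eventually (gt_mem_nhds (half_pos hε)))
    filter_upwards [hA (ε / 2) (half_pos hε), h5] with m ⟨w', hw', hd⟩ h6
    have := hB m w' hw'
    linarith
  have := Lim.of_pi hT σ
  rw [h1 _ hz₀] at this
  exact this.congr (Eventually.of_forall fun m => h1 _ (hW m (hw m)))

/-- continuity of the values, jointly in the point and in the function -/
theorem tendsto_ev [CompleteSpace k] (N : Submodule k E) [FiniteDimensional k N]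
    (ev : k → E →ₗ[k] k) {a : k} (hev : ∀ z ∈ N, ContinuousAt (fun ξ => ev ξ z) a)
    {F : Filter ι} {p : ι → E} (hp : ∀ᶠ i in F, p i ∈ N) {p₀ : E} (h₀ : p₀ ∈ N)
    (h : Lim k F p p₀) :
    Tendsto (fun s : ι × k => ev s.2 (p s.1)) (F ×ˢ 𝓝 a) (𝓝 (ev a p₀)) := by
  classical
  obtain ⟨n, π, σ, h1, h2, -⟩ := exists_chart N
  have key : ∀ ξ, ∀ z ∈ N, ev ξ z = ∑ j, π z j * ev ξ (σ (Pi.single j 1)) := by
    intro ξ z hz
    conv_lhs => rw [← h1 z hz, pi_eq_sum_univ' (π z)]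
    simp only [map_sum, map_smul, smul_eq_mul]
  rw [key a p₀ h₀]
  refine Tendsto.congr' ((tendsto_fst.eventually hp).mono fun s hs => (key _ _ hs).symm) ?_
  exact tendsto_finsetSum _ fun j _ =>
    ((tendsto_pi_nhds.1 (h.pi π) j).comp tendsto_fst).mul
      ((hev _ (h2 _)).tendsto.comp tendsto_snd)

theorem ev_ne [CompleteSpace k] (N : Submodule k E) [FiniteDimensional k N]
    (ev : k → E →ₗ[k] k) {a : k} (hev : ∀ z ∈ N, ContinuousAt (fun ξ => ev ξ z) a)
    {F : Filter ι} {p : ι → E} (hp : ∀ᶠ i in F, p i ∈ N) {p₀ : E} (h₀ : p₀ ∈ N)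
    (h : Lim k F p p₀) (hne : ev a p₀ ≠ 0) :
    ∃ S ∈ 𝓝 a, ∀ᶠ i in F, ∀ ξ ∈ S, ev ξ (p i) ≠ 0 := by
  have := (tendsto_ev N ev hev hp h₀ h).eventually_ne hne
  obtain ⟨A, hA, S, hS, hAS⟩ := eventually_prod_iff.1 this
  exact ⟨_, hS, hA.mono fun i hi ξ hξ => hAS hi hξ⟩

/-- a simple zero persists -/
theorem ev_zero [CompleteSpace k] (N : Submodule k E) [FiniteDimensional k N]
    (ev : k → E →ₗ[k] k) {a : k} (hev : ∀ z ∈ N, ∃ d, HasStrictDerivAt (fun ξ => ev ξ z) d a)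
    {F : Filter ι} {p : ι → E} (hp : ∀ᶠ i in F, p i ∈ N) {p₀ : E} (h₀ : p₀ ∈ N)
    (h : Lim k F p p₀) (hz : ev a p₀ = 0) {d : k} (hd : HasStrictDerivAt (fun ξ => ev ξ p₀) d a)
    (hd0 : d ≠ 0) {S : Set k} (hS : S ∈ 𝓝 a) : ∀ᶠ i in F, ∃ ξ ∈ S, ev ξ (p i) = 0 := by
  classical
  obtain ⟨n, π, σ, h1, h2, -⟩ := exists_chart N
  choose D hD using fun j : Fin n => hev _ (h2 (Pi.single j 1))
  let G : k × (Fin n → k) → k := fun s => ev s.1 (σ s.2)
  have hG : ∃ G' : k × (Fin n → k) →L[k] k, HasStrictFDerivAt G G' (a, π p₀) := by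
    have e : G = fun s => ∑ j, s.2 j * ev s.1 (σ (Pi.single j 1)) := by
      funext s
      simp only [G]
      conv_lhs => rw [pi_eq_sum_univ' s.2]
      simp only [map_sum, map_smul, smul_eq_mul]
    rw [e]
    have e1 := fun j : Fin n => HasStrictFDerivAt.comp (f := Prod.fst) (a, π p₀)
      (hD j).hasStrictFDerivAt (hasStrictFDerivAt_fst (𝕜 := k))
    have e2 := fun j : Fin n => ((ContinuousLinearMap.proj (R := k) j).comp
      (ContinuousLinearMap.snd k k (Fin n → k))).hasStrictFDerivAt (x := (a, π p₀))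
    exact ⟨_, HasStrictFDerivAt.fun_sum fun j _ => HasStrictFDerivAt.fun_mul (e2 j) (e1 j)⟩
  obtain ⟨G', hG⟩ := hG
  have hG1 : ∀ δ : k, G' (δ, 0) = δ * d := by
    have e1 : HasFDerivAt (fun ξ : k => G (ξ, π p₀))
        (G'.comp (ContinuousLinearMap.inl k k (Fin n → k))) a :=
      HasFDerivAt.comp (f := fun ξ : k => (ξ, π p₀)) a hG.hasFDerivAt
        (hasFDerivAt_prodMk_left a (π p₀))
    simp only [G, h1 _ h₀] at e1
    intro δ
    have := congrArg (fun f : k →L[k] k => f δ) (e1.unique hd.hasDerivAt.hasFDerivAt)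
    simpa using this
  have hΦ := hG.prodMk (hasStrictFDerivAt_snd (𝕜 := k) (p := (a, π p₀)))
  have hsurj : (G'.prod (ContinuousLinearMap.snd k k (Fin n → k))).range = ⊤ := by
    refine LinearMap.range_eq_top.2 fun s => ⟨((s.1 - G' (0, s.2)) / d, s.2), ?_⟩
    have e : (((s.1 - G' (0, s.2)) / d, s.2) : k × (Fin n → k)) =
        ((s.1 - G' (0, s.2)) / d, 0) + (0, s.2) := by simp
    refine Prod.ext ?_ rfl
    show G' _ = s.1
    rw [e, map_add, hG1, div_mul_cancel₀ _ hd0, sub_add_cancel]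
  have hm := hΦ.map_nhds_eq_of_surj hsurj
  have hT : Tendsto (fun i => ((0 : k), π (p i))) F (𝓝 (G (a, π p₀), π p₀)) := by
    simp only [G, h1 _ h₀, hz]
    exact tendsto_const_nhds.prodMk_nhds (h.pi π)
  have hI : (fun s : k × (Fin n → k) => (G s, s.2)) '' (S ×ˢ Set.univ) ∈
      𝓝 (G (a, π p₀), π p₀) := by
    rw [← hm]
    exact image_mem_map (prod_mem_nhds hS univ_mem)
  filter_upwards [hT.eventually hI, hp] with i ⟨s, hs, e⟩ hi
  refine ⟨s.1, hs.1, ?_⟩
  obtain ⟨e1, e2⟩ := Prod.ext_iff.1 e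
  simp only [G] at e1 e2
  rwa [e2, h1 _ hi] at e1

end Lin

section Alg

variable [Field E] [Algebra k E]

theorem Lim.mul [CompleteSpace k] (N : Submodule k E) [FiniteDimensional k N] {F : Filter ι}
    {z w : ι → E} {z₀ w₀ : E} (hN : ∀ᶠ i in F, z i ∈ N) (h₀ : z₀ ∈ N) (h : Lim k F z z₀)
    (h' : Lim k F w w₀) : Lim k F (fun i => z i * w i) (z₀ * w₀) := by
  classical
  obtain ⟨n, π, σ, h1, h2, -⟩ := exists_chart N
  intro l
  have key : ∀ z ∈ N, ∀ w, l (z * w) = ∑ j, π z j * l (σ (Pi.single j 1) * w) := by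
    intro z hz w
    conv_lhs => rw [← h1 z hz, pi_eq_sum_univ' (π z)]
    simp only [map_sum, map_smul, smul_eq_mul, Finset.sum_mul, smul_mul_assoc]
  rw [key z₀ h₀]
  refine Tendsto.congr' (hN.mono fun s hs => (key _ hs _).symm) ?_
  exact tendsto_finsetSum _ fun j _ => (tendsto_pi_nhds.1 (h.pi π) j).mul
    (h' (l.comp (LinearMap.mulLeft k (σ (Pi.single j 1)))))

theorem Lim.div [ProperSpace k] (N N' : Submodule k E) [FiniteDimensional k N]
    [FiniteDimensional k N'] (u : Ultrafilter ι) {q y : ι → E} {q₀ z₀ : E}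
    (hq : ∀ᶠ i in u, q i ∈ N) (hy : ∀ᶠ i in u, y i ∈ N') (h : Lim k u q q₀) (h0 : q₀ ≠ 0)
    (h' : Lim k u (fun i => q i * y i) z₀) : Lim k u y (z₀ / q₀) := by
  rcases u.em fun i => y i = 0 with hy0 | hy0
  · have h1 : Lim k (u : Filter ι) (fun _ => (0 : E)) z₀ :=
      h'.congr (hy0.mono fun i hi => by simp only [hi, mul_zero])
    rw [h1.unique (Lim.const _ _), zero_div]
    exact (Lim.const _ _).congr (hy0.mono fun i hi => hi.symm)
  obtain ⟨c, y₀, y0, c0, hc⟩ := exists_lim N' u (hy.and hy0)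
  have h2 := Lim.mul N hq (h.mem hq) h hc
  obtain ⟨l, hl⟩ := Module.Projective.exists_dual_ne_zero k (mul_ne_zero h0 y0)
  have h3 : Tendsto (fun i => (c i)⁻¹) u (𝓝 (l z₀ / l (q₀ * y₀))) := by
    refine ((h' l).div (h2 l) hl).congr' (((h2 l).eventually_ne hl).mono fun i hi => ?_)
    simp only [Pi.div_apply, mul_smul_comm, map_smul, smul_eq_mul] at hi ⊢
    have := c0 i
    have h4 := right_ne_zero_of_mul hi
    field_simp
  have h4 : Lim k u y ((l z₀ / l (q₀ * y₀)) • y₀) :=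
    (Lim.smul h3 hc).congr (Eventually.of_forall fun i => by
      simp only [smul_smul, inv_mul_cancel₀ (c0 i), one_smul])
  have h5 := (Lim.mul N hq (h.mem hq) h h4).unique h'
  rwa [← h5, mul_div_cancel_left₀ _ h0]

end Alg

end Vale.Agent.P022K.MB.Wk
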